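import Vale.Agent.P097F.LC.Defs

/-!
# P097F/LC: the checkpoints and the clocks at the base points
-/

set_option linter.all false

noncomputable section

namespace Vale.Agent.P097F.LC.Cg

open Filter Topology Set Metric Complex Vale.Agent.P097F.N Vale.Agent.P097F.S Vale.Agent.P097D
open Vale.Agent.P097EE (C2)

variable {T : TD}

theorem e_lim (T : TD) : Tendsto T.ε T.𝒰 (𝓝 0) := by
  simpa [Function.comp_def] using (continuous_re.tendsto _).comp T.seq.el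

theorem sq_lim (T : TD) {x : ℝ} {u : ℕ → ℝ} (h : ∀ j, |u j - x / T.ε j| ≤ 1) :
    Tendsto (fun j => T.ε j * u j) T.𝒰 (𝓝 x) := by
  refine tendsto_sub_nhds_zero_iff.1 (squeeze_zero_norm (a := T.ε) (fun j => ?_) (e_lim T))
  have e := T.e0 j
  rw [show T.ε j * u j - x = T.ε j * (u j - x / T.ε j) by field_simp, Real.norm_eq_abs, abs_mul,
    abs_of_pos e]
  nlinarith [h j]

theorem lo_lim (O : Ob T) (p : Sc) (i : ℕ) :
    Tendsto (fun j => T.ε j * ((md O p j).lo i : ℝ)) T.𝒰 (𝓝 (lo0 O p i)) :=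
  sq_lim T fun j => abs_le.2 ⟨by linarith [Int.le_ceil (lo0 O p i / T.ε j),
    show (((md O p j).lo i : ℤ) : ℝ) = ⌈lo0 O p i / T.ε j⌉ from rfl], by
    linarith [Int.ceil_lt_add_one (lo0 O p i / T.ε j),
      show (((md O p j).lo i : ℤ) : ℝ) = ⌈lo0 O p i / T.ε j⌉ from rfl]⟩

theorem hi_lim (O : Ob T) (p : Sc) (i : ℕ) :
    Tendsto (fun j => T.ε j * ((md O p j).hi i : ℝ)) T.𝒰 (𝓝 (hi0 O p i)) :=
  sq_lim T fun j => abs_le.2 ⟨by linarith [Int.lt_floor_add_one (hi0 O p i / T.ε j),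
    show (((md O p j).hi i : ℤ) : ℝ) = ⌊hi0 O p i / T.ε j⌋ from rfl], by
    linarith [Int.floor_le (hi0 O p i / T.ε j),
      show (((md O p j).hi i : ℤ) : ℝ) = ⌊hi0 O p i / T.ε j⌋ from rfl]⟩

theorem n_lim (T : TD) {p : Sc} (h : 0 ≤ p.n) :
    Tendsto (fun j => T.ε j * (nn T p j : ℝ)) T.𝒰 (𝓝 p.n) :=
  sq_lim T fun j => abs_le.2 ⟨by unfold nn; linarith [Nat.lt_floor_add_one (p.n / T.ε j)], by
    unfold nn; linarith [Nat.floor_le (div_nonneg h (T.e0 j).le)]⟩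

/-- the limit of the base points -/
def q0 (T : TD) (n t : ℝ) : C2 := (T.W, T.a + T.W * t + (T.H₀ - 10 * n * T.W : ℝ) * I)

theorem near (T : TD) {n : ℝ} (n0 : 0 ≤ n) (t : ℝ) {η : ℝ} (η0 : 0 < η) :
    ∀ᶠ R in 𝓝[>] (0 : ℝ), ∀ p : Sc, p.n = n → p.R = R → ∀ i : ℕ → ℤ,
      Tendsto (fun j => T.ε j * (i j : ℝ)) T.𝒰 (𝓝 t) → ∀ᶠ j in (T.𝒰 : Filter ℕ), ∀ ζ : ℂ,
        ‖ζ‖ < p.R / T.ε j → pt T p j (i j, ζ) ∈ closedBall (q0 T n t) η := by
  have W1 := T.W1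
  have t0 := abs_nonneg t
  filter_upwards [Ioo_mem_nhdsGT (show 0 < η / (4 * T.W * (|t| + 1)) by positivity)]
    with R ⟨R0, R1⟩ p hn hR i hi
  subst hn hR
  rw [lt_div_iff₀ (by positivity)] at R1
  have c := continuous_ofReal.tendsto
  have lv := (c _).comp T.loc.lv
  have li := (c _).comp hi
  have l0 : Tendsto (fun j => pt T p j (i j, 0)) T.𝒰 (𝓝 (q0 T p.n t)) := by
    have lx := (c _).comp (T.loc.lH.sub (((n_lim T n0).const_mul 10).mul T.loc.lv))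
    have := lv.prodMk_nhds (((lv.mul li).const_add (T.a : ℂ)).add (lx.mul_const I))
    refine this.congr fun j => ?_
    simp only [pt, x0, Function.comp]
    push_cast
    congr 1 <;> ring
  filter_upwards [Metric.tendsto_nhds.1 l0 _ (half_pos η0),
    T.loc.lv.abs.eventually (gt_mem_nhds (show |T.W| < 2 * T.W by rw [abs_of_pos] <;> linarith)),
    hi.abs.eventually (gt_mem_nhds (lt_add_one |t|))] with j k1 k2 k3 ζ hζ
  have e := T.e0 j
  have C1 := T.loc.C1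
  rw [lt_div_iff₀ e] at hζ
  have w : ‖al T j * ζ‖ ≤ 2 * T.W * p.R := by
    rw [al, norm_mul, norm_mul, norm_real, norm_real, Real.norm_of_nonneg e.le, Real.norm_eq_abs,
      abs_div, abs_of_pos (show 0 < T.C by linarith)]
    have : |T.v j| / T.C ≤ 2 * T.W := (div_le_self (abs_nonneg _) C1).trans k2.le
    calc _ = |T.v j| / T.C * (‖ζ‖ * T.ε j) := by ring
      _ ≤ _ := by gcongr
  have d : pt T p j (i j, ζ) - pt T p j (i j, 0) =
      (al T j * ζ, ((T.ε j * (i j : ℝ) : ℝ) : ℂ) * (al T j * ζ)) := by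
    simp only [pt, Prod.mk_sub_mk]
    push_cast
    congr 1 <;> ring
  have d2 : ‖pt T p j (i j, ζ) - pt T p j (i j, 0)‖ ≤ η / 2 := by
    rw [d, Prod.norm_mk, norm_mul (_ : ℂ) (al T j * ζ), norm_real, Real.norm_eq_abs]
    have := norm_nonneg (al T j * ζ)
    have a1 : |T.ε j * (i j : ℝ)| * ‖al T j * ζ‖ ≤ (|t| + 1) * (2 * T.W * p.R) := by gcongr
    have a2 : 0 ≤ |t| * (2 * T.W * p.R) := by positivity
    exact max_le (by nlinarith) (by nlinarith)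
  rw [← dist_eq_norm] at d2
  have := dist_triangle (pt T p j (i j, ζ)) (pt T p j (i j, 0)) (q0 T p.n t)
  exact mem_closedBall.2 (by linarith)

/-- the clock of the model -/
def tq (T : TD) (c : ℕ) (q : C2) : ℂ := (q.2 - T.Xn c q.1) / q.1

theorem xn (T : TD) {c : ℕ} (hc : c < T.M) :
    D.One T.E T.Y T.W (T.Xn c T.W) T.σ T.ρ' (T.Xn c) (T.Φ ⟨c, hc⟩) (T.Δ ⟨c, hc⟩) ∧
      T.P c = (T.Φ ⟨c, hc⟩ (T.W, 0), T.Δ ⟨c, hc⟩ (T.W, 0)) ∧ (T.Xn c T.W).im = T.H₀ ∧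
      (T.Xn c T.W).re = T.a + T.W * T.pos c ∧ |T.W * T.pos c| ≤ T.L - 1 := by
  have W1 := T.W1
  have e : (T.Xn c T.W).re = T.a + T.W * T.pos c := by
    unfold TD.pos; field_simp; ring
  have k : T.Xn c = T.X ⟨c, hc⟩ := dif_pos hc
  obtain ⟨t1, t2, t3⟩ := T.obs.top ⟨c, hc⟩
  rw [← k] at t1 t2 t3
  exact ⟨k ▸ T.obs.one _, dif_pos hc, t1, e, abs_le.2 ⟨by linarith, by linarith⟩⟩

/-- the model near the checkpoints -/
theorem loc (O : Ob T) {c : ℕ} (hc : c < T.M) : ∀ᶠ ϱ in 𝓝[>] (0 : ℝ), 0 < ϱ ∧ ϱ ≤ O.r₀ c ∧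
    ∀ d n : ℝ, |d| = ‖O.κ c‖ * ϱ ^ 2 / 4 → 0 ≤ n → 20 * n ≤ |d| →
      q0 T n (T.pos c + d) ∈ T.E.Om ∧
      (0 < n → q0 T n (T.pos c + d) ∈ Wd T.a T.L (-T.E.b₀) T.ρ T.K T.C T.W T.H₀ T.b₀) ∧
      Tendsto (tq T c) (𝓝 (q0 T n (T.pos c + d))) (𝓝 (d - (10 * n : ℝ) * I)) ∧
      ∀ᶠ q in 𝓝 (q0 T n (T.pos c + d)), Clm T.E.g (O.Ξ₀ c) (T.P c) (T.W ^ 3) (O.r₀ c) (O.s c)
        (Z0 T.Y q) q.1 (tq T c q) ∧ ‖O.κ c‖ * ϱ ^ 2 / 32 ≤ ‖tq T c q‖ ∧
        ‖tq T c q‖ ≤ ‖O.κ c‖ * ϱ ^ 2 / 2 ∧ ‖q.1 ^ 3 - T.W ^ 3‖ < ϱ / 2 := by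
  obtain ⟨on, eP, e1, e2, e3⟩ := xn T hc
  have W1 := T.W1
  have w0 : (T.W : ℂ) ≠ 0 := ofReal_ne_zero.2 (by linarith)
  have Lv := (O.lv c hc).lim
  have k0 := norm_pos_iff.2 Lv.κ0
  obtain ⟨δ, δ0, δ1, δ2, hδ⟩ := one_clk on T.obs.σ0 T.obs.ρ0 w0 (eP ▸ Lv)
  rw [← eP] at hδ
  obtain ⟨l1, l2, l3⟩ := T.obs.lim
  have := T.hα
  have := T.hb
  filter_upwards [Ioc_mem_nhdsGT Lv.r0, nhdsWithin_le_nhds (((by fun_prop : Continuous fun ϱ : ℝ =>
    T.W * (‖O.κ c‖ * ϱ ^ 2)).tendsto' 0 0 (by simp)).eventually (gt_mem_nhds δ0))]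
    with ϱ ⟨r0, r1⟩ r2
  refine ⟨r0, r1, fun d n hd n0 hn => ?_⟩
  have d0 : 0 < |d| := by rw [hd]; positivity
  have d1 : T.W * |d| < δ / 4 := by rw [hd]; linarith
  have n1 : 20 * n * T.W ≤ T.W * |d| := by nlinarith
  have n2 : 0 ≤ n * T.W := by positivity
  have d2 := abs_le.1 (show |T.W * d| ≤ T.W * |d| by rw [abs_mul, abs_of_pos (by linarith)])
  have e4 := abs_le.1 e3
  set q := q0 T n (T.pos c + d) with hq
  have q1 : q.1 = T.W := rfl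
  have q2 : q.2.re = T.a + T.W * T.pos c + T.W * d := by simp [hq, q0]; ring
  have q3 : q.2.im = T.H₀ - 10 * n * T.W := by simp [hq, q0]
  have q4 : q.2 - T.Xn c q.1 = T.W * (d - (10 * n : ℝ) * I) :=
    Complex.ext (by simp [q1, q2, e2]) (by simp [q1, q3, e1]; ring)
  have nu : ‖(d - (10 * n : ℝ) * I : ℂ)‖ ≤ 3 / 2 * |d| := by
    refine (norm_sub_le _ _).trans ?_
    rw [norm_mul, norm_I, norm_real, norm_real, Real.norm_eq_abs, Real.norm_of_nonneg (by linarith)]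
    linarith
  have nl : |d| ≤ ‖(d - (10 * n : ℝ) * I : ℂ)‖ := by
    simpa using abs_re_le_norm (d - (10 * n : ℝ) * I : ℂ)
  have ne : q.2.re ≠ (T.Xn c q.1).re := fun e => by
    rw [q1, q2, e2, add_eq_left, mul_eq_zero] at e
    rcases e with e | e
    · linarith
    · simp [e] at d0
  have cX : ContinuousAt (fun x : C2 => T.Xn c x.1) q := ContinuousAt.comp (g := T.Xn c)
    (on.an _ (mem_ball_self T.obs.σ0)).continuousAt continuousAt_fst
  have ct : Tendsto (tq T c) (𝓝 q) (𝓝 (d - (10 * n : ℝ) * I)) := by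
    have e : tq T c q = d - (10 * n : ℝ) * I := by rw [tq, q4, q1, mul_div_cancel_left₀ _ w0]
    exact e ▸ ((continuousAt_snd.sub cX).div continuousAt_fst w0).tendsto
  refine ⟨(on.om _ (mem_ball_self T.obs.σ0) q.2 ⟨by linarith, by linarith, by linarith,
    by linarith⟩).2 fun s => ne s.1, fun n3 => mem_wd.2 ⟨by simp [q1, T.loc.ρ0],
      abs_lt.2 ⟨by linarith, by linarith⟩, by linarith, ?_⟩, ct, ?_⟩
  · have : 0 < n * T.W := by positivity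
    simp only [tw, q1, ofReal_re, ofReal_im, sub_self, abs_zero]
    linarith
  have m1 : ‖q.2 - T.Xn c q.1‖ < δ := by
    rw [q4, norm_mul, norm_real, Real.norm_of_nonneg (by linarith)]
    nlinarith
  filter_upwards [(continuousAt_fst.sub (continuousAt_const (y := (T.W : ℂ)))).norm.eventually
      (gt_mem_nhds (show ‖q.1 - T.W‖ < δ by simpa [q1] using δ0)),
    (continuousAt_snd.sub cX).norm.eventually (gt_mem_nhds m1),
    ((continuous_re.continuousAt.comp continuousAt_snd).sub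
      (continuous_re.continuousAt.comp cX)).eventually_ne (sub_ne_zero.2 ne),
    ct.norm.eventually (lt_mem_nhds (show ‖O.κ c‖ * ϱ ^ 2 / 32 < _ by linarith)),
    ct.norm.eventually (gt_mem_nhds (show _ < ‖O.κ c‖ * ϱ ^ 2 / 2 by linarith)),
    ((continuousAt_fst.pow 3).sub (continuousAt_const (y := (T.W : ℂ) ^ 3))).norm.eventually
      (gt_mem_nhds (show ‖q.1 ^ 3 - T.W ^ 3‖ < ϱ / 2 by simpa [q1] using r0))]
    with x a1 a2 a3 a4 a5 a6
  exact ⟨(hδ x.1 x.2 a1 a2 fun s => a3 (sub_eq_zero.2 s.1)).2, a4.le, a5.le, a6⟩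

theorem evall {l : Filter ℕ} {M : ℕ} {P : ℕ → Sc → ℝ → ℕ → Prop}
    (h : ∀ c < M, Ev fun p K => ∀ᶠ j in l, P c p K j) :
    Ev fun p K => ∀ᶠ j in l, ∀ c < M, P c p K j := by
  induction M with
  | zero => simp [Ev]
  | succ M ih =>
    refine ((ih fun c hc => h c (by omega)).and (h M (by omega))).mono fun p K ⟨a, b⟩ => ?_
    filter_upwards [a, b] with j a b c hc
    rcases Nat.lt_succ_iff_lt_or_eq.1 hc with k | rfl
    exacts [a c k, b]

theorem yf (T : TD) {q : C2} (hq : q ∈ Wd T.a T.L (-T.E.b₀) T.ρ T.K T.C T.W T.H₀ T.b₀) :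
    Z0 T.Y q = Z0 T.F₀ q :=
  z0_congr (wd_open ..) (fun p hp => ((wom T.mx T.hα T.hβ T.hb
    (by nlinarith [T.LW, T.W1, T.loc.C1]) T.loc T.sU T.eqA).2 p hp).2) hq

theorem thi (O : Ob T) (p : Sc) {c : ℕ} (hc : c < T.M) : Tendsto
    (fun j => T.ε j * ((md O p j).hi c : ℝ)) T.𝒰 (𝓝 (T.pos c + -1 * dd O p c)) := by
  have := hi_lim O p c
  rwa [hi0, if_pos hc, sub_eq_add_neg, ← neg_one_mul] at this

theorem tlo (O : Ob T) (p : Sc) (c : ℕ) : Tendsto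
    (fun j => T.ε j * ((md O p j).lo (c + 1) : ℝ)) T.𝒰 (𝓝 (T.pos c + 1 * dd O p c)) := by
  have := lo_lim O p (c + 1)
  rwa [lo0, if_neg (by omega), Nat.add_sub_cancel, ← one_mul (dd O p c)] at this

theorem ck1 (O : Ob T) {c : ℕ} (hc : c < T.M) {e : ℝ} (he : |e| = 1) : Ev fun p _ =>
    ∀ i : ℕ → ℤ, Tendsto (fun j => T.ε j * (i j : ℝ)) T.𝒰 (𝓝 (T.pos c + e * dd O p c)) →
      ∀ᶠ j in (T.𝒰 : Filter ℕ), ∀ ζ : ℂ, ‖ζ‖ < p.R / T.ε j → Ck (La (T.g j))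
        (Xv (T.g j) (O.Ξ c j)) (T.W ^ 3) p.ϱ p.r (Zt (T.ε j) (T.F j) (pt T p j (i j, ζ))) := by
  filter_upwards [loc O hc] with ϱ ⟨r0, r1, h⟩
  have Lv := (O.lv c hc).lim
  have k0 := norm_pos_iff.2 Lv.κ0
  set d := e * (‖O.κ c‖ * ϱ ^ 2 / 4) with hd
  have ad : |d| = ‖O.κ c‖ * ϱ ^ 2 / 4 := by rw [hd, abs_mul, he, one_mul, abs_of_pos (by positivity)]
  have d0 : 0 < |d| / 20 := by rw [ad]; positivity
  have az := z0_an T.mx.fam.an (D.om _ T.mx.ok).1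
  have h' := fun n (hn : n ∈ Icc 0 (|d| / 20)) => h d n ad hn.1 (by linarith [hn.2])
  obtain ⟨a, a0, ha⟩ := ((O.lv c hc).mono r0 r1).ck (isCompact_Icc.image_of_continuousOn
    (f := fun n => Z0 T.Y (q0 T n (T.pos c + d))) (az.continuousOn.comp
      (by unfold q0; fun_prop) fun n hn => (h' n hn).1)) (by
    rintro _ ⟨n, hn, rfl⟩
    obtain ⟨b1, b2, b3, b4⟩ := (h' n hn).2.2.2.self_of_nhds
    exact b1.ins Lv r0 b2 b3 b4)
  filter_upwards [Ioc_mem_nhdsGT a0] with r ⟨_, ra⟩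
  refine .of_forall fun A => .of_forall fun m => ?_
  filter_upwards [Ioc_mem_nhdsGT d0] with n ⟨n0, n1⟩
  obtain ⟨b1, b2, -⟩ := h' n ⟨n0.le, n1⟩
  obtain ⟨η, η0, hη⟩ := nhds_basis_closedBall.eventually_iff.1 (Eventually.and
    ((wd_open ..).mem_nhds (b2 n0))
    (Metric.tendsto_nhds.1 (az _ b1).continuousAt.tendsto _ (half_pos a0)))
  filter_upwards [near T n0.le (T.pos c + d) η0] with R hR
  refine .of_forall fun H => .of_forall fun K i hi => ?_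
  filter_upwards [hR ⟨ϱ, r, A, m, n, R, H⟩ rfl rfl i hi, ha, (tf_of T.loc).zu T.seq.e0 T.seq.el
    (isCompact_closedBall _ η) (fun q hq => (hη hq).1) (half_pos a0)] with j k1 k2 k3 ζ hζ
  refine k2 _ ⟨n, ⟨n0.le, n1⟩, rfl⟩ _ ?_ r ra
  have u1 := (k3 _ (k1 ζ hζ)).2
  have u2 := (hη (k1 ζ hζ)).2
  rw [← yf T (hη (k1 ζ hζ)).1, ← dist_eq_norm] at u1
  rw [← dist_eq_norm]
  exact (dist_triangle _ _ _).trans (by linarith)

/-- **the checkpoints** -/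
theorem ck : R_CK := fun T O => evall fun c hc =>
  ((ck1 O hc (e := -1) (by simp)).and (ck1 O hc (e := 1) (by simp))).mono fun p _ ⟨a, b⟩ => by
    filter_upwards [a _ (thi O p hc), b _ (tlo O p c)] with j a b ζ hζ using ⟨a ζ hζ, b ζ hζ⟩

/-- **the clocks at the base points** -/
theorem geo : R_GEO := fun T O => evall fun c hc => by
  filter_upwards [loc O hc] with ϱ ⟨r0, r1, h⟩
  have k0 := norm_pos_iff.2 (O.lv c hc).lim.κ0
  obtain ⟨d, hd⟩ : ∃ d, d = ‖O.κ c‖ * ϱ ^ 2 / 4 := ⟨_, rfl⟩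
  have d0 : 0 < d := by rw [hd]; positivity
  refine .of_forall fun r => .of_forall fun A => ?_
  filter_upwards [Ioc_mem_nhdsGT (show 0 < d / 8 by positivity)] with m ⟨m0, m1⟩
  filter_upwards [Ioc_mem_nhdsGT (show 0 < d / 40 by positivity)] with n ⟨n0, n1⟩
  have ad : |-1 * d| = d := by rw [neg_one_mul, abs_neg, abs_of_pos d0]
  obtain ⟨-, b2, b3, b4⟩ := h (-1 * d) n (ad.trans hd) n0.le (by linarith)
  obtain ⟨η, η0, hη⟩ := nhds_basis_closedBall.eventually_iff.1 (Eventually.and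
    ((wd_open ..).mem_nhds (b2 n0)) ((Metric.tendsto_nhds.1 b3 _ n0).and b4))
  filter_upwards [near T n0.le (T.pos c + -1 * d) η0] with R hR
  refine .of_forall fun H => ?_
  filter_upwards [eventually_ge_atTop (2 / d)] with K hK
  have K1 : 1 / K ≤ d / 2 := by
    rw [div_le_iff₀ d0] at hK
    rw [div_le_iff₀ (by nlinarith)]
    linarith
  set p : Sc := ⟨ϱ, r, A, m, n, R, H⟩
  have ed : dd O p c = d := hd.symm
  have tN := (tlo O p c).sub (thi O p hc)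
  filter_upwards [hR p rfl rfl _ (ed ▸ thi O p hc), ((O.lv c hc).tru r0 r1 (tf_of T.loc) T.seq.e0
    T.seq.el (isCompact_closedBall _ η) (fun q hq => (hη hq).1) (t := tq T c)
    fun q hq => yf T (hη hq).1 ▸ (hη hq).2.2).2 n n0, Metric.tendsto_nhds.1 tN n n0]
    with j k1 k2 k3 ζ hζ
  have e := T.e0 j
  have u1 := (k2 _ (k1 ζ hζ)).1
  have u2 := (hη (k1 ζ hζ)).2.1
  rw [dist_eq_norm] at u2
  have u : ‖(md O p j).τ₀ c ζ - ((-1 * d : ℝ) - (10 * n : ℝ) * I)‖ ≤ 2 * n :=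
    (norm_sub_le_norm_sub_add_norm_sub _ _ _).trans ((add_le_add u1.le u2.le).trans (by linarith))
  generalize (md O p j).τ₀ c ζ = τ at u ⊢
  have en : T.ε j * (md O p j).n ≤ n := (le_div_iff₀' e).1 (Nat.floor_le (by positivity))
  have em : T.ε j * (md O p j).m ≤ m := (le_div_iff₀' e).1 (Nat.floor_le (by positivity))
  rw [Real.dist_eq, ed, ← mul_sub, abs_lt] at k3
  have eN : ((md O p j).N c : ℝ) = (md O p j).lo (c + 1) - (md O p j).hi c := by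
    have : (0 : ℝ) ≤ (md O p j).lo (c + 1) - (md O p j).hi c :=
      nonneg_of_mul_nonneg_right (by linarith : 0 ≤ T.ε j * _) e
    rw [← Int.cast_natCast, Md.N, Int.toNat_of_nonneg (by exact_mod_cast this), Int.cast_sub]
  rw [← eN] at k3
  have v1 := abs_le.1 ((abs_re_le_norm _).trans u)
  have v2 := abs_le.1 ((abs_im_le_norm _).trans u)
  simp only [sub_re, sub_im, ofReal_re, ofReal_im, mul_re, mul_im, I_re, I_im] at v1 v2
  have w1 := norm_le_abs_re_add_abs_im τ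
  have w2 := norm_le_abs_re_add_abs_im (τ + T.ε j * (md O p j).N c)
  simp only [add_re, add_im, mul_re, mul_im, ofReal_re, ofReal_im, natCast_re, natCast_im,
    mul_zero, zero_mul, sub_zero, add_zero] at w2
  have x1 : |τ.re| ≤ d + 2 * n := abs_le.2 ⟨by linarith, by linarith⟩
  have x2 : |τ.im| ≤ 12 * n := abs_le.2 ⟨by linarith, by linarith⟩
  have x3 : |τ.re + T.ε j * (md O p j).N c| ≤ d + 3 * n := abs_le.2 ⟨by linarith, by linarith⟩
  have x4 : ‖(md O p j).κ c‖ * (md O p j).ϱ c ^ 2 / 2 = 2 * d := by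
    rw [hd]; show ‖O.κ c‖ * ϱ ^ 2 / 2 = _; ring
  exact ⟨by linarith, by linarith, by linarith, by linarith, by linarith⟩

end Vale.Agent.P097F.LC.Cg
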