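import Vale.Agent.P097F.LC.Defs

/-!
# P097F/LC: the checkpoints
-/

set_option linter.all false

noncomputable section

namespace Vale.Agent.P097F.LC.Ck2

open Filter Topology Set Metric Complex Vale.Agent.P097F.N Vale.Agent.P097F.S Vale.Agent.P097D
open Vale.Agent.P097EE (C2)

theorem el (T : TD) : Tendsto T.ε T.𝒰 (𝓝 0) := by
  simpa [Function.comp_def] using (continuous_re.tendsto _).comp T.seq.el

theorem fl (T : TD) (x : ℝ) : Tendsto (fun j => T.ε j * (⌊x / T.ε j⌋ : ℝ)) T.𝒰 (𝓝 x) := by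
  have h2 : Tendsto (fun n => x - T.ε n) T.𝒰 (𝓝 x) := by simpa using (el T).const_sub x
  refine tendsto_of_tendsto_of_tendsto_of_le_of_le h2 tendsto_const_nhds (fun n => ?_) fun n => ?_
  · have := mul_lt_mul_of_pos_left (Int.lt_floor_add_one (x / T.ε n)) (T.e0 n)
    rw [mul_div_cancel₀ _ (T.e0 n).ne'] at this
    show _ ≤ _
    linarith
  · have := mul_le_mul_of_nonneg_left (Int.floor_le (x / T.ε n)) (T.e0 n).le
    rwa [mul_div_cancel₀ _ (T.e0 n).ne'] at this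

theorem ce (T : TD) (x : ℝ) : Tendsto (fun j => T.ε j * (⌈x / T.ε j⌉ : ℝ)) T.𝒰 (𝓝 x) := by
  have := (fl T (-x)).neg
  simpa [neg_div, Int.floor_neg] using this

theorem fn (T : TD) {p : Sc} (h : 0 ≤ p.n) :
    Tendsto (fun j => T.ε j * (nn T p j : ℝ)) T.𝒰 (𝓝 p.n) := by
  refine (fl T p.n).congr fun j => ?_
  rw [nn, ← Int.natCast_floor_eq_floor (div_nonneg h (T.e0 j).le), Int.cast_natCast]

theorem lx (T : TD) {p : Sc} (h : 0 ≤ p.n) :
    Tendsto (x0 T p) T.𝒰 (𝓝 (T.a + (T.H₀ - 10 * T.W * p.n : ℝ) * I)) := by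
  have a : Tendsto (fun j => T.H j - T.ε j * T.v j * (10 * nn T p j)) T.𝒰
      (𝓝 (T.H₀ - 10 * T.W * p.n)) :=
    (T.loc.lH.sub ((T.loc.lv.const_mul 10).mul (fn T h))).congr fun j => by ring
  exact (((continuous_ofReal.tendsto _).comp a).mul_const I).const_add _

/-- the base points of a station stay near the limit point -/
theorem near (T : TD) {n t δ : ℝ} (n0 : 0 ≤ n) (δ0 : 0 < δ) : ∀ᶠ R in 𝓝[>] (0 : ℝ), ∀ p : Sc,
    p.n = n → ∀ i : ℕ → ℤ, Tendsto (fun j => T.ε j * i j) T.𝒰 (𝓝 t) →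
    ∀ᶠ j in (T.𝒰 : Filter ℕ), ∀ ζ : ℂ, ‖ζ‖ < R / T.ε j → pt T p j (i j, ζ) ∈
      closedBall (((T.W : ℂ), T.a + (T.H₀ - 10 * T.W * n : ℝ) * I + T.W * t) : C2) δ := by
  set ξ : ℂ := T.a + (T.H₀ - 10 * T.W * n : ℝ) * I
  have c : Continuous fun z : (ℂ × ℂ) × ℂ × ℂ =>
      ((z.1.1 + z.1.2, z.2.1 + (z.1.1 + z.1.2) * z.2.2) : C2) := by fun_prop
  obtain ⟨e, e0, he⟩ := Metric.eventually_nhds_iff_ball.1 ((c.tendsto (((T.W : ℂ), 0), ξ, t)).eventually
    (closedBall_mem_nhds _ δ0))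
  have W1 := T.W1
  have C1 := T.loc.C1
  filter_upwards [Ioo_mem_nhdsGT (show 0 < e / (2 * T.W) by positivity)] with R hR p hp i hi
  have l1 := ((continuous_ofReal.tendsto _).comp T.loc.lv).eventually (ball_mem_nhds _ e0)
  have l2 := (lx T (hp ▸ n0 : 0 ≤ p.n)).eventually (ball_mem_nhds _ e0)
  have l3 := ((continuous_ofReal.tendsto _).comp hi).eventually (ball_mem_nhds _ e0)
  filter_upwards [l1, l2, l3, T.loc.lv.abs.eventually (gt_mem_nhds
    (show |T.W| < 2 * T.W by rw [abs_of_pos] <;> linarith))] with j k1 k2 k3 k4 ζ hζ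
  have ej := T.e0 j
  have u : ‖al T j * ζ‖ < e := by
    rw [lt_div_iff₀ ej] at hζ
    have h2 := (lt_div_iff₀ (by linarith)).1 hR.2
    have h3 : |T.v j| / T.C ≤ 2 * T.W := (div_le_self (abs_nonneg _) C1).trans k4.le
    rw [al, norm_mul, norm_mul, Complex.norm_real, Complex.norm_real, Real.norm_of_nonneg ej.le,
      Real.norm_eq_abs, abs_div, abs_of_pos (show 0 < T.C by linarith)]
    calc T.ε j * (|T.v j| / T.C) * ‖ζ‖ = ‖ζ‖ * T.ε j * (|T.v j| / T.C) := by ring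
      _ ≤ R * (2 * T.W) := mul_le_mul hζ.le h3 (by positivity) hR.1.le
      _ < e := h2
  have := he (((T.v j : ℂ), al T j * ζ), x0 T p j, ((T.ε j * i j : ℝ) : ℂ)) (by
    rw [← ball_prod_same, ← ball_prod_same, ← ball_prod_same]
    exact ⟨⟨k1, mem_ball_zero_iff.2 u⟩, by rwa [hp] at k2, k3⟩)
  simp only [add_zero] at this
  rw [mem_closedBall]
  convert this using 2
  simp only [pt]
  push_cast
  congr 1
  ring

/-- the limit point of a station lies in the wedge -/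
theorem wedge (T : TD) {t : ℝ} (ht : |T.W * t| < T.L) : ∀ᶠ n in 𝓝[>] (0 : ℝ),
    (((T.W : ℂ), T.a + (T.H₀ - 10 * T.W * n : ℝ) * I + T.W * t) : C2) ∈
      Wd T.a T.L (-T.E.b₀) T.ρ T.K T.C T.W T.H₀ T.b₀ := by
  have W1 := T.W1
  filter_upwards [Ioo_mem_nhdsGT (show 0 < 1 / (10 * T.W) by positivity)] with n hn
  have h2 := (lt_div_iff₀ (by linarith)).1 hn.2
  have h3 := T.loc.hi
  have h4 : 0 ≤ 2 * T.C * T.ρ + T.K * T.ρ ^ 2 := by
    have := T.loc.C1; have := T.loc.ρ0; have := T.loc.K0; positivity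
  have h5 : 0 < 10 * T.W * n := by have := hn.1; positivity
  refine mem_wd.2 ⟨by simpa using T.loc.ρ0, by simpa using ht, ?_, ?_⟩ <;> simp [tw] <;> nlinarith

theorem one (T : TD) (O : Ob T) {c : ℕ} (hc : c < T.M) {sg : ℝ} (hs : |sg| = 1) :
    Ev fun p _ => ∀ i : ℕ → ℤ, Tendsto (fun j => T.ε j * i j) T.𝒰 (𝓝 (T.pos c + sg * dd O p c)) →
      ∀ᶠ j in (T.𝒰 : Filter ℕ), ∀ ζ : ℂ, ‖ζ‖ < p.R / T.ε j →
        Ck (La (T.g j)) (Xv (T.g j) (O.Ξ c j)) (T.W ^ 3) p.ϱ p.r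
          (Zt (T.ε j) (T.F j) (pt T p j (i j, ζ))) := by
  have W1 := T.W1
  have W0 : (T.W : ℂ) ≠ 0 := ofReal_ne_zero.2 (by linarith)
  have S := O.lv c hc
  have eX : T.Xn c = T.X ⟨c, hc⟩ := dif_pos hc
  have eP : T.P c = _ := dif_pos hc
  set X := T.X ⟨c, hc⟩
  have on := T.obs.one ⟨c, hc⟩
  have tp : (X T.W).im = T.H₀ ∧ T.a - T.L + 1 ≤ (X T.W).re ∧ (X T.W).re ≤ T.a + T.L - 1 :=
    T.obs.top ⟨c, hc⟩
  have ρ0 := T.obs.ρ0
  have ρ1 : T.ρ' ≤ 1 := by linarith [T.obs.lim.1, T.hα]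
  obtain ⟨δ, δ0, -, δ2, hδ⟩ := one_clk on T.obs.σ0 ρ0 W0 (eP ▸ S.lim)
  rw [← eP] at hδ
  have k0 := norm_pos_iff.2 S.lim.κ0
  have cX : ContinuousAt X T.W := (on.an _ (mem_ball_self T.obs.σ0)).continuousAt
  have L0 : 0 < T.L := by nlinarith [T.LW, T.loc.C1]
  obtain ⟨-, wo⟩ := wom T.mx T.hα T.hβ T.hb L0 T.loc T.sU T.eqA
  have tf := tf_of T.loc
  have t1 : Tendsto (fun ϱ : ℝ => T.W * (‖O.κ c‖ * ϱ ^ 2 / 4)) (𝓝[>] 0) (𝓝 0) :=
    (Continuous.tendsto' (by fun_prop) _ _ (by simp)).mono_left nhdsWithin_le_nhds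
  filter_upwards [Ioo_mem_nhdsGT S.lim.r0, t1.eventually (gt_mem_nhds δ0)] with ϱ hϱ hd
  have ϱ0 := hϱ.1
  set d := ‖O.κ c‖ * ϱ ^ 2 / 4 with ed
  have d0 : 0 < d := by positivity
  set q₀ : C2 := ((T.W : ℂ), X T.W + (sg * (T.W * d) : ℝ)) with eq₀
  have n1 : |sg * (T.W * d)| = T.W * d := by rw [abs_mul, hs, one_mul, abs_of_pos (by positivity)]
  have c1 : ContinuousAt (fun q : C2 => q.2 - X q.1) q₀ :=
    continuousAt_snd.sub (ContinuousAt.comp (f := Prod.fst) cX continuousAt_fst)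
  have c2 : ContinuousAt (fun q : C2 => ‖(q.2 - X q.1) / q.1‖) q₀ :=
    (c1.div continuousAt_fst W0).norm
  have v1 : ‖q₀.2 - X q₀.1‖ = T.W * d := by
    simp only [eq₀, add_sub_cancel_left, Complex.norm_real, Real.norm_eq_abs, n1]
  have v2 : ‖(q₀.2 - X q₀.1) / q₀.1‖ = d := by
    rw [norm_div, v1]
    simp only [eq₀, Complex.norm_real, Real.norm_of_nonneg (show 0 ≤ T.W by linarith)]
    field_simp
  have v3 : (q₀.2 - X q₀.1).re ≠ 0 := by
    simp only [eq₀, add_sub_cancel_left, ofReal_re]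
    exact abs_pos.1 (by rw [n1]; positivity)
  have oR : IsOpen (D.Rc ((X T.W).re - T.ρ') ((X T.W).re + T.ρ') T.E.b₀ ((X T.W).im + T.ρ')) :=
    (isOpen_lt continuous_const continuous_re).inter ((isOpen_lt continuous_re continuous_const).inter
      ((isOpen_lt continuous_const continuous_im).inter (isOpen_lt continuous_im continuous_const)))
  have v4 : q₀.2 ∈ D.Rc ((X T.W).re - T.ρ') ((X T.W).re + T.ρ') T.E.b₀ ((X T.W).im + T.ρ') := by
    have := abs_le.1 n1.le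
    have := T.obs.lim.2.2
    have := T.hb
    refine ⟨?_, ?_, ?_, ?_⟩ <;> simp only [eq₀, add_re, add_im, ofReal_re, ofReal_im] <;>
      linarith [tp.1]
  have c3 : ContinuousAt (fun q : C2 => ‖q.1 ^ 3 - (T.W : ℂ) ^ 3‖) q₀ := by fun_prop
  have V : ∀ᶠ q in 𝓝 q₀, q ∈ T.E.Om ∧ Z0 T.Y q ∈ Ins T.E.g (T.P c) (T.W ^ 3) ϱ (O.s c) := by
    filter_upwards [continuousAt_fst.eventually_mem (ball_mem_nhds q₀.1 δ0),
      continuousAt_fst.eventually_mem (ball_mem_nhds q₀.1 T.obs.σ0),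
      continuousAt_snd.eventually_mem (oR.mem_nhds v4),
      c1.norm.eventually_lt continuousAt_const (v1 ▸ hd),
      (continuous_re.continuousAt.comp c1).eventually_ne v3,
      continuousAt_const.eventually_lt c2 (show ‖O.κ c‖ * ϱ ^ 2 / 32 < _ by rw [v2]; linarith),
      c2.eventually_lt continuousAt_const (show _ < ‖O.κ c‖ * ϱ ^ 2 / 2 by rw [v2]; linarith),
      c3.eventually_lt continuousAt_const (show _ < ϱ / 2 by simpa [eq₀] using ϱ0)]
      with q a1 a2 a3 a4 a5 a6 a7 a8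
    have ns : ¬ D.Sl (X q.1) q.2 := fun e => a5 (by simp [e.1])
    exact ⟨(on.om q.1 a2 q.2 a3).2 ns,
      (hδ q.1 q.2 (mem_ball_iff_norm.1 a1) a4 ns).2.ins S.lim ϱ0 a6.le a7.le a8⟩
  obtain ⟨e, e0, he⟩ := Metric.eventually_nhds_iff_ball.1 V
  have sb : closedBall q₀ (e / 2) ⊆ ball q₀ e := closedBall_subset_ball (half_lt_self e0)
  have cZ : ContinuousOn (Z0 T.Y) (closedBall q₀ (e / 2)) := (z0_an (O := ball q₀ e)
    (fun q hq => T.mx.fam.an q (he q hq).1) isOpen_ball).continuousOn.mono sb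
  obtain ⟨ρ, ρ2, hρ⟩ := (S.mono ϱ0 hϱ.2.le).ck ((isCompact_closedBall _ _).image_of_continuousOn cZ)
    (by rintro _ ⟨q, hq, rfl⟩; exact (he q (sb hq)).2)
  filter_upwards [Ioo_mem_nhdsGT ρ2] with r hr
  refine Eventually.of_forall fun A => Eventually.of_forall fun m => ?_
  set t := T.pos c + sg * d with et
  have w1 : T.W * t = (X T.W).re - T.a + sg * (T.W * d) := by
    rw [et, TD.pos, eX]; field_simp
  have t2 : Tendsto (fun n : ℝ => (((T.W : ℂ), T.a + (T.H₀ - 10 * T.W * n : ℝ) * I + T.W * t) : C2))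
      (𝓝[>] 0) (𝓝 q₀) := (Continuous.tendsto' (by fun_prop) _ _ (by
    rw [eq₀, ← ofReal_mul, w1]
    congr 1
    apply Complex.ext <;> simp [tp.1]
    ring)).mono_left nhdsWithin_le_nhds
  filter_upwards [self_mem_nhdsWithin, t2.eventually (ball_mem_nhds q₀ (half_pos e0)),
    wedge T (t := t) (by
      rw [w1, abs_lt]
      constructor <;> linarith [abs_le.1 n1.le, tp.2.1, tp.2.2])] with n n0 b1 b2
  obtain ⟨δ', δ1, sub⟩ := Metric.nhds_basis_closedBall.mem_iff.1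
    ((isOpen_ball.inter tf.op).mem_nhds ⟨b1, b2⟩)
  filter_upwards [near T (t := t) (le_of_lt n0) δ1] with R hR
  refine Eventually.of_forall fun H => Eventually.of_forall fun K i hi => ?_
  filter_upwards [hR ⟨ϱ, r, A, m, n, R, H⟩ rfl i hi, hρ, tf.zu T.seq.e0 T.seq.el
    (isCompact_closedBall _ δ') (fun q hq => (sub hq).2) ρ2] with j k1 k2 k3 ζ hζ
  have m1 := k1 ζ hζ
  refine k2 _ ⟨_, ball_subset_closedBall (sub m1).1, rfl⟩ _ ?_ r hr.2.le
  rw [z0_congr tf.op (fun q hq => (wo q hq).2) (sub m1).2]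
  exact (k3 _ m1).2.le

theorem fin {M : ℕ} {P : ℕ → Sc → ℝ → Prop} (h : ∀ c < M, Ev (P c)) :
    Ev fun p K => ∀ c < M, P c p K := by
  induction M with
  | zero => simp [Ev]
  | succ M ih =>
    exact ((ih fun c hc => h c (by omega)).and (h M (by omega))).mono fun p K k c hc =>
      (Nat.lt_succ_iff_lt_or_eq.1 hc).elim (k.1 c) fun e => e ▸ k.2

theorem ck2 : R_CK := fun T O => by
  refine (fin (M := T.M) fun c hc => (one T O hc (sg := -1) (by simp)).and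
    (one T O hc (sg := 1) (by simp))).mono fun p K k => ?_
  refine ((eventually_all_finite (finite_Iio T.M)).2 fun c hc => ?_).mono fun j k c hc => k c hc
  have a := (k c hc).1 (fun j => (md O p j).hi c) (by
    have := fl T (hi0 O p c)
    rw [show T.pos c + -1 * dd O p c = hi0 O p c by rw [hi0, if_pos (mem_Iio.1 hc)]; ring]
    exact this)
  have b := (k c hc).2 (fun j => (md O p j).lo (c + 1)) (by
    have := ce T (lo0 O p (c + 1))
    rw [show T.pos c + 1 * dd O p c = lo0 O p (c + 1) by simp [lo0]]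
    exact this)
  filter_upwards [a, b] with j a b ζ hζ using ⟨a ζ hζ, b ζ hζ⟩

end Vale.Agent.P097F.LC.Ck2
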