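import Vale.Agent.P097F.LC.Ob
import Vale.Agent.P097F.N.Obl

/-!
# P097F/LC: the checkpoints
-/

set_option linter.all false

noncomputable section

namespace Vale.Agent.P097F.LC.H53

open Filter Topology Set Metric Complex Vale.Agent.P097F.N Vale.Agent.P097D Vale.Agent.P097Mo

theorem ev_all {M : ℕ} {P : ℕ → Sc → ℝ → Prop} (h : ∀ c < M, Ev (P c)) :
    Ev fun p K => ∀ c < M, P c p K := by
  induction M with
  | zero => simp [Ev]
  | succ M ih =>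
    exact ((ih fun c hc => h c (by omega)).and (h M (by omega))).mono fun p K k c hc =>
      (Nat.lt_succ_iff_lt_or_eq.1 hc).elim (k.1 c) fun e => e ▸ k.2

variable (T : TD)

theorem el : Tendsto T.ε T.𝒰 (𝓝 0) := (continuous_re.tendsto 0).comp T.seq.el

theorem int_lim {k : ℕ → ℝ} {x : ℝ} (h : ∀ j, |k j - x / T.ε j| ≤ 1) :
    Tendsto (fun j => T.ε j * k j) T.𝒰 (𝓝 x) := by
  refine tendsto_iff_norm_sub_tendsto_zero.2
    (squeeze_zero (fun _ => norm_nonneg _) (fun j => ?_) (el T))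
  have := T.e0 j
  rw [show T.ε j * k j - x = T.ε j * (k j - x / T.ε j) by field_simp, norm_mul,
    Real.norm_of_nonneg this.le]
  exact mul_le_of_le_one_right this.le (h j)

theorem fl_lim (x : ℝ) : Tendsto (fun j => T.ε j * (⌊x / T.ε j⌋ : ℤ)) T.𝒰 (𝓝 x) :=
  int_lim T fun j => abs_le.2 ⟨by linarith [Int.lt_floor_add_one (x / T.ε j)],
    by linarith [Int.floor_le (x / T.ε j)]⟩

theorem ce_lim (x : ℝ) : Tendsto (fun j => T.ε j * (⌈x / T.ε j⌉ : ℤ)) T.𝒰 (𝓝 x) :=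
  int_lim T fun j => abs_le.2 ⟨by linarith [Int.le_ceil (x / T.ε j)],
    by linarith [Int.ceil_lt_add_one (x / T.ε j)]⟩

theorem nf_le {x : ℝ} (h : 0 ≤ x) (j : ℕ) : T.ε j * (⌊x / T.ε j⌋₊ : ℝ) ≤ x := by
  have := T.e0 j
  rw [mul_comm, ← le_div_iff₀ this]
  exact Nat.floor_le (by positivity)

theorem nf_lim {x : ℝ} (h : 0 ≤ x) : Tendsto (fun j => T.ε j * (⌊x / T.ε j⌋₊ : ℝ)) T.𝒰 (𝓝 x) :=
  int_lim T fun j => abs_le.2 ⟨by linarith [Nat.lt_floor_add_one (x / T.ε j)],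
    by linarith [Nat.floor_le (div_nonneg h (T.e0 j).le)]⟩

/-- the limit of the point of the time `0` -/
def xs (n : ℝ) : ℂ := T.a + (T.H₀ - T.W * (10 * n) : ℝ) * I

theorem x0_lim {p : Sc} (h : 0 ≤ p.n) : Tendsto (x0 T p) T.𝒰 (𝓝 (xs T p.n)) := by
  have a := T.loc.lH.sub (T.loc.lv.mul ((nf_lim T h).const_mul 10))
  refine (((continuous_ofReal.tendsto _).comp a).mul_const I).const_add _ |>.congr fun j => ?_
  simp only [x0, nn, Function.comp]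
  congr 3
  ring

theorem near_pt {p : Sc} {t η : ℝ} {i : ℕ → ℤ} (hi : Tendsto (fun j => T.ε j * i j) T.𝒰 (𝓝 t))
    (n0 : 0 ≤ p.n) (η0 : 0 < η) (hR : 4 * T.W * (|t| + 2) * p.R ≤ η) :
    ∀ᶠ j in (T.𝒰 : Filter ℕ), ∀ ζ : ℂ, ‖ζ‖ < p.R / T.ε j →
      pt T p j (i j, ζ) ∈ closedBall ((T.W, xs T p.n + T.W * t) : ℂ × ℂ) η := by
  have W1 := T.W1
  have cv := (continuous_ofReal.tendsto _).comp T.loc.lv
  have a := cv.prodMk_nhds ((x0_lim T n0).add (cv.mul ((continuous_ofReal.tendsto _).comp hi)))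
  filter_upwards [a.eventually (closedBall_mem_nhds _ (half_pos η0)),
    T.loc.lv.abs.eventually_le_const (u := 2 * T.W) (by rw [abs_of_pos (by linarith)]; linarith),
    hi.abs.eventually_le_const (lt_add_one _)] with j k1 k2 k3 ζ hζ
  have e0 := T.e0 j
  have u : ‖al T j * ζ‖ ≤ 2 * T.W * p.R := by
    rw [al, norm_mul, norm_mul, norm_real, norm_real, Real.norm_of_nonneg e0.le, Real.norm_eq_abs,
      abs_div, abs_of_pos (by linarith [T.loc.C1] : 0 < T.C), mul_right_comm, mul_comm]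
    exact mul_le_mul ((div_le_self (abs_nonneg _) T.loc.C1).trans k2)
      (by rw [mul_comm]; exact ((lt_div_iff₀ e0).1 hζ).le) (by positivity) (by linarith)
  have u0 := (norm_nonneg _).trans u
  have b : dist (pt T p j (i j, ζ)) ((T.v j : ℂ), x0 T p j + T.v j * (T.ε j * i j : ℝ)) ≤ η / 2 := by
    rw [dist_eq_norm, show pt T p j (i j, ζ) - ((T.v j : ℂ), x0 T p j + T.v j * (T.ε j * i j : ℝ)) =
      (al T j * ζ, (T.ε j * i j : ℝ) * (al T j * ζ)) by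
        simp only [pt, Prod.mk_sub_mk]; push_cast; congr 1 <;> ring, Prod.norm_def, norm_mul (_ : ℂ)
        (al T j * ζ), norm_real, Real.norm_eq_abs]
    have := mul_le_mul k3 u (norm_nonneg _) (by positivity)
    exact max_le (by nlinarith [abs_nonneg t]) (by nlinarith [abs_nonneg t])
  have := dist_triangle (pt T p j (i j, ζ)) ((T.v j : ℂ), x0 T p j + T.v j * (T.ε j * i j : ℝ))
    ((T.W, xs T p.n + T.W * t) : ℂ × ℂ)
  have k : dist ((T.v j : ℂ), x0 T p j + T.v j * (T.ε j * i j : ℝ))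
    ((T.W, xs T p.n + T.W * t) : ℂ × ℂ) ≤ η / 2 := k1
  exact mem_closedBall.2 (by linarith)

theorem wm : ∀ q ∈ Wd T.a T.L (-T.E.b₀) T.ρ T.K T.C T.W T.H₀ T.b₀, q ∈ T.E.Om ∧ T.Y q = T.F₀ q :=
  (wom T.mx T.hα T.hβ T.hb (by nlinarith [T.LW, T.W1, T.loc.C1]) T.loc T.sU T.eqA).2

variable {T} (O : Ob T)

/-- the model state at `q` is at a checkpoint of the obstacle `c` -/
structure Gd (c : ℕ) (ϱ : ℝ) (q : ℂ × ℂ) : Prop where
  om : q ∈ T.E.Om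
  ob : Obl T.E.g (O.Ξ₀ c) (T.P c) (T.W ^ 3) ϱ (O.s c) T.Y (T.Xn c) q
  ins : Z0 T.Y q ∈ Ins T.E.g (T.P c) (T.W ^ 3) ϱ (O.s c)

theorem one {c : ℕ} (hc : c < T.M) {e : ℝ} (he : |e| = 1) : ∀ᶠ ϱ in 𝓝[>] (0 : ℝ), 0 < ϱ ∧
    ϱ ≤ O.r₀ c ∧ T.W * (‖O.κ c‖ * ϱ ^ 2 / 4) ≤ 1 / 2 ∧ ∀ᶠ q in 𝓝 (((T.W : ℂ),
      T.Xn c T.W + T.W * (e * (‖O.κ c‖ * ϱ ^ 2 / 4) : ℝ)) : ℂ × ℂ), Gd O c ϱ q := by
  have W1 := T.W1
  have W0 : (T.W : ℂ) ≠ 0 := ofReal_ne_zero.2 (by linarith)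
  have L := (O.lv c hc).lim
  have o := T.obs.one ⟨c, hc⟩
  have L' := L
  rw [T.P_eq hc] at L'
  obtain ⟨δ, δ0, δ1, δ2, H⟩ := one_clk o T.obs.σ0 T.obs.ρ0 W0 L'
  rw [← T.P_eq hc, ← T.Xn_eq hc] at H
  rw [← T.Xn_eq hc] at o
  have t : Tendsto (fun ϱ : ℝ => T.W * (‖O.κ c‖ * ϱ ^ 2 / 4)) (𝓝[>] 0) (𝓝 0) :=
    Tendsto.mono_left (Continuous.tendsto' (by fun_prop) _ _ (by simp)) nhdsWithin_le_nhds
  filter_upwards [self_mem_nhdsWithin, Ioc_mem_nhdsGT L.r0, t.eventually_lt_const δ0,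
    t.eventually_le_const (u := 1 / 2) (by norm_num)] with ϱ (ϱ0 : 0 < ϱ) k1 k2 k3
  refine ⟨ϱ0, k1.2, k3, ?_⟩
  have κ0 := norm_pos_iff.2 L.κ0
  obtain ⟨d, hd⟩ : ∃ d, d = ‖O.κ c‖ * ϱ ^ 2 / 4 := ⟨_, rfl⟩
  have d0 : 0 < d := by rw [hd]; positivity
  rw [← hd] at k2 ⊢
  set q₀ : ℂ × ℂ := ((T.W : ℂ), T.Xn c T.W + T.W * (e * d : ℝ))
  have c1 : Tendsto (fun q : ℂ × ℂ => q.1) (𝓝 q₀) (𝓝 T.W) := continuous_fst.tendsto q₀
  have c2 : Tendsto (fun q : ℂ × ℂ => q.2 - T.Xn c q.1) (𝓝 q₀) (𝓝 (T.W * (e * d : ℝ))) := by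
    have := (continuous_snd.tendsto q₀).sub
      ((o.an _ (mem_ball_self T.obs.σ0)).continuousAt.tendsto.comp c1)
    rwa [add_sub_cancel_left] at this
  have n1 : ‖((e * d : ℝ) : ℂ)‖ = d := by
    rw [norm_real, Real.norm_eq_abs, abs_mul, he, one_mul, abs_of_pos d0]
  have c3 := (c2.div c1 W0).norm
  rw [mul_div_cancel_left₀ _ W0, n1] at c3
  have c4 := ((c1.pow 3).sub_const ((T.W : ℂ) ^ 3)).norm
  rw [sub_self, norm_zero] at c4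
  have e0 : e ≠ 0 := fun k => by simp [k] at he
  filter_upwards [c1.eventually (ball_mem_nhds _ δ0), c2.norm.eventually_lt_const (u := δ)
    (by rwa [norm_mul, n1, norm_real, Real.norm_of_nonneg (by linarith)]),
    ((continuous_re.tendsto _).comp c2).eventually_ne (b₂ := 0) (by simp [e0, d0.ne']; linarith),
    c3.eventually_const_le (half_lt_self d0), c3.eventually_le_const (u := 2 * d) (by linarith),
    c4.eventually_lt_const (half_pos ϱ0)] with q a1 a2 a3 a4 a5 a6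
  have ns : ¬ D.Sl (T.Xn c q.1) q.2 := fun k => a3 (by simp [k.1])
  have mW : q.1 ∈ ball (T.W : ℂ) T.σ := ball_subset_ball δ1 a1
  obtain ⟨w0, C⟩ := H q.1 q.2 (mem_ball_iff_norm.1 a1) a2 ns
  have b1 : ‖O.κ c‖ * ϱ ^ 2 / 32 ≤ ‖(q.2 - T.Xn c q.1) / q.1‖ := le_trans (by linarith) a4
  have b2 : ‖(q.2 - T.Xn c q.1) / q.1‖ ≤ ‖O.κ c‖ * ϱ ^ 2 / 2 := a5.trans (by linarith)
  refine ⟨(o.om _ mW q.2 ?_).2 ns, C.obl L ϱ0 b1 b2 a6 w0 (o.an _ mW), C.ins L ϱ0 b1 b2 a6⟩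
  have nr : ‖q.2 - T.Xn c T.W‖ < T.ρ' := by
    linarith [norm_sub_le_norm_sub_add_norm_sub q.2 (T.Xn c q.1) (T.Xn c T.W), o.near _ mW,
      T.obs.ρ0]
  have r1 := abs_lt.1 ((abs_re_le_norm _).trans_lt nr)
  have r2 := abs_lt.1 ((abs_im_le_norm _).trans_lt nr)
  rw [sub_re] at r1
  rw [sub_im] at r2
  have tp : (T.Xn c T.W).im = T.H₀ := T.Xn_eq hc ▸ (T.obs.top ⟨c, hc⟩).1
  exact ⟨by linarith, by linarith, by linarith [T.obs.lim.2.2, T.hb], by linarith⟩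

/-- the ball round the limit of the base points at a checkpoint -/
def Nb (c : ℕ) (e : ℝ) (p : Sc) (η : ℝ) : Set (ℂ × ℂ) :=
  closedBall (T.W, xs T p.n + T.W * (T.pos c + e * dd O p c : ℝ)) η

theorem ctr (c : ℕ) (hc : c < T.M) (n x : ℝ) : xs T n + T.W * (T.pos c + x : ℝ) =
    T.Xn c T.W + T.W * x - (T.W * (10 * n) : ℝ) * I := by
  have W0 : T.W ≠ 0 := by linarith [T.W1]
  have tp : (T.Xn c T.W).im = T.H₀ := T.Xn_eq hc ▸ (T.obs.top ⟨c, hc⟩).1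
  refine Complex.ext ?_ ?_
  · simp only [xs, TD.pos, add_re, sub_re, mul_re, ofReal_re, ofReal_im, I_re, I_im]
    field_simp
    ring
  · simp only [xs, add_im, sub_im, mul_im, ofReal_re, ofReal_im, I_re, I_im, tp]
    ring

theorem two {c : ℕ} (hc : c < T.M) {x n δ : ℝ} (hx : |T.W * x| ≤ 1 / 2) (n0 : 0 < n)
    (n1 : T.W * (10 * n) < min δ 1) : ∃ η > 0,
    ∀ q ∈ closedBall ((T.W, xs T n + T.W * (T.pos c + x : ℝ)) : ℂ × ℂ) η,
      q ∈ Wd T.a T.L (-T.E.b₀) T.ρ T.K T.C T.W T.H₀ T.b₀ ∧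
      q ∈ closedBall (((T.W : ℂ), T.Xn c T.W + T.W * x) : ℂ × ℂ) δ ∧
      ‖(q.2 - T.Xn c q.1) / q.1 - (x - (10 * n : ℝ) * I)‖ ≤ n := by
  have W1 := T.W1
  have W0 : (T.W : ℂ) ≠ 0 := ofReal_ne_zero.2 (by linarith)
  have p0 : 0 < T.W * (10 * n) := by positivity
  obtain ⟨t1, t2, t3⟩ := T.obs.top ⟨c, hc⟩
  have aX := (T.obs.one ⟨c, hc⟩).an _ (mem_ball_self T.obs.σ0)
  rw [← T.Xn_eq hc] at t1 t2 t3 aX
  rw [lt_min_iff] at n1
  rw [ctr c hc]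
  set q₁ : ℂ × ℂ := (T.W, T.Xn c T.W + T.W * x - (T.W * (10 * n) : ℝ) * I)
  have m1 : q₁ ∈ Wd T.a T.L (-T.E.b₀) T.ρ T.K T.C T.W T.H₀ T.b₀ := by
    have r : q₁.2.re = (T.Xn c T.W).re + T.W * x := by simp [q₁]
    have i : q₁.2.im = T.H₀ - T.W * (10 * n) := by simp [q₁, t1]
    have h := T.loc.hi
    have h1 := mul_pos (by linarith [T.loc.C1] : 0 < T.C) T.loc.ρ0
    have h2 := mul_nonneg T.loc.K0 (sq_nonneg T.ρ)
    rw [abs_le] at hx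
    refine ⟨mem_ball_self T.loc.ρ0, abs_lt.2 ⟨by linarith, by linarith⟩, by linarith, ?_⟩
    rw [i]
    simpa [q₁] using p0
  have m2 : q₁ ∈ ball (((T.W : ℂ), T.Xn c T.W + T.W * x) : ℂ × ℂ) δ := by
    refine mem_ball_prod.2 ⟨mem_ball_self (by linarith), mem_ball_iff_norm.2 ?_⟩
    rw [show q₁.2 = T.Xn c T.W + T.W * x - (T.W * (10 * n) : ℝ) * I from rfl, sub_sub_cancel_left,
      norm_neg, norm_mul, norm_I, mul_one, norm_real, Real.norm_of_nonneg p0.le]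
    exact n1.1
  have c1 : Tendsto (fun q : ℂ × ℂ => q.1) (𝓝 q₁) (𝓝 T.W) := continuous_fst.tendsto q₁
  have c2 := ((((continuous_snd.tendsto q₁).sub (aX.continuousAt.tendsto.comp c1)).div c1
    W0).sub_const (x - (10 * n : ℝ) * I)).norm
  rw [show (q₁.2 - T.Xn c T.W) / T.W - (x - (10 * n : ℝ) * I) = 0 by
    simp only [q₁]; push_cast; field_simp; ring, norm_zero] at c2
  refine nhds_basis_closedBall.eventually_iff.1 ?_
  filter_upwards [(wd_open ..).mem_nhds m1, isOpen_ball.mem_nhds m2, c2.eventually_le_const n0]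
    with q a1 a2 a3 using ⟨a1, ball_subset_closedBall a2, a3⟩

/-- **one checkpoint** -/
theorem core {c : ℕ} (hc : c < T.M) {e : ℝ} (he : |e| = 1) : Ev fun p K =>
    0 < p.ϱ ∧ p.ϱ ≤ O.r₀ c ∧ 0 < p.m ∧ 8 * p.m ≤ dd O p c ∧ 0 < p.n ∧ 100 * p.n ≤ dd O p c ∧
    8 ≤ K * dd O p c ∧ ∃ η > 0, (∀ q ∈ Nb O c e p η,
      q ∈ Wd T.a T.L (-T.E.b₀) T.ρ T.K T.C T.W T.H₀ T.b₀ ∧ Gd O c p.ϱ q ∧
      ‖(q.2 - T.Xn c q.1) / q.1 - ((e * dd O p c : ℝ) - (10 * p.n : ℝ) * I)‖ ≤ p.n) ∧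
    4 * T.W * (|T.pos c + e * dd O p c| + 2) * p.R ≤ η ∧
    ∀ᶠ j in (T.𝒰 : Filter ℕ), ∀ q ∈ Nb O c e p η, Ck (La (T.g j)) (Xv (T.g j) (O.Ξ c j))
      (T.W ^ 3) p.ϱ p.r (Zt (T.ε j) (T.F j) q) := by
  have W1 := T.W1
  have κ0 := norm_pos_iff.2 (O.lv c hc).lim.κ0
  have sm : ∀ a b : ℝ, 0 < b → ∀ᶠ x in 𝓝[>] (0 : ℝ), 0 < x ∧ a * x < b := fun a b b0 =>
    eventually_mem_nhdsWithin.and ((Tendsto.mono_left (Continuous.tendsto' (f := fun x => a * x)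
      (by fun_prop) 0 0 (by simp)) nhdsWithin_le_nhds).eventually_lt_const b0)
  filter_upwards [one O hc he] with ϱ ⟨ϱ0, ϱ1, ϱ2, H⟩
  obtain ⟨δ, δ0, hδ⟩ := nhds_basis_closedBall.eventually_iff.1 H
  have d0 : 0 < ‖O.κ c‖ * ϱ ^ 2 / 4 := by positivity
  obtain ⟨a, a0, ha⟩ := ((O.lv c hc).mono ϱ0 ϱ1).ck ((isCompact_closedBall _ δ).image_of_continuousOn
    ((z0_an T.mx.fam.an (D.om _ T.mx.ok).1).continuousOn.mono fun q hq => (hδ hq).om))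
    (image_subset_iff.2 fun q hq => (hδ hq).ins)
  filter_upwards [sm 1 a a0] with r hr
  refine Eventually.of_forall fun A => ?_
  filter_upwards [sm 8 _ d0] with m hm
  filter_upwards [sm 100 _ d0, sm (T.W * 10) _ (lt_min δ0 one_pos)] with n hn hn'
  obtain ⟨η, η0, hη⟩ := two hc (x := e * (‖O.κ c‖ * ϱ ^ 2 / 4)) (δ := δ) (by
    rwa [mul_left_comm, abs_mul, he, one_mul, abs_of_pos (by positivity)]) hn.1
    (by rw [← mul_assoc]; exact hn'.2)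
  filter_upwards [sm (4 * T.W * (|T.pos c + e * (‖O.κ c‖ * ϱ ^ 2 / 4)| + 2)) η η0] with R hR
  refine Eventually.of_forall fun H => ?_
  filter_upwards [eventually_ge_atTop (8 / (‖O.κ c‖ * ϱ ^ 2 / 4))] with K hK
  refine ⟨ϱ0, ϱ1, hm.1, hm.2.le, hn.1, hn.2.le, (div_le_iff₀ d0).1 hK, η, η0,
    fun q hq => ⟨(hη q hq).1, hδ (hη q hq).2.1, (hη q hq).2.2⟩, hR.2.le, ?_⟩
  have tf := tf_of T.loc
  filter_upwards [ha, tf.zu T.seq.e0 T.seq.el (isCompact_closedBall _ η)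
    (fun q hq => (hη q hq).1) a0] with j k1 k2 q hq
  refine k1 _ (mem_image_of_mem _ (hη q hq).2.1) _ ?_ r (by linarith [hr.2])
  rw [z0_congr tf.op (fun q hq => (wm T q hq).2) (hη q hq).1]
  exact (k2 q hq).2.le

theorem hi_lim (p : Sc) {c : ℕ} (hc : c < T.M) : Tendsto (fun j => T.ε j * (md O p j).hi c) T.𝒰
    (𝓝 (T.pos c + -1 * dd O p c)) := by
  have := fl_lim T (hi0 O p c)
  rwa [show 𝓝 (hi0 O p c) = 𝓝 (T.pos c + -1 * dd O p c) by rw [hi0, if_pos hc]; congr 1; ring]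
    at this

theorem lo_lim (p : Sc) (c : ℕ) : Tendsto (fun j => T.ε j * (md O p j).lo (c + 1)) T.𝒰
    (𝓝 (T.pos c + 1 * dd O p c)) := by
  have := ce_lim T (lo0 O p (c + 1))
  rwa [show 𝓝 (lo0 O p (c + 1)) = 𝓝 (T.pos c + 1 * dd O p c) by simp [lo0]] at this

theorem ck : R_CK := fun T O => by
  refine (ev_all (M := T.M) fun c hc => (core O hc (e := -1) (by simp)).and
    (core O hc (e := 1) abs_one)).mono fun p K H => ?_
  refine (finite_lt_nat T.M).eventually_all.2 fun c hc => ?_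
  obtain ⟨⟨-, -, -, -, n0, -, -, η, η0, -, a1, a2⟩, -, -, -, -, -, -, -, η', η1, -, b1, b2⟩ := H c hc
  filter_upwards [a2, b2, near_pt T (hi_lim O p hc) n0.le η0 a1,
    near_pt T (lo_lim O p c) n0.le η1 b1] with j k1 k2 k3 k4 ζ hζ
  exact ⟨k1 _ (k3 ζ hζ), k2 _ (k4 ζ hζ)⟩

end Vale.Agent.P097F.LC.H53
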