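import Vale.Agent.P097F.LC.Defs

/-!
# P097F/LC: the checkpoints
-/

set_option linter.all false

noncomputable section

namespace Vale.Agent.P097F.LC.H60

open Filter Topology Set Metric Complex Vale.Agent.P097F.N Vale.Agent.P097D Vale.Agent.P097Mo

theorem ev_all {P : ℕ → Sc → ℝ → Prop} : ∀ M : ℕ, (∀ c < M, Ev (P c)) →
    Ev fun p K => ∀ c < M, P c p K
  | 0, _ => .of_forall fun _ => .of_forall fun _ => .of_forall fun _ => .of_forall fun _ =>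
      .of_forall fun _ => .of_forall fun _ => .of_forall fun _ => .of_forall fun _ _ h =>
      (Nat.not_lt_zero _ h).elim
  | M + 1, h => ((ev_all M fun c hc => h c (hc.trans M.lt_succ_self)).and
      (h M M.lt_succ_self)).mono fun _ _ k c hc =>
      (Nat.lt_succ_iff_lt_or_eq.1 hc).elim (k.1 c) fun e => e ▸ k.2

variable (T : TD)

theorem el : Tendsto T.ε T.𝒰 (𝓝 0) := by
  simpa [Function.comp_def] using (continuous_re.tendsto _).comp T.seq.el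

theorem lim {x : ℝ} {i : ℕ → ℝ} (h : ∀ j, |i j - x / T.ε j| ≤ 1) :
    Tendsto (fun j => T.ε j * i j) T.𝒰 (𝓝 x) := by
  refine tendsto_iff_norm_sub_tendsto_zero.2 (squeeze_zero (fun _ => norm_nonneg _)
    (fun j => ?_) (el T))
  have e := T.e0 j
  rw [show T.ε j * i j - x = T.ε j * (i j - x / T.ε j) by field_simp, Real.norm_eq_abs, abs_mul,
    abs_of_pos e]
  exact mul_le_of_le_one_right e.le (h j)

/-- the point of the window time `t` at the top level -/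
def q0 (t : ℝ) : ℂ × ℂ := (T.W, T.a + T.W * t + T.H₀ * I)

/-- the limit wedge -/
abbrev W0 : Set (ℂ × ℂ) := Wd T.a T.L (-T.E.b₀) T.ρ T.K T.C T.W T.H₀ T.b₀

theorem geo {t β : ℝ} (ht : |T.W * t| < T.L) (β0 : 0 < β) :
    ∀ᶠ n in 𝓝[>] (0 : ℝ), ∀ᶠ R in 𝓝[>] (0 : ℝ), ∃ Kc, IsCompact Kc ∧
      Kc ⊆ W0 T ∩ ball (q0 T t) β ∧ ∀ p : Sc, p.n = n → ∀ i : ℕ → ℤ,
      Tendsto (fun j => T.ε j * i j) T.𝒰 (𝓝 t) → ∀ᶠ j in (T.𝒰 : Filter ℕ), ∀ ζ : ℂ,
        ‖ζ‖ < R / T.ε j → pt T p j (i j, ζ) ∈ Kc := by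
  have W1 := T.W1
  have C1 := T.loc.C1
  filter_upwards [Ioo_mem_nhdsGT (show 0 < min β 1 / (10 * T.W) by positivity)] with n ⟨n0, n1⟩
  rw [lt_div_iff₀ (by positivity), lt_min_iff] at n1
  have p0 : 0 < n * (10 * T.W) := by positivity
  obtain ⟨x, hx⟩ : ∃ x : ℂ, x = T.a + (T.H₀ - n * (10 * T.W) : ℝ) * I := ⟨_, rfl⟩
  have m : ((T.W, x + T.W * t) : ℂ × ℂ) ∈ W0 T ∩ ball (q0 T t) β := by
    have := T.loc.hi
    have := mul_pos (zero_lt_one.trans_le C1) T.loc.ρ0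
    have := mul_nonneg T.loc.K0 (sq_nonneg T.ρ)
    refine ⟨mem_wd.2 ⟨by simpa using T.loc.ρ0, by simpa [hx] using ht, ?_, ?_⟩, ?_⟩
    · simp [hx]; linarith
    · simp [hx, tw]; linarith
    · rw [mem_ball_iff_norm, show ((T.W, x + T.W * t) : ℂ × ℂ) - q0 T t =
        (0, (-(n * (10 * T.W)) : ℝ) * I) from Prod.ext (by simp [q0]) (by simp [q0, hx]; ring),
        Prod.norm_mk, norm_zero, norm_mul, norm_I, mul_one, norm_real, norm_neg,
        Real.norm_of_nonneg p0.le]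
      exact max_lt β0 n1.1
  obtain ⟨γ, γ0, sub⟩ := Metric.nhds_basis_closedBall.mem_iff.1
    (((wd_open ..).inter isOpen_ball).mem_nhds m)
  have c : Continuous fun z : ℂ × ℂ × ℂ × ℂ =>
    ((z.2.1 + z.1, z.2.2.1 + (z.2.1 + z.1) * z.2.2.2) : ℂ × ℂ) := by fun_prop
  obtain ⟨δ, δ0, hδ⟩ := Metric.eventually_nhds_iff_ball.1
    ((c.tendsto' (0, T.W, x, t) (T.W, x + T.W * t) (by simp)).eventually
      (closedBall_mem_nhds _ γ0))
  filter_upwards [Ioo_mem_nhdsGT (show 0 < δ / (T.W + 1) by positivity)] with R ⟨R0, R1⟩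
  rw [lt_div_iff₀ (by positivity)] at R1
  refine ⟨_, isCompact_closedBall _ _, sub, fun p hp i hi => ?_⟩
  have ln : Tendsto (fun j => T.ε j * nn T p j) T.𝒰 (𝓝 n) := lim T fun j => by
    have : 0 ≤ n / T.ε j := (div_pos n0 (T.e0 j)).le
    rw [nn, hp, abs_le]
    constructor <;> linarith [Nat.floor_le this, Nat.lt_floor_add_one (n / T.ε j)]
  have lx : Tendsto (x0 T p) T.𝒰 (𝓝 x) := by
    have k := T.loc.lH.sub (ln.mul (T.loc.lv.const_mul 10))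
    refine hx ▸ ((((continuous_ofReal.tendsto _).comp k).mul_const I).const_add (T.a : ℂ)).congr
      fun j => ?_
    simp only [x0, Function.comp]
    push_cast
    ring
  filter_upwards [(((continuous_ofReal.tendsto _).comp T.loc.lv).prodMk_nhds (lx.prodMk_nhds
    ((continuous_ofReal.tendsto _).comp hi))).eventually (ball_mem_nhds _ δ0),
    T.loc.lv.abs.eventually (gt_mem_nhds (show |T.W| < T.W + 1 by
      rw [abs_of_nonneg (by linarith)]; linarith))] with j k1 k2 ζ hζ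
  have e := T.e0 j
  have u : ‖al T j * ζ‖ < δ := by
    rw [lt_div_iff₀ e] at hζ
    rw [al, norm_mul, norm_mul, norm_real, norm_real, Real.norm_of_nonneg e.le, Real.norm_eq_abs,
      abs_div, abs_of_nonneg (by linarith : 0 ≤ T.C)]
    calc _ = ‖ζ‖ * T.ε j * (|T.v j| / T.C) := by ring
      _ ≤ R * (T.W + 1) := mul_le_mul hζ.le ((div_le_self (abs_nonneg _) C1).trans k2.le)
          (by positivity) R0.le
      _ < δ := R1
  have := hδ (al T j * ζ, _) (by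
    rw [← ball_prod_same]; exact ⟨mem_ball_zero_iff.2 u, k1⟩)
  refine (congrArg (· ∈ closedBall _ γ) ?_).mp this
  refine Prod.ext rfl ?_
  simp only [pt, Function.comp]
  push_cast
  ring

theorem core {Ξ : ℕ → ℂ × ℂ → ℂ × ℂ} {Ξ₀ : ℂ × ℂ → ℂ × ℂ} {P q₀ : ℂ × ℂ} {J κ : ℂ} {r s B : ℝ}
    (S : LevS T.𝒰 T.g Ξ T.E.g Ξ₀ P J κ r s B) (h1 : q₀ ∈ T.E.Om)
    (h2 : Z0 T.Y q₀ ∈ Ins T.E.g P J r s) : ∃ a > 0, ∃ β > 0, ∀ Kc, IsCompact Kc →
      Kc ⊆ W0 T ∩ ball q₀ β → ∀ᶠ j in (T.𝒰 : Filter ℕ), ∀ q ∈ Kc, ∀ a' ≤ a,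
        Ck (La (T.g j)) (Xv (T.g j) (Ξ j)) J r a' (Zt (T.ε j) (T.F j) q) := by
  obtain ⟨a, a0, k⟩ := S.ck isCompact_singleton (singleton_subset_iff.2 h2)
  obtain ⟨β, β0, hβ⟩ := Metric.continuousAt_iff.1
    (z0_an T.mx.fam.an (D.om _ T.mx.ok).1 q₀ h1).continuousAt _ (half_pos a0)
  have L0 : 0 < T.L := lt_of_lt_of_le (by have := T.W1; have := T.loc.C1; positivity) T.LW
  have w := (wom T.mx T.hα T.hβ T.hb L0 T.loc T.sU T.eqA).2
  refine ⟨a, a0, β, β0, fun Kc hK sub => ?_⟩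
  filter_upwards [k, (tf_of T.loc).zu T.seq.e0 T.seq.el hK (fun q hq => (sub hq).1) (half_pos a0)]
    with j k1 k2 q hq a' h'
  refine k1 _ rfl _ ?_ a' h'
  have e := hβ (sub hq).2
  rw [z0_congr (wd_open ..) (fun p hp => (w p hp).2) (sub hq).1, dist_eq_norm] at e
  linarith [norm_sub_le_norm_sub_add_norm_sub (Zt (T.ε j) (T.F j) q) (Z0 T.F₀ q) (Z0 T.Y q₀),
    (k2 q hq).2]

variable {T} (O : Ob T) {c : ℕ} (hc : c < T.M)
include hc

theorem one : ∀ᶠ ϱ in 𝓝[>] (0 : ℝ), 0 < ϱ ∧ ϱ ≤ O.r₀ c ∧ ∀ d : ℝ, |d| = ‖O.κ c‖ * ϱ ^ 2 / 4 →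
    |T.W * (T.pos c + d)| < T.L ∧ q0 T (T.pos c + d) ∈ T.E.Om ∧
      Z0 T.Y (q0 T (T.pos c + d)) ∈ Ins T.E.g (T.P c) (T.W ^ 3) ϱ (O.s c) := by
  have W1 := T.W1
  have W0 : (T.W : ℂ) ≠ 0 := ofReal_ne_zero.2 (by linarith)
  have Lv := (O.lv c hc).lim
  have eP : T.P c = _ := dif_pos hc
  have eX : T.Xn c = _ := dif_pos hc
  have On := T.obs.one ⟨c, hc⟩
  obtain ⟨δ, δ0, -, δ1, k⟩ := one_clk On T.obs.σ0 T.obs.ρ0 W0 (eP ▸ Lv)
  rw [← eP] at k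
  obtain ⟨t1, t2, t3⟩ := T.obs.top ⟨c, hc⟩
  have k0 := norm_pos_iff.2 Lv.κ0
  have ct : Continuous fun ϱ : ℝ => T.W * (‖O.κ c‖ * ϱ ^ 2 / 4) := by fun_prop
  filter_upwards [Ioc_mem_nhdsGT Lv.r0, ((ct.tendsto 0).mono_left
    nhdsWithin_le_nhds).eventually_lt_const (u := min δ 1) (by simp [δ0])] with ϱ ⟨r0, r1⟩ b
  refine ⟨r0, r1, fun d hd => ?_⟩
  rw [← hd, ← abs_of_nonneg (by linarith : 0 ≤ T.W), ← abs_mul, lt_min_iff] at b
  have p0 : 0 < ‖O.κ c‖ * ϱ ^ 2 := by positivity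
  have e1 : T.W * T.pos c = (T.X ⟨c, hc⟩ T.W).re - T.a := by
    rw [TD.pos, eX]; field_simp
  have e2 : q0 T (T.pos c + d) = ((T.W : ℂ), T.X ⟨c, hc⟩ T.W + (T.W * d : ℝ)) :=
    Prod.ext rfl (Complex.ext (by simp [q0]; linarith) (by simp [q0, t1]))
  have ns : ¬ D.Sl (T.X ⟨c, hc⟩ T.W) (T.X ⟨c, hc⟩ T.W + (T.W * d : ℝ)) := fun h => by
    have := h.1
    rw [add_re, ofReal_re, add_eq_left, mul_eq_zero] at this
    rcases this with h | h
    · linarith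
    · rw [h, abs_zero] at hd; linarith
  have b1 := abs_lt.1 b.1
  have b2 := abs_lt.1 b.2
  have ρ0 := T.obs.ρ0
  refine ⟨abs_lt.2 ⟨by linarith, by linarith⟩, ?_, ?_⟩ <;> rw [e2]
  · refine (On.om _ (mem_ball_self T.obs.σ0) _ ⟨?_, ?_, ?_, ?_⟩).2 ns <;>
      simp only [add_re, add_im, ofReal_re, ofReal_im] <;> linarith [T.obs.lim.2.2, T.hb]
  · have e3 : ‖(T.X ⟨c, hc⟩ T.W + (T.W * d : ℝ) - T.X ⟨c, hc⟩ T.W) / T.W‖ = |d| := by
      rw [add_sub_cancel_left, ofReal_mul, mul_div_cancel_left₀ _ W0, norm_real, Real.norm_eq_abs]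
    refine (k _ _ (by simpa using δ0) (by
      rw [add_sub_cancel_left, norm_real]; exact b.1) ns).2.ins Lv r0 ?_ ?_ (by simpa using r0) <;>
      rw [e3] <;> linarith

theorem side {u : ℝ} (hu : |u| = 1) : Ev fun p _ => ∀ i : ℕ → ℤ,
    Tendsto (fun j => T.ε j * i j) T.𝒰 (𝓝 (T.pos c + u * dd O p c)) →
    ∀ᶠ j in (T.𝒰 : Filter ℕ), ∀ ζ : ℂ, ‖ζ‖ < p.R / T.ε j → Ck (La (T.g j)) (Xv (T.g j) (O.Ξ c j))
      (T.W ^ 3) p.ϱ p.r (Zt (T.ε j) (T.F j) (pt T p j (i j, ζ))) := by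
  filter_upwards [one O hc] with ϱ ⟨r0, r1, h⟩
  obtain ⟨h1, h2, h3⟩ := h (u * (‖O.κ c‖ * ϱ ^ 2 / 4))
    (by rw [abs_mul, hu, one_mul, abs_of_nonneg (by positivity)])
  obtain ⟨a, a0, β, β0, k⟩ := core T ((O.lv c hc).mono r0 r1) h2 h3
  filter_upwards [Ioc_mem_nhdsGT a0] with r hr
  refine .of_forall fun A => .of_forall fun m => ?_
  filter_upwards [geo T h1 β0] with n hn
  filter_upwards [hn] with R ⟨Kc, hK, sub, k'⟩
  refine .of_forall fun H => .of_forall fun K i hi => ?_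
  filter_upwards [k Kc hK sub, k' ⟨ϱ, r, A, m, n, R, H⟩ rfl i hi] with j k1 k2 ζ hζ
  exact k1 _ (k2 ζ hζ) r hr.2

omit hc

/-- **the checkpoints** -/
theorem ck : R_CK := fun T O => by
  refine (ev_all T.M fun c hc => (side O hc (u := -1) (by simp)).and
    (side O hc (u := 1) abs_one)).mono fun p K k => ?_
  refine (eventually_all_finite (finite_Iio T.M)).2 fun c (hc : c < T.M) => ?_
  have a1 := (k c hc).1 (fun j => ⌊hi0 O p c / T.ε j⌋) (lim T fun j => by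
    have e : T.pos c + -1 * dd O p c = hi0 O p c := by rw [hi0, if_pos hc]; ring
    rw [e, abs_le]
    exact ⟨by linarith [Int.lt_floor_add_one (hi0 O p c / T.ε j)],
      by linarith [Int.floor_le (hi0 O p c / T.ε j)]⟩)
  have a2 := (k c hc).2 (fun j => ⌈lo0 O p (c + 1) / T.ε j⌉) (lim T fun j => by
    have e : T.pos c + 1 * dd O p c = lo0 O p (c + 1) := by
      rw [lo0, if_neg c.succ_ne_zero, one_mul]; rfl
    rw [e, abs_le]
    exact ⟨by linarith [Int.le_ceil (lo0 O p (c + 1) / T.ε j)],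
      by linarith [Int.ceil_lt_add_one (lo0 O p (c + 1) / T.ε j)]⟩)
  filter_upwards [a1, a2] with j k1 k2 ζ hζ using ⟨k1 ζ hζ, k2 ζ hζ⟩

end Vale.Agent.P097F.LC.H60
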