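import Vale.Agent.P097F.LC.Gm

/-!
# P097F/LC: the cone and the sharp cone
-/

set_option linter.all false

noncomputable section

namespace Vale.Agent.P097F.LC

open Filter Topology Set Metric Complex Vale.Agent.P097F.N Vale.Agent.P097F.S Vale.Agent.P097D

theorem wk_le {a L T ρ K C v H b μ μ' : ℝ} {q : ℂ × ℂ} (h : q ∈ Wk a L T ρ K C v H b μ)
    (l : μ' ≤ μ) : q ∈ Wk a L T ρ K C v H b μ' := ⟨h.1, h.2.1, h.2.2.1, by linarith [h.2.2.2]⟩

theorem cone (hH : R_HOR) : R_CONE := fun T O => (gm hH T O).mono fun p _ hG => by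
  have S := T.loc
  have W1 := T.W1
  have C1 := S.C1
  have K0 := S.K0
  have ρ0 := S.ρ0
  have L0 : 0 ≤ T.L := le_trans (by positivity) T.LW
  obtain ⟨B, B1, hB⟩ := coneS T.seq T.e0 S T.ul
  set A := 2 * T.C + 1 + 2 * T.L with hA
  filter_upwards [hG, hB, T.top_ev, T.vs_sm 1, T.vs_sm (12 * T.W / T.ρ), T.vs_sm (48 * T.W * A),
    T.vs_sm (288 * T.W ^ 2 * (T.K + 2 * A)), T.vs_sm (96 * T.W), T.vs_sm (8 * B)]
    with j ⟨G, cb⟩ k1 k2 s1 s2 s3 s4 s5 s6 s ζ h1 h2 h3 h4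
  have e := T.e0 j
  have s0 := T.vs_pos j
  have ee := T.vs_pow j
  set ς := T.ς j
  rw [one_mul] at s1
  have p10 : ς ^ 10 ≤ ς := pow_le_of_le_one s0.le s1 (by norm_num)
  have hδ : T.ε j * (T.v j / T.C) * ‖ζ‖ ≤ 6 * T.W * ς ^ 10 := by
    have := mul_le_mul h2 cb G.c0 (by positivity)
    linarith
  have δ1 : 6 * T.W * ς ^ 10 ≤ 6 * T.W * ς := by gcongr
  have n0 : (0 : ℝ) ≤ (md O p j).n := by positivity
  have m := G.mem (ρ := T.ρ / 2) (l := ς ^ 19) K0 (S.bC j) k2 (by linarith [(G.hor s h1).1])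
    (G.hor s h1).2 (by positivity) (by linarith)
    (by have := mul_le_mul_of_nonneg_left h4 e.le
        rwa [mul_sub, mul_div_cancel₀ _ e.ne'] at this) hδ
    (by rw [div_mul_eq_mul_div, div_le_one ρ0] at s2; linarith)
    (by have := mul_le_mul_of_nonneg_left δ1 (show 0 ≤ A by positivity); linarith)
  have p19 : 0 < ς ^ 19 := by positivity
  have q19 : ς ^ 19 ≤ 1 := pow_le_one₀ s0.le s1
  have m2 := wk_le m (μ' := ς ^ 19 / 8) (by
    have := mul_le_mul_of_nonneg_right s4 p19.le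
    rw [← hA]
    nlinarith)
  have e20 : T.ε j ≤ ς ^ 20 := ee ▸ pow_le_pow_of_le_one s0.le s1 (by norm_num)
  have e1 : T.ε j ≤ 1 := ee ▸ pow_le_one₀ s0.le s1
  obtain ⟨a1, a2⟩ := k1 _ _ (by positivity) (by linarith) (by
    have b1 := mul_le_mul (e20.trans (pow_le_pow_of_le_one s0.le s1 (show 19 ≤ 20 by norm_num)))
      ((G.imW (s := s) hδ).trans δ1) (abs_nonneg _) p19.le
    have b2 := mul_le_mul_of_nonneg_right s5 p19.le
    linarith) m2
  refine ⟨G.an a1, (G.Z _).symm ▸ a2.trans ?_⟩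
  rw [div_le_div_iff₀ (by positivity) (by positivity)]
  have b1 := mul_le_mul_of_nonneg_right s6 p19.le
  have b2 : T.ε j ^ 2 ≤ ς ^ 20 := by nlinarith
  have b3 := mul_le_mul_of_nonneg_left b2 (show 0 ≤ B by linarith)
  have b4 : B * T.ε j ^ 2 ≤ ς ^ 19 / 8 := by nlinarith
  nlinarith [mul_le_mul_of_nonneg_right b4 e.le]

theorem shp (hH : R_HOR) : R_SHP := fun T O => (gm hH T O).mono fun p _ hG μ μ0 b => by
  have S := T.loc
  have W1 := T.W1
  have C1 := S.C1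
  have K0 := S.K0
  have ρ0 := S.ρ0
  have L0 : 0 ≤ T.L := le_trans (by positivity) T.LW
  have sm : ∀ A η : ℝ, 0 < η → ∀ᶠ j in (T.𝒰 : Filter ℕ), T.ε j * A ≤ η := fun A η η0 => by
    have t : Tendsto T.ε T.𝒰 (𝓝 0) := (Complex.continuous_re.tendsto 0).comp T.seq.el
    have t2 := t.mul_const A
    rw [zero_mul] at t2
    exact (t2.eventually (gt_mem_nhds η0)).mono fun j k => k.le
  set A := 2 * T.C + 1 + 2 * T.L with hA
  filter_upwards [hG, shpS T.seq T.e0 S, T.top_ev, sm (2 * T.W * b) (T.ρ / 2) (by positivity),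
    sm (A * (2 * T.W * b)) (1 / 8) (by positivity), sm (2 * T.W * b) (μ / 16) (by positivity),
    sm ((T.K + 2 * A) * (2 * T.W * b) ^ 2) (μ / 8) (by positivity)]
    with j ⟨G, cb⟩ k1 k2 s2 s3 s4 s5 s ζ h1 h2 h3 h4
  have e := T.e0 j
  have hδ : T.ε j * (T.v j / T.C) * ‖ζ‖ ≤ T.ε j * (2 * T.W * b) := by
    rw [mul_assoc]
    exact mul_le_mul_of_nonneg_left (mul_le_mul cb h2 (norm_nonneg _) (by positivity)) e.le
  have n0 : (0 : ℝ) ≤ (md O p j).n := by positivity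
  have m := G.mem (ρ := T.ρ / 2) (l := T.ε j * μ) K0 (S.bC j) k2 (by linarith [(G.hor s h1).1])
    (G.hor s h1).2 (by positivity) (by linarith)
    (by have := mul_le_mul_of_nonneg_left h4 e.le
        rwa [mul_sub] at this) hδ s2 (by linarith)
  have m2 := wk_le m (μ' := T.ε j * μ / 8) (by
    have := mul_le_mul_of_nonneg_left s5 e.le
    rw [← hA]
    nlinarith)
  obtain ⟨a1, a2, a3, a4⟩ := k1 _ _ (by positivity) (by
    have := mul_le_mul_of_nonneg_left ((G.imW (s := s) hδ).trans s4) e.le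
    linarith) m2
  have e' : (T.ε j : ℂ) ≠ 0 := ofReal_ne_zero.2 e.ne'
  have z : ∀ q : ℂ × ℂ, pr (T.ε j) (Zt (T.ε j) (T.F j) q) =
      (T.F j (q.1, q.2 - T.ε j * q.1), T.F j q) := fun q => by
    simp only [pr, Zt, stt]
    rw [mul_div_cancel₀ _ e', sub_sub_cancel]
  refine ⟨G.an a1, ?_, ?_, ?_⟩
  · rw [G.Z, z]; exact ⟨a2, a3⟩
  · rw [G.Z, G.Z, z, ← pt_sub]; rfl
  · rw [G.Z, G.Z, z, pt_add]; exact a4

end Vale.Agent.P097F.LC
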