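import Vale.Agent.P097F.LC.Defs

/-!
# P097F/LC: the deep part of the machine
-/

set_option linter.all false

noncomputable section

namespace Vale.Agent.P097F.LC.H86

open Filter Topology Set Metric Complex Vale.Agent.P097F.N Vale.Agent.P097F.S Vale.Agent.P097D
open Vale.Agent.P097EE (C2)

theorem eps0 (T : TD) : Tendsto T.ε T.𝒰 (𝓝 0) := by
  simpa [Function.comp_def] using (continuous_re.tendsto _).comp T.seq.el

theorem nn_le (T : TD) {p : Sc} (n0 : 0 ≤ p.n) (j : ℕ) :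
    p.n - T.ε j ≤ T.ε j * nn T p j ∧ T.ε j * nn T p j ≤ p.n := by
  have e0 := T.e0 j
  have h1 := mul_le_mul_of_nonneg_left (Nat.floor_le (div_nonneg n0 e0.le)) e0.le
  have h2 := mul_lt_mul_of_pos_left (Nat.lt_floor_add_one (p.n / T.ε j)) e0
  rw [mul_div_cancel₀ _ e0.ne'] at h1 h2
  unfold nn
  constructor <;> linarith

/-- boxes of times under the reference top stay in a compact part of the wedge -/
theorem soft (T : TD) {n X y : ℝ} (n0 : 0 < n) (n1 : 20 * n * T.W ≤ 1) (hX : T.W * X < T.L)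
    (hy : y < 10 * n) : ∃ η > 0, ∃ Kc, IsCompact Kc ∧
      Kc ⊆ Wd T.a T.L (-T.E.b₀) T.ρ T.K T.C T.W T.H₀ T.b₀ ∧ ∀ p : Sc, p.n = n →
      ∀ᶠ j in (T.𝒰 : Filter ℕ), ∀ s ζ : ℂ, |T.ε j * s.re| ≤ X → |T.ε j * s.im| ≤ y →
        T.ε j * ‖ζ‖ ≤ η → pt T p j (s, ζ) ∈ Kc := by
  have W1 := T.W1
  have C1 := T.loc.C1
  let P : ℝ × ℝ → C2 := fun t =>
    (T.W, T.a + (T.H₀ - n * T.W * 10 : ℝ) * I + T.W * (t.1 + t.2 * I))
  have cP : Continuous P := by fun_prop
  have kS := (isCompact_Icc (a := (-X, -y)) (b := (X, y))).image cP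
  have sub : P '' Icc (-X, -y) (X, y) ⊆ Wd T.a T.L (-T.E.b₀) T.ρ T.K T.C T.W T.H₀ T.b₀ := by
    rintro _ ⟨t, ⟨⟨a1, a2⟩, a3, a4⟩, rfl⟩
    have hi := T.loc.hi
    have r0 := T.loc.ρ0
    have k0 := T.loc.K0
    simp only at a1 a2 a3 a4
    have u1 : 0 ≤ T.C * T.ρ := by positivity
    have u2 : 0 ≤ T.K * T.ρ ^ 2 := by positivity
    refine mem_wd.2 ⟨by simpa [P] using r0, ?_, ?_, ?_⟩
    · simp only [P, add_re, ofReal_re, mul_re, I_re, I_im, ofReal_im, add_im, mul_im]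
      rw [abs_lt]
      constructor <;> nlinarith
    · simp only [P, add_re, ofReal_re, mul_re, I_re, I_im, ofReal_im, add_im, mul_im]
      nlinarith
    · simp only [P, tw, add_re, ofReal_re, mul_re, I_re, I_im, ofReal_im, add_im, mul_im, abs_zero]
      nlinarith
  obtain ⟨δ, δ0, hδ⟩ := kS.exists_cthickening_subset_open (wd_open _ _ _ _ _ _ _ _ _) sub
  obtain ⟨Λ, Λ1, hΛ⟩ : ∃ Λ, 1 ≤ Λ ∧ X + y ≤ Λ := ⟨_, le_max_left 1 _, le_max_right _ _⟩
  refine ⟨δ / (4 * Λ) / (2 * T.W), by positivity, _, kS.cthickening (r := δ), hδ, fun p hp => ?_⟩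
  have l1 : Tendsto (fun j => T.ε j * (nn T p j : ℝ)) T.𝒰 (𝓝 n) :=
    tendsto_of_tendsto_of_tendsto_of_le_of_le (by simpa [hp] using (eps0 T).const_sub p.n)
      tendsto_const_nhds (fun j => (nn_le T (hp ▸ n0.le) j).1)
      fun j => hp ▸ (nn_le T (hp ▸ n0.le) j).2
  have l2 := T.loc.lH.sub ((l1.mul T.loc.lv).mul_const 10)
  have d4 : δ / (4 * Λ) * Λ = δ / 4 := by field_simp
  have d0 : 0 < δ / (4 * Λ) := by positivity
  filter_upwards [Metric.tendsto_nhds.1 l2 (δ / 4) (by positivity),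
    Metric.tendsto_nhds.1 T.loc.lv _ (lt_min d0 one_pos)] with j k1 k2 s ζ h1 h2 h3
  rw [Real.dist_eq] at k1 k2
  have e0 := T.e0 j
  have v1 := abs_lt.1 (k2.trans_le (min_le_right _ _))
  have w : ‖T.v j + al T j * ζ - T.W‖ ≤ 2 * (δ / (4 * Λ)) := by
    have a1 : ‖(T.v j : ℂ) - T.W‖ ≤ δ / (4 * Λ) := by
      rw [← ofReal_sub, norm_real]
      exact k2.le.trans (min_le_left _ _)
    have a2 : ‖al T j * ζ‖ ≤ δ / (4 * Λ) := by
      have b1 : T.v j / T.C ≤ 2 * T.W := (div_le_self (by linarith) C1).trans (by linarith)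
      have b0 : 0 ≤ T.v j / T.C := div_nonneg (by linarith) (by linarith)
      rw [al, norm_mul, norm_mul, norm_real, norm_real, Real.norm_of_nonneg e0.le,
        Real.norm_of_nonneg b0]
      rw [le_div_iff₀ (by linarith)] at h3
      calc _ = T.ε j * ‖ζ‖ * (T.v j / T.C) := by ring
        _ ≤ T.ε j * ‖ζ‖ * (2 * T.W) := by gcongr
        _ ≤ _ := h3
    rw [add_sub_right_comm]
    exact (norm_add_le _ _).trans (by linarith)
  have d5 : δ / (4 * Λ) ≤ δ / 4 := by nlinarith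
  refine mem_cthickening_of_dist_le _ (P (T.ε j * s.re, T.ε j * s.im)) _ _ (mem_image_of_mem P
    ⟨⟨(abs_le.1 h1).1, (abs_le.1 h2).1⟩, (abs_le.1 h1).2, (abs_le.1 h2).2⟩) ?_
  rw [dist_eq_norm]
  refine norm_prod_le_iff.2 ⟨w.trans (by linarith), ?_⟩
  have e : (pt T p j (s, ζ) - P (T.ε j * s.re, T.ε j * s.im)).2 =
      ((T.H j - T.ε j * nn T p j * T.v j * 10 - (T.H₀ - n * T.W * 10) : ℝ) : ℂ) * I +
        (T.v j + al T j * ζ - T.W) * (T.ε j * s) := by
    simp only [pt, x0, P, Prod.snd_sub]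
    nth_rewrite 1 [← re_add_im s]
    nth_rewrite 5 [← re_add_im s]
    push_cast
    ring
  have t : ‖(T.ε j : ℂ) * s‖ ≤ Λ := (norm_le_abs_re_add_abs_im _).trans (by
    rw [re_ofReal_mul, im_ofReal_mul]; linarith)
  rw [e]
  refine (norm_add_le _ _).trans ?_
  rw [norm_mul, norm_mul, norm_I, norm_real, Real.norm_eq_abs]
  nlinarith [mul_le_mul w t (norm_nonneg _) (by positivity)]

theorem box (T : TD) {n X y : ℝ} (n0 : 0 < n) (n1 : 20 * n * T.W ≤ 1)
    (hX : T.W * (X + n) < T.L) (hy : y < 10 * n) : ∃ η > 0, ∃ B : ℝ, ∀ (O : Ob T) (p : Sc),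
      p.n = n → ∀ᶠ j in (T.𝒰 : Filter ℕ), ∀ s ζ : ℂ, |T.ε j * s.re| ≤ X → |T.ε j * s.im| ≤ y →
        T.ε j * ‖ζ‖ ≤ η → AnalyticAt ℂ (md O p j).Z (s, ζ) ∧ ‖(md O p j).Z (s, ζ)‖ ≤ B ∧
          (md O p j).T ((md O p j).Z (s, ζ)) = (md O p j).Z (s + 1, ζ) ∧
          (md O p j).T' ((md O p j).Z (s + 1, ζ)) = (md O p j).Z (s, ζ) := by
  obtain ⟨η, η0, Kc, kc, sub, H⟩ := soft T n0 n1 hX hy
  have L0 : 0 < T.L := by nlinarith [T.LW, T.W1, T.loc.C1]
  obtain ⟨y₀, m, g0⟩ := T.nz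
  obtain ⟨B, hB⟩ := deepS T.seq (P097Mo.nz_of T.seq.op (convex_halfSpace_im_lt _).isPreconnected
    T.seq.dg m g0) T.loc (wom T.mx T.hα T.hβ T.hb L0 T.loc T.sU T.eqA).1
    (fun w hw => T.mx.ok.ne w (T.sU hw)) kc sub
  refine ⟨η, η0, B, fun O p hp => ?_⟩
  filter_upwards [H p hp, hB, (eps0 T).eventually (gt_mem_nhds n0)] with j k1 k2 k3 s ζ h1 h2 h3
  have e0 := T.e0 j
  obtain ⟨a1, a2, a3, -⟩ := k2 _ (k1 s ζ (by linarith) h2 h3)
  obtain ⟨-, -, -, a4⟩ := k2 _ (k1 (s + 1) ζ (by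
    rw [add_re, one_re, mul_add, mul_one]
    exact (abs_add_le _ _).trans (by rw [abs_of_pos e0]; linarith)) (by simpa using h2) h3)
  refine ⟨AnalyticAt.comp (g := Zt (T.ε j) (T.F j)) (f := pt T p j) a1 ?_, a2, a3.trans ?_,
    a4.trans ?_⟩
  · have a : AnalyticAt ℂ (fun q : C2 => (T.v j : ℂ) + al T j * q.2) (s, ζ) :=
      analyticAt_const.add (analyticAt_const.mul analyticAt_snd)
    exact a.prod (analyticAt_const.add ((analyticAt_const.mul a).mul analyticAt_fst))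
  · simp only [md, pt]
    congr 2
    ring
  · simp only [md, pt]
    congr 2
    ring

theorem deep : R_DEEP := by
  intro T O
  have W1 := T.W1
  have r1 : T.ρ' ≤ 1 := by linarith [T.obs.lim.1, T.hα]
  refine Eventually.of_forall fun ϱ => Eventually.of_forall fun r => Eventually.of_forall fun A =>
    Eventually.of_forall fun m => ?_
  filter_upwards [Ioo_mem_nhdsGT (show (0 : ℝ) < 1 / (20 * T.W) by positivity)] with n ⟨n0, n1⟩
  rw [lt_div_iff₀ (by positivity)] at n1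
  have hX : T.W * (T.en + 9 * n + n) < T.L := by
    have : T.W * T.en = T.L - 1 + T.ρ' / 4 := by unfold TD.en; field_simp
    nlinarith
  obtain ⟨η, η0, B, H1⟩ := box T n0 (by linarith) hX (y := 8 * n) (by linarith)
  filter_upwards [Ioo_mem_nhdsGT η0] with R ⟨R0, R1⟩
  filter_upwards [self_mem_nhdsWithin] with H (H0 : 0 < H)
  obtain ⟨η', η1, B', H2⟩ := box T n0 (by linarith) hX (y := 10 * n - H / 4) (by linarith)
  filter_upwards [eventually_ge_atTop B, eventually_ge_atTop B'] with K k1 k2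
  have s0 : Tendsto (fun j => 3 * T.ς j ^ 10) T.𝒰 (𝓝 0) := by
    simpa [TD.ς] using (((eps0 T).rpow_const (p := (1 : ℝ) / 220) (Or.inr (by norm_num))).pow
      10).const_mul 3
  filter_upwards [H1 O ⟨ϱ, r, A, m, n, R, H⟩ rfl, H2 O ⟨ϱ, r, A, m, n, R, H⟩ rfl,
    s0.eventually (gt_mem_nhds η1)] with j a1 a2 a3 s ζ ⟨h1, h2⟩ hc
  have e0 := T.e0 j
  have u := (nn_le T (p := ⟨ϱ, r, A, m, n, R, H⟩) n0.le j).2
  have hr : |T.ε j * s.re| ≤ T.en + 9 * n := by
    have b1 := mul_le_mul_of_nonneg_left (Int.le_ceil (-T.en / T.ε j)) e0.le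
    have b2 := mul_le_mul_of_nonneg_left (Int.floor_le (T.en / T.ε j)) e0.le
    rw [mul_div_cancel₀ _ e0.ne'] at b1 b2
    simp only [md, lo0, hi0, if_true, lt_irrefl, if_false] at h1 h2
    have c1 := mul_le_mul_of_nonneg_left h1 e0.le
    have c2 := mul_le_mul_of_nonneg_left h2 e0.le
    simp only at u
    rw [abs_le]
    constructor <;> nlinarith
  rcases hc with ⟨c1, c2⟩ | ⟨c1, c2⟩
  · obtain ⟨b1, b2, b3⟩ := a1 s ζ hr (by
      rw [abs_mul, abs_of_pos e0]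
      have := mul_le_mul_of_nonneg_left c2 e0.le
      simp only [md] at this u
      linarith) (by
      simp only [md] at c1
      rw [lt_div_iff₀ e0] at c1
      linarith)
    exact ⟨b1, b2.trans k1, b3⟩
  · obtain ⟨b1, b2, b3⟩ := a2 s ζ hr (by
      rw [abs_mul, abs_of_pos e0]
      have := mul_le_mul_of_nonneg_left c2 e0.le
      have e : T.ε j * (H / T.ε j) = H := mul_div_cancel₀ _ e0.ne'
      simp only [md] at this u
      linarith) (by linarith)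
    exact ⟨b1, b2.trans k2, b3⟩

end Vale.Agent.P097F.LC.H86
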