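import Vale.Agent.P097F.N.Wc
import Vale.Agent.P097F.N.Ob1
import Vale.Agent.P097F.N.InvC
import Vale.Agent.P097F.N.Slp
import Vale.Agent.P097F.SE.Seam
import Vale.Agent.P097F.G.Defs

/-!
# P097F/LC: the machine of the true families (definitions and statements)

Window times `ε * s`; the point of the time `t` on the leaf `W` is `a + W * t`.
-/

set_option linter.all false

noncomputable section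

namespace Vale.Agent.P097F.LC

open Filter Topology Set Metric Complex Vale.Agent.P097F.N Vale.Agent.P097F.S Vale.Agent.P097D
open Vale.Agent.P097EE (C2)

/-- the data and the hypotheses of `Spec_TRUE` -/
structure TD where
  𝒰 : Ultrafilter ℕ
  ε : ℕ → ℝ
  θ : ℕ → ℂ → ℂ
  h : ℕ → ℂ → ℂ
  Q : ℕ → ℂ → ℂ
  c : ℕ → ℂ
  U : ℕ → Set ℂ
  E : D.Dat
  Y : C2 → ℂ
  a : ℝ
  L : ℝ
  ρ : ℝ
  K : ℝ
  C : ℝ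
  v : ℕ → ℝ
  H : ℕ → ℝ
  b : ℕ → ℝ
  W : ℝ
  H₀ : ℝ
  b₀ : ℝ
  F : ℕ → C2 → ℂ
  F₀ : C2 → ℂ
  σ : ℝ
  ρ' : ℝ
  M : ℕ
  X : Fin M → ℂ → ℂ
  Φ : Fin M → C2 → ℂ
  Δ : Fin M → C2 → ℂ
  seq : P097Mo.Seq 𝒰 (fun j => (ε j : ℂ)) θ h Q c U E.g (Lo 0)
  e0 : ∀ j, 0 < ε j
  ul : ∀ j, U j ⊆ Lo 0
  nz : ∃ y ∈ Lo 0, E.g y ≠ 0
  sz : D.SZ E.g
  mx : D.Mx E Y
  hα : E.α = a - L
  hβ : E.β = a + L
  hb : E.b₁ = E.b₀ + 1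
  loc : Loc 𝒰 ε θ h U a L (-E.b₀) ρ K C v H b W H₀ b₀ F F₀
  sU : ball (W : ℂ) ρ ⊆ E.U
  eqA : EqOn F₀ E.A (ball (W : ℂ) ρ ×ˢ D.Rc E.α E.β E.b₀ E.b₁)
  obs : D.Obs E Y W H₀ (a - L + 1) (a + L - 1) σ ρ' M X Φ Δ
  lev : D.Lev W σ X
  sep : ∀ c c', c ≠ c' → deriv (fun w => (X c' w - X c w) / w) W ≠ 0
  W1 : 1 ≤ W
  LW : 30 * C * W ≤ L

namespace TD

variable (T : TD)

/-- the position of the obstacle `c` -/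
def Xn (c : ℕ) : ℂ → ℂ := if h : c < T.M then T.X ⟨c, h⟩ else 0

/-- the singular state `(Y, δ)` of the obstacle `c` -/
def P (c : ℕ) : C2 := if h : c < T.M then (T.Φ ⟨c, h⟩ (T.W, 0), T.Δ ⟨c, h⟩ (T.W, 0)) else 0

/-- the window time of the obstacle `c` -/
def pos (c : ℕ) : ℝ := ((T.Xn c T.W).re - T.a) / T.W

/-- the window time of the right end -/
def en : ℝ := (T.L - 1 + T.ρ' / 4) / T.W

/-- the limit slope of the obstacle `c` -/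
def sl0 (c : ℕ) : ℝ := ((deriv (T.Xn c) T.W).re - T.pos c) / T.C

/-- the scale -/
def ς (j : ℕ) : ℝ := T.ε j ^ ((1 : ℝ) / 220)

/-- the curve in window units -/
def g (j : ℕ) : ℂ → ℂ := gg (T.θ j) (T.ε j)

end TD

/-- the patches of the obstacles and the two free slopes -/
structure Ob (T : TD) where
  κ : ℕ → ℂ
  r₀ : ℕ → ℝ
  s : ℕ → ℝ
  B : ℕ → ℝ
  Mq : ℕ → ℝ
  Ξ : ℕ → ℕ → C2 → C2
  Ξ₀ : ℕ → C2 → C2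
  FL : ℝ
  FR : ℝ
  lv : ∀ c < T.M, LevS T.𝒰 T.g (Ξ c) T.E.g (Ξ₀ c) (T.P c) (T.W ^ 3) (κ c) (r₀ c) (s c) (B c)
  lo : ∀ c < T.M, ball (T.P c).1 (2 * s c) ⊆ Lo 0
  qb : ∀ c < T.M, 0 ≤ Mq c ∧ QB T.𝒰 T.Q T.U (T.P c).1 (s c) (Mq c)
  fl : 24 ≤ FL ∧ FL ≤ 25 ∧ ∀ c < T.M, T.sl0 c ≠ FL
  fr : -25 ≤ FR ∧ FR ≤ -24 ∧ ∀ c < T.M, T.sl0 c ≠ FR

/-- the sizes in window units -/
structure Sc where
  ϱ : ℝ
  r : ℝ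
  A : ℝ
  m : ℝ
  n : ℝ
  R : ℝ
  H : ℝ

/-- for sizes which are chosen in the order `ϱ, r, A, m, n, R, H, K` -/
def Ev (P : Sc → ℝ → Prop) : Prop := ∀ᶠ ϱ in 𝓝[>] (0 : ℝ), ∀ᶠ r in 𝓝[>] (0 : ℝ),
  ∀ᶠ A in (atTop : Filter ℝ), ∀ᶠ m in 𝓝[>] (0 : ℝ), ∀ᶠ n in 𝓝[>] (0 : ℝ), ∀ᶠ R in 𝓝[>] (0 : ℝ),
  ∀ᶠ H in 𝓝[>] (0 : ℝ), ∀ᶠ K in (atTop : Filter ℝ), P ⟨ϱ, r, A, m, n, R, H⟩ K

theorem Ev.and {P Q : Sc → ℝ → Prop} (h : Ev P) (h' : Ev Q) : Ev fun p K => P p K ∧ Q p K := by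
  filter_upwards [h, h'] with _ h h'
  filter_upwards [h, h'] with _ h h'
  filter_upwards [h, h'] with _ h h'
  filter_upwards [h, h'] with _ h h'
  filter_upwards [h, h'] with _ h h'
  filter_upwards [h, h'] with _ h h'
  filter_upwards [h, h'] with _ h h'
  filter_upwards [h, h'] with _ h h' using ⟨h, h'⟩

theorem Ev.mono {P Q : Sc → ℝ → Prop} (h : Ev P) (h' : ∀ p K, P p K → Q p K) : Ev Q :=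
  Eventually.mono h fun _ h => h.mono fun _ h => h.mono fun _ h => h.mono fun _ h => h.mono
    fun _ h => h.mono fun _ h => h.mono fun _ h => h.mono fun _ h => h' _ _ h

theorem Ev.ex {P : Sc → ℝ → Prop} (h : Ev P) : ∃ p K, P p K := by
  obtain ⟨_, h⟩ := Eventually.exists h
  obtain ⟨_, h⟩ := h.exists
  obtain ⟨_, h⟩ := h.exists
  obtain ⟨_, h⟩ := h.exists
  obtain ⟨_, h⟩ := h.exists
  obtain ⟨_, h⟩ := h.exists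
  obtain ⟨_, h⟩ := h.exists
  obtain ⟨_, h⟩ := h.exists
  exact ⟨_, _, h⟩

variable {T : TD} (O : Ob T) (p : Sc)

/-- the distance of the checkpoints from the obstacle `c` -/
def dd (c : ℕ) : ℝ := ‖O.κ c‖ * p.ϱ ^ 2 / 4

/-- the left end of the gap `j` in window time -/
def lo0 (j : ℕ) : ℝ := if j = 0 then -T.en else T.pos (j - 1) + dd O p (j - 1)

/-- the right end of the gap `j` in window time -/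
def hi0 (j : ℕ) : ℝ := if j < T.M then T.pos j - dd O p j else T.en

/-- the number `n` of the machine -/
def nn (T : TD) (p : Sc) (j : ℕ) : ℕ := ⌊p.n / T.ε j⌋₊

/-- the change of the step per label -/
def al (T : TD) (j : ℕ) : ℂ := T.ε j * (T.v j / T.C : ℝ)

/-- the point of the time `0` -/
def x0 (T : TD) (p : Sc) (j : ℕ) : ℂ :=
  T.a + (T.H j - T.ε j * T.v j * (10 * nn T p j) : ℝ) * I

/-- the point `(W, x)` of the time `s` on the leaf `ζ` -/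
def pt (T : TD) (p : Sc) (j : ℕ) (q : C2) : C2 :=
  (T.v j + al T j * q.2, x0 T p j + T.ε j * (T.v j + al T j * q.2) * q.1)

/-- **the machine at the scale `j`** -/
def md (j : ℕ) : Md where
  T := TT (T.θ j) (T.h j) (T.ε j)
  T' := TB (T.θ j) (T.h j) (T.ε j)
  Z := fun q => Zt (T.ε j) (T.F j) (pt T p j q)
  m := ⌊p.m / T.ε j⌋₊
  n := nn T p j
  M := T.M
  R := p.R / T.ε j
  H := p.H / T.ε j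
  r := p.r
  a := p.A * T.ε j
  m₀ := 10 * nn T p j
  m₁ := -(T.b j + T.ε j * (10 * nn T p j)) / T.C
  ω := T.ε j / T.C
  C₁ := 1
  C₂ := 3
  FL := O.FL
  FR := O.FR
  G := 24
  lo := fun i => ⌈lo0 O p i / T.ε j⌉
  hi := fun i => ⌊hi0 O p i / T.ε j⌋
  Λ := fun _ => La (T.g j)
  Ξ := fun c => Xv (T.g j) (O.Ξ c j)
  τ := fun c => clk (fq (T.g j) (O.Ξ c j))
  f := fun c => fq (T.g j) (O.Ξ c j)
  κ := O.κ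
  J := fun _ => T.W ^ 3
  ϱ := fun _ => p.ϱ

/-- a property of the machine which holds for good sizes along the ultrafilter -/
def Row (P : ℝ → ℝ → ℝ → Md → Prop) : Prop := ∀ (T : TD) (O : Ob T),
  Ev fun p K => ∀ᶠ j in (T.𝒰 : Filter ℕ), P K (T.ς j) (T.ε j) (md O p j)

/-! ## the rows -/

/-- the patches exist -/
def R_OB : Prop := ∀ T : TD, Nonempty (Ob T)

def R_NUM : Prop := Row Num

def R_CONE : Prop := Row fun _ ς ε D => ∀ s ζ : ℂ, D.Hor s → ε * ‖ζ‖ ≤ 3 * ς ^ 10 →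
  -(8 * (D.n : ℝ)) ≤ s.im → s.im ≤ D.top s ζ - ς ^ 19 / ε →
  AnalyticAt ℂ D.Z (s, ζ) ∧ ‖D.Z (s, ζ)‖ ≤ 1 / ε ^ 3

def R_DEEP : Prop := Row fun K ς ε D => ∀ s ζ : ℂ, D.Hor s → (‖ζ‖ < D.R ∧ |s.im| ≤ 8 * D.n ∨
  ε * ‖ζ‖ ≤ 3 * ς ^ 10 ∧ |s.im| ≤ D.m₀ - D.H / 4) → AnalyticAt ℂ D.Z (s, ζ) ∧
  ‖D.Z (s, ζ)‖ ≤ K ∧ D.T (D.Z (s, ζ)) = D.Z (s + 1, ζ) ∧ D.T' (D.Z (s + 1, ζ)) = D.Z (s, ζ)

def R_GAP : Prop := Row fun K _ _ D => (∀ i, D.Gap i → ∀ ζ : ℂ, ‖ζ‖ < D.R →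
  Near D.T (D.Z (i, ζ)) D.r D.a ∧ Near D.T' (D.Z (i, ζ)) D.r D.a ∧
  ∀ y ∈ ball (D.Z (i, ζ)) D.r, D.T' (D.T y) = y ∧ D.T (D.T' y) = y) ∧ Low K D

def R_INV : Prop := Row fun K _ ε D => ∀ i, D.Gap i → ∃ G : C2 → C2, ∀ p : C2, ‖p‖ ≤ 2 * D.H →
  ∀ q ∈ ball (D.C i p) (1 / K),
    DifferentiableAt ℂ G q ∧ D.C i (G q) = q ∧ ‖G q - p‖ ≤ K / ε * ‖q - D.C i p‖

def R_PAT : Prop := Row fun K ς ε D => (∀ c < D.M,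
  Patch D.T (D.Λ c) (D.Ξ c) (D.τ c) (D.f c) (D.κ c) (D.J c) ε (D.ϱ c) (ς ^ 10) (K * ς ^ 240) ∧
  Patch D.T' (D.Λ c) (D.Ξ c) (D.τ c) (D.f c) (D.κ c) (D.J c) (-ε) (D.ϱ c) (ς ^ 10)
    (K * ς ^ 240)) ∧ ∀ c < D.M, ∀ q ∈ An (D.J c) (D.ϱ c) (D.ϱ c / 16),
  ∀ q' ∈ An (D.J c) (D.ϱ c) (D.ϱ c / 16),
    ‖q - q'‖ ≤ D.ϱ c / 32 → ‖D.Ξ c q - D.Ξ c q'‖ ≤ K * ‖q - q'‖

def R_CK : Prop := Row fun _ _ _ D => ∀ c < D.M, ∀ ζ : ℂ, ‖ζ‖ < D.R →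
  Ck (D.Λ c) (D.Ξ c) (D.J c) (D.ϱ c) D.r (D.Z (D.hi c, ζ)) ∧
  Ck (D.Λ c) (D.Ξ c) (D.J c) (D.ϱ c) D.r (D.Z (D.lo (c + 1), ζ))

def R_GEO : Prop := Row fun K _ ε D => ∀ c < D.M, ∀ ζ : ℂ, ‖ζ‖ < D.R →
  (D.τ₀ c ζ).im ≤ -(ε * D.n) ∧
  (D.τ₀ c ζ).re + ε * D.m ≤ -(1 / K) ∧ 1 / K ≤ (D.τ₀ c ζ).re + ε * D.N c - ε * D.m ∧
  ‖D.τ₀ c ζ‖ + ε * D.m ≤ ‖D.κ c‖ * D.ϱ c ^ 2 / 2 ∧
  ‖D.τ₀ c ζ + ε * D.N c‖ + ε * D.m ≤ ‖D.κ c‖ * D.ϱ c ^ 2 / 2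

/-- the slopes converge -/
def R_SL : Prop := ∀ (T : TD) (O : Ob T), Ev fun p _ => ∀ c < T.M,
  Tendsto (fun j => (md O p j).sl (T.ε j) c) T.𝒰 (𝓝 (T.sl0 c))

/-- from `R_SL` -/
def R_SEP : Prop := Row fun K _ ε D => (∀ c < D.M, 1 ≤ K * |D.sl ε c - D.FL| ∧
  1 ≤ K * |D.sl ε c - D.FR| ∧ ∀ c' < D.M, c ≠ c' → 1 ≤ K * |D.sl ε c - D.sl ε c'|) ∧
  ∀ c < D.M, |D.sl ε c + D.ω * D.hi c| ≤ D.C₂ ∧ |D.sl ε c + D.ω * D.lo (c + 1)| ≤ D.C₂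

/-- the sharp cone -/
def R_SHP : Prop := ∀ (T : TD) (O : Ob T), Ev fun p _ => ∀ μ > 0, ∀ b : ℝ,
  ∀ᶠ j in (T.𝒰 : Filter ℕ), ∀ s ζ : ℂ, (md O p j).Hor s → ‖ζ‖ ≤ b →
    -(8 * ((md O p j).n : ℝ)) ≤ s.im → s.im ≤ (md O p j).top s ζ - μ →
    AnalyticAt ℂ (md O p j).Z (s, ζ) ∧ pr (T.ε j) ((md O p j).Z (s, ζ)) ∈ T.U j ×ˢ T.U j ∧
      (pr (T.ε j) ((md O p j).Z (s + 1, ζ))).1 = ((md O p j).Z (s, ζ)).1 ∧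
      P097N.EE (T.θ j) (T.h j) (pr (T.ε j) ((md O p j).Z (s, ζ))).1 ((md O p j).Z (s, ζ)).1
        ((md O p j).Z (s + 1, ζ)).1 = 0

/-- the horizontal range, and the radius of the patches -/
def R_HOR : Prop := ∀ (T : TD) (O : Ob T), Ev fun p _ => (0 < p.ϱ ∧ ∀ c < T.M, p.ϱ ≤ O.r₀ c) ∧
  ∀ᶠ j in (T.𝒰 : Filter ℕ), al T j ≠ 0 ∧ (∀ i, (md O p j).Gap i →
    |(x0 T p j).re + T.ε j * T.v j * i - T.a| ≤ T.L - 1 / 2) ∧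
    ∀ s : ℂ, (md O p j).Hor s → |T.ε j * T.v j * s.re| ≤ T.L - 1 / 2

end Vale.Agent.P097F.LC
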