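import Vale.Agent.P097F.LC.Defs
import Vale.Agent.P097F.D.Om

/-!
# P097F/LC: the step maps are near the identity at the base states of the gaps
-/

set_option linter.all false

noncomputable section

namespace Vale.Agent.P097F.LC

open Filter Topology Set Metric Complex Vale.Agent.P097F.N Vale.Agent.P097F.S Vale.Agent.P097D
open Vale.Agent.P097EE (C2)

namespace Gp57

variable {T : TD} (O : Ob T)

/-- the point of the window time `t` at the level `y` on the leaf `W` -/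
def lq (T : TD) (y t : ℝ) : C2 := (T.W, T.a + T.W * t + y * I)

theorem lp_cont (y : ℝ) : Continuous (lq T y) := by unfold lq; fun_prop

theorem W0 : 0 < T.W := by linarith [T.W1]

theorem r1 : T.ρ' ≤ 1 := by linarith [T.obs.lim.1, T.hα]

theorem enW : T.W * T.en = T.L - 1 + T.ρ' / 4 := mul_div_cancel₀ _ W0.ne'

theorem posW {c : ℕ} (hc : c < T.M) : T.W * T.pos c = (T.X ⟨c, hc⟩ T.W).re - T.a := by
  rw [TD.pos, TD.Xn, dif_pos hc]
  exact mul_div_cancel₀ _ W0.ne'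

theorem pos_le {c c' : ℕ} (h : c ≤ c') (hc : c' < T.M) : T.pos c ≤ T.pos c' := by
  rcases h.eq_or_lt with rfl | h
  · exact le_rfl
  · refine le_of_mul_le_mul_left ?_ (W0 (T := T))
    rw [posW hc, posW (h.trans hc)]
    linarith [T.obs.sep ⟨c, h.trans hc⟩ ⟨c', hc⟩ h, T.obs.ρ0]

theorem pos_en {c : ℕ} (hc : c < T.M) : -T.en ≤ T.pos c ∧ T.pos c ≤ T.en := by
  obtain ⟨-, a1, a2⟩ := T.obs.top ⟨c, hc⟩
  have := T.obs.ρ0
  constructor <;> refine le_of_mul_le_mul_left ?_ (W0 (T := T))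
  · rw [mul_neg, enW, posW hc]
    linarith
  · rw [enW, posW hc]
    linarith

theorem gap_t {p : Sc} (h0 : 0 < p.ϱ) {k : ℕ} (hk : k ≤ T.M) {t : ℝ}
    (ht : t ∈ Icc (lo0 O p k) (hi0 O p k)) : |t| ≤ T.en ∧ ∀ c < T.M, t ≠ T.pos c := by
  have d0 : ∀ c < T.M, 0 < dd O p c := fun c hc => by
    have := norm_pos_iff.2 (O.lv c hc).lim.κ0
    unfold dd
    positivity
  obtain ⟨a1, a2⟩ := ht
  have b1 : ∀ c < k, T.pos c < t := fun c hc => by
    rw [lo0, if_neg (by omega)] at a1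
    linarith [pos_le (T := T) (c := c) (c' := k - 1) (by omega) (by omega), d0 (k - 1) (by omega)]
  have b2 : ∀ c, k ≤ c → c < T.M → t < T.pos c := fun c h1 h2 => by
    rw [hi0, if_pos (by omega)] at a2
    linarith [pos_le h1 h2, d0 k (by omega)]
  refine ⟨abs_le.2 ⟨?_, ?_⟩, fun c hc => ?_⟩
  · rcases Nat.eq_zero_or_pos k with rfl | h
    · simpa [lo0] using a1
    · linarith [b1 (k - 1) (by omega), (pos_en (T := T) (c := k - 1) (by omega)).1]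
  · rcases hk.eq_or_lt with rfl | h
    · simpa [hi0] using a2
    · linarith [b2 k le_rfl h, (pos_en h).2]
  · rcases lt_or_ge c k with h | h
    · exact (b1 c h).ne'
    · exact (b2 c h hc).ne

theorem lp_re {y t : ℝ} (ht : |t| ≤ T.en) :
    (lq T y t).2.re = T.a + T.W * t ∧ (lq T y t).2.im = y ∧ |T.W * t| ≤ T.L - 1 + T.ρ' / 4 := by
  refine ⟨by simp [lq], by simp [lq], ?_⟩
  rw [abs_mul, abs_of_pos W0, ← enW]
  exact mul_le_mul_of_nonneg_left ht W0.le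

theorem lp_om {t : ℝ} (ht : |t| ≤ T.en) (h : ∀ c < T.M, t ≠ T.pos c) : lq T T.H₀ t ∈ T.E.Om := by
  obtain ⟨a1, a2, a3⟩ := lp_re (y := T.H₀) ht
  obtain ⟨a4, a5⟩ := abs_le.1 a3
  have := T.obs.ρ0
  refine (T.obs.om T.W (mem_ball_self T.obs.σ0) (lq T T.H₀ t).2 ⟨?_, ?_, ?_, ?_⟩).2
    fun c e => h c.1 c.2 (mul_left_cancel₀ (W0 (T := T)).ne' ?_)
  · linarith
  · linarith
  · linarith [T.obs.lim.2.2, T.hb]
  · linarith
  · rw [posW c.2]
    linarith [e.1]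

theorem lp_wd {n t : ℝ} (n0 : 0 < n) (n1 : 10 * T.W * n ≤ 1) (ht : |t| ≤ T.en) :
    lq T (T.H₀ - 10 * T.W * n) t ∈ Wd T.a T.L (-T.E.b₀) T.ρ T.K T.C T.W T.H₀ T.b₀ := by
  obtain ⟨a1, a2, a3⟩ := lp_re (y := T.H₀ - 10 * T.W * n) ht
  have a4 := T.loc.hi
  have a5 : 0 ≤ T.C * T.ρ := mul_nonneg (by linarith [T.loc.C1]) T.loc.ρ0.le
  have a6 : 0 ≤ T.K * T.ρ ^ 2 := mul_nonneg T.loc.K0 (sq_nonneg _)
  have a7 := mul_pos (W0 (T := T)) n0
  refine ⟨mem_ball_self T.loc.ρ0, ?_, ?_, ?_⟩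
  · rw [a1, add_sub_cancel_left]
    linarith [r1 (T := T)]
  · linarith
  · rw [a2]
    simp [lq]
    linarith

/-- the base points of the charts are near the segment at depth `10 W n` -/
theorem pt_near (p : Sc) (n0 : 0 < p.n) {δ : ℝ} (hR : (1 + |T.en|) * (T.W * p.R) < δ) :
    ∀ᶠ j in (T.𝒰 : Filter ℕ), ∀ (i : ℤ) (ζ : ℂ), |T.ε j * i| ≤ T.en → ‖ζ‖ < p.R / T.ε j →
      ‖pt T p j (i, ζ) - lq T (T.H₀ - 10 * T.W * p.n) (T.ε j * i)‖ ≤ δ := by
  have e0 : Tendsto T.ε T.𝒰 (𝓝 0) := (continuous_re.tendsto _).comp T.seq.el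
  have e1 : Tendsto (fun j => T.ε j * nn T p j) T.𝒰 (𝓝 p.n) := by
    refine tendsto_of_tendsto_of_tendsto_of_le_of_le (g := fun j => p.n - T.ε j)
      (by simpa using e0.const_sub p.n) tendsto_const_nhds (fun j => ?_) fun j => ?_
    · have := (div_lt_iff₀ (T.e0 j)).1 (Nat.lt_floor_add_one (p.n / T.ε j))
      simp only [nn]
      linarith
    · have := (le_div_iff₀ (T.e0 j)).1 (Nat.floor_le (div_pos n0 (T.e0 j)).le)
      simp only [nn]
      linarith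
  have e2 := (((T.loc.lv.sub_const T.W).abs.add (T.loc.lv.abs.mul_const p.R)).const_mul
    (1 + |T.en|)).add (((T.loc.lH.sub ((T.loc.lv.mul e1).const_mul 10)).sub_const
      (T.H₀ - 10 * T.W * p.n)).abs)
  rw [sub_self, abs_zero, zero_add, abs_of_pos W0, mul_assoc 10, sub_self, abs_zero, add_zero] at e2
  filter_upwards [e2.eventually (gt_mem_nhds hR)] with j k i ζ hi hζ
  have ε0 := T.e0 j
  have C1 := T.loc.C1
  have w1 : ‖al T j * ζ‖ ≤ |T.v j| * p.R := by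
    have a1 := (lt_div_iff₀ ε0).1 hζ
    have a2 : |T.v j / T.C| ≤ |T.v j| := by
      rw [abs_div, abs_of_pos (by linarith : 0 < T.C)]
      exact div_le_self (abs_nonneg _) C1
    rw [al, norm_mul, norm_mul, norm_real, norm_real, Real.norm_of_nonneg ε0.le, Real.norm_eq_abs,
      mul_comm (T.ε j), mul_assoc]
    exact mul_le_mul a2 (by linarith) (by positivity) (abs_nonneg _)
  obtain ⟨β, hβ⟩ : ∃ β, β = |T.v j - T.W| + |T.v j| * p.R := ⟨_, rfl⟩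
  have w2 : ‖(T.v j : ℂ) + al T j * ζ - T.W‖ ≤ β := by
    rw [add_sub_right_comm, ← ofReal_sub, hβ]
    refine (norm_add_le _ _).trans (add_le_add ?_ w1)
    rw [norm_real, Real.norm_eq_abs]
  have β0 := (norm_nonneg _).trans w2
  rw [← hβ] at k
  obtain ⟨γ, hγ⟩ : ∃ γ, γ = T.H j - 10 * (T.v j * (T.ε j * nn T p j)) -
    (T.H₀ - 10 * (T.W * p.n)) := ⟨_, rfl⟩
  rw [← hγ] at k
  have w3 : (pt T p j (i, ζ) - lq T (T.H₀ - 10 * T.W * p.n) (T.ε j * i)).2 =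
      (T.ε j * i : ℝ) * ((T.v j : ℂ) + al T j * ζ - T.W) + γ * I := by
    simp only [hγ, pt, lq, x0, Prod.snd_sub]
    push_cast
    ring
  have w4 := norm_add_le (((T.ε j * i : ℝ) : ℂ) * ((T.v j : ℂ) + al T j * ζ - T.W)) (γ * I)
  rw [norm_mul, norm_mul, norm_real, norm_real, norm_I, mul_one, Real.norm_eq_abs,
    Real.norm_eq_abs] at w4
  have w5 : |T.ε j * i| * ‖(T.v j : ℂ) + al T j * ζ - T.W‖ ≤ |T.en| * β :=
    mul_le_mul (hi.trans (le_abs_self _)) w2 (norm_nonneg _) (abs_nonneg _)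
  have w6 := mul_nonneg (abs_nonneg T.en) β0
  rw [Prod.norm_def, w3]
  exact max_le (w2.trans (by linarith [abs_nonneg γ])) (by linarith)

theorem small {a δ : ℝ} (h : 0 < δ) : ∀ᶠ x in 𝓝[>] (0 : ℝ), 0 < x ∧ a * x < δ := by
  have t : Tendsto (fun x : ℝ => a * x) (𝓝[>] 0) (𝓝 (a * 0)) :=
    (tendsto_id.mono_left nhdsWithin_le_nhds).const_mul a
  rw [mul_zero] at t
  exact eventually_mem_nhdsWithin.and (t.eventually (gt_mem_nhds h))

end Gp57

open Gp57 in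
theorem gap : R_GAP := by
  intro T O
  obtain ⟨y₀, m₀, g₀⟩ := T.nz
  have z := P097Mo.nz_of T.seq.op (convex_halfSpace_im_lt 0).isPreconnected T.seq.dg m₀ g₀
  obtain ⟨oO, -, -, sO⟩ := D.om T.E T.mx.ok
  have L0 : 0 < T.L := by nlinarith [T.LW, T.W1, T.loc.C1]
  have eq := (wom T.mx T.hα T.hβ T.hb L0 T.loc T.sU T.eqA).2
  filter_upwards [eventually_mem_nhdsWithin] with ϱ (ϱ0 : 0 < ϱ)
  obtain ⟨G, hG⟩ : ∃ G : Set ℝ, G = ⋃ k ∈ Finset.range (T.M + 1),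
    Icc (lo0 O ⟨ϱ, 0, 0, 0, 0, 0, 0⟩ k) (hi0 O ⟨ϱ, 0, 0, 0, 0, 0, 0⟩ k) := ⟨_, rfl⟩
  have cG : IsCompact G := hG ▸ (Finset.range _).isCompact_biUnion fun _ _ => isCompact_Icc
  have mG : ∀ t ∈ G, |t| ≤ T.en ∧ ∀ c < T.M, t ≠ T.pos c := fun t ht => by
    rw [hG] at ht
    obtain ⟨k, hk, ht⟩ := mem_iUnion₂.1 ht
    exact gap_t O ϱ0 (Nat.lt_succ_iff.1 (Finset.mem_range.1 hk)) ht
  have cS := cG.image (lp_cont (T := T) T.H₀)
  obtain ⟨δ, δ0, hδ⟩ := cS.exists_cthickening_subset_open oO (by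
    rintro _ ⟨t, ht, rfl⟩
    exact lp_om (mG t ht).1 (mG t ht).2)
  obtain ⟨r₀, A₀, τ, r0, -, -, τ0, hg⟩ := gapS T.seq T.e0 z T.loc oO T.mx.fam
    (fun q hq => T.mx.ok.ne _ (sO q hq).1) (fun q hq => (eq q hq).2) cS.cthickening hδ
  filter_upwards [small (a := 1) r0] with r ⟨_, hr⟩
  filter_upwards [eventually_ge_atTop A₀] with A hA
  filter_upwards with m
  filter_upwards [small (a := 10 * T.W) (lt_min one_pos (half_pos δ0))] with n ⟨n0, hn⟩
  have cS' := (isCompact_Icc (a := -T.en) (b := T.en)).image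
    (lp_cont (T := T) (T.H₀ - 10 * T.W * n))
  obtain ⟨δ', δ0', hδ'⟩ := cS'.exists_cthickening_subset_open (wd_open _ _ _ _ _ _ _ _ _) (by
    rintro _ ⟨t, ht, rfl⟩
    exact lp_wd n0 (hn.le.trans (min_le_left _ _)) (abs_le.2 ht))
  filter_upwards [small (a := (1 + |T.en|) * T.W) (lt_min δ0' (half_pos δ0))] with R ⟨_, hR⟩
  filter_upwards with H
  filter_upwards [eventually_ge_atTop (1 / τ)] with K hK
  filter_upwards [hg _ cS'.cthickening hδ', pt_near ⟨ϱ, r, A, m, n, R, H⟩ n0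
    (by rw [← mul_assoc]; exact hR)] with j k1 k2
  have ε0 := T.e0 j
  have key : ∀ i : ℤ, (md O ⟨ϱ, r, A, m, n, R, H⟩ j).Gap i → ∀ ζ : ℂ, ‖ζ‖ < R / T.ε j →
      pt T ⟨ϱ, r, A, m, n, R, H⟩ j (i, ζ) ∈
        cthickening δ' (lq T (T.H₀ - 10 * T.W * n) '' Icc (-T.en) T.en) ∧
      pt T ⟨ϱ, r, A, m, n, R, H⟩ j (i, ζ) ∈ cthickening δ (lq T T.H₀ '' G) := by
    rintro i ⟨k, hk, a1, a2⟩ ζ hζ
    have b1 := (div_le_iff₀ ε0).1 (Int.ceil_le.1 a1)
    have b2 := (le_div_iff₀ ε0).1 (Int.le_floor.1 a2)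
    have tG : T.ε j * i ∈ G := by
      rw [hG, mul_comm]
      exact mem_iUnion₂.2 ⟨k, Finset.mem_range.2 (Nat.lt_succ_of_le hk), b1, b2⟩
    have c1 := k2 i ζ (mG _ tG).1 hζ
    have c2 : ‖lq T (T.H₀ - 10 * T.W * n) (T.ε j * i) - lq T T.H₀ (T.ε j * i)‖ ≤ δ / 2 := by
      have e : lq T (T.H₀ - 10 * T.W * n) (T.ε j * i) - lq T T.H₀ (T.ε j * i) =
          (0, ((-(10 * T.W * n) : ℝ) : ℂ) * I) := by
        simp only [lq, Prod.mk_sub_mk, sub_self]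
        push_cast
        congr 1
        ring
      have := mul_pos (W0 (T := T)) n0
      rw [e, Prod.norm_mk, norm_zero, norm_mul, norm_I, mul_one, norm_real, Real.norm_eq_abs,
        abs_neg, abs_of_pos (by linarith)]
      exact max_le (by linarith) (hn.le.trans (min_le_right _ _))
    exact ⟨mem_cthickening_of_dist_le _ _ _ _ (mem_image_of_mem _ (abs_le.1 (mG _ tG).1))
        (by rw [dist_eq_norm]; exact c1.trans (min_le_left _ _)),
      mem_cthickening_of_dist_le _ _ _ _ (mem_image_of_mem _ tG) (by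
        rw [dist_eq_norm]
        exact (norm_sub_le_norm_sub_add_norm_sub _ _ _).trans
          ((add_le_add (c1.trans (min_le_right _ _)) c2).trans (by linarith)))⟩
  have k3 := fun i hi ζ hζ => k1 _ (key i hi ζ hζ).1 (key i hi ζ hζ).2 r (A * T.ε j) (by linarith)
    (mul_le_mul_of_nonneg_right hA ε0.le)
  refine ⟨fun i hi ζ hζ => ⟨(k3 i hi ζ hζ).1, (k3 i hi ζ hζ).2.1, (k3 i hi ζ hζ).2.2.1⟩,
    fun i hi ζ hζ => (k3 i hi ζ hζ).2.2.2.trans (neg_le_neg ?_)⟩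
  exact (one_div_le τ0 ((one_div_pos.2 τ0).trans_le hK)).1 hK

end Vale.Agent.P097F.LC
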