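import Vale.Agent.P097F.LC.Defs
import Vale.Agent.P097F.D.Om

/-!
# P097F/LC: the gaps
-/

set_option linter.all false

noncomputable section

namespace Vale.Agent.P097F.LC.G2

open Filter Topology Set Metric Complex Vale.Agent.P097F.N Vale.Agent.P097F.S Vale.Agent.P097D
open Vale.Agent.P097EE (C2)

variable (T : TD)

lemma nz : P097Mo.NZ T.E.g (Lo 0) := by
  obtain ⟨y, h1, h2⟩ := T.nz
  exact P097Mo.nz_of T.seq.op (convex_halfSpace_im_lt 0).isPreconnected T.seq.dg h1 h2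

lemma W0 : 0 < T.W := by linarith [T.W1]

lemma L30 : 30 ≤ T.L := by nlinarith [T.W1, T.loc.C1, T.LW]

lemma ρ1 : T.ρ' ≤ 1 := by linarith [T.obs.lim.1, T.hα]

lemma wo : ∀ q ∈ Wd T.a T.L (-T.E.b₀) T.ρ T.K T.C T.W T.H₀ T.b₀, q ∈ T.E.Om ∧ T.Y q = T.F₀ q :=
  (wom T.mx T.hα T.hβ T.hb (by linarith [L30 T]) T.loc T.sU T.eqA).2

lemma eps : Tendsto T.ε T.𝒰 (𝓝 0) := by
  simpa [Function.comp_def] using (continuous_re.tendsto _).comp T.seq.el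

lemma xn (c : Fin T.M) : T.Xn c = T.X c := by simp [TD.Xn, c.2]

lemma pos_bd {c : ℕ} (hc : c < T.M) : |T.pos c| ≤ T.en := by
  have h := T.obs.top ⟨c, hc⟩
  rw [← xn T ⟨c, hc⟩] at h
  unfold TD.pos TD.en
  rw [abs_div, abs_of_pos (W0 T)]
  exact div_le_div_of_nonneg_right (abs_le.2 ⟨by linarith [h.2.1, T.obs.ρ0],
    by linarith [h.2.2, T.obs.ρ0]⟩) (W0 T).le

lemma pos_sep {c c' : ℕ} (h : c < c') (hc : c' < T.M) : T.pos c + 4 * T.ρ' / T.W ≤ T.pos c' := by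
  have h1 := T.obs.sep ⟨c, by omega⟩ ⟨c', hc⟩ h
  rw [← xn T, ← xn T] at h1
  unfold TD.pos
  rw [← add_div]
  exact div_le_div_of_nonneg_right (by linarith) (W0 T).le

variable {T} (O : Ob T)

lemma dd0 (p : Sc) (c : ℕ) : 0 ≤ dd O p c := by unfold dd; positivity

/-- the window times of a gap -/
lemma tim {p : Sc} {j : ℕ} {i : ℤ} (h : (md O p j).Gap i) :
    ∃ k ≤ T.M, lo0 O p k ≤ T.ε j * i ∧ T.ε j * i ≤ hi0 O p k := by
  obtain ⟨k, hk, h1, h2⟩ := h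
  have e0 := T.e0 j
  refine ⟨k, hk, ?_, ?_⟩
  · exact (div_le_iff₀' e0).1 (Int.ceil_le.1 h1)
  · exact (le_div_iff₀' e0).1 (Int.le_floor.1 h2)

lemma far {p : Sc} (sm : ∀ c < T.M, dd O p c ≤ 4 * T.ρ' / T.W) {k : ℕ} (hk : k ≤ T.M) {t : ℝ}
    (h1 : lo0 O p k ≤ t) (h2 : t ≤ hi0 O p k) :
    |t| ≤ T.en ∧ ∀ c < T.M, dd O p c ≤ |t - T.pos c| := by
  unfold lo0 at h1
  unfold hi0 at h2
  refine ⟨abs_le.2 ⟨?_, ?_⟩, fun c hc => ?_⟩
  · split_ifs at h1 with e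
    · exact h1
    · linarith [abs_le.1 (pos_bd T (c := k - 1) (by omega)), dd0 O p (k - 1)]
  · split_ifs at h2 with e
    · linarith [abs_le.1 (pos_bd T e), dd0 O p k]
    · exact h2
  · rcases lt_or_ge c k with q | q
    · rw [if_neg (by omega)] at h1
      refine le_trans ?_ (le_abs_self _)
      rcases (show c < k - 1 ∨ c = k - 1 by omega) with e | e
      · linarith [pos_sep T e (by omega), dd0 O p (k - 1), sm c hc]
      · rw [e]; linarith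
    · rw [if_pos (by omega)] at h2
      refine le_trans ?_ (neg_le_abs _)
      rcases q.lt_or_eq with e | e
      · linarith [pos_sep T e hc, dd0 O p k, sm c hc]
      · rw [← e]; linarith

lemma ddsm {η : ℝ} (η0 : 0 < η) : ∀ᶠ ϱ in 𝓝[>] (0 : ℝ), ∀ c < T.M, ‖O.κ c‖ * ϱ ^ 2 / 4 ≤ η := by
  have : ∀ c ∈ Finset.range T.M, ∀ᶠ ϱ in 𝓝[>] (0 : ℝ), ‖O.κ c‖ * ϱ ^ 2 / 4 ≤ η := fun c _ => by
    have h : Tendsto (fun ϱ : ℝ => ‖O.κ c‖ * ϱ ^ 2 / 4) (𝓝 0) (𝓝 (‖O.κ c‖ * 0 ^ 2 / 4)) :=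
      Continuous.tendsto (by fun_prop) 0
    exact (h.mono_left nhdsWithin_le_nhds).eventually_le_const (by simpa using η0)
  exact ((eventually_all_finset _).2 this).mono fun ϱ h c hc => h c (Finset.mem_range.2 hc)

variable (T)

/-- the base points are near the line at the depth `10 n W` -/
lemma near (n : ℝ) (n0 : 0 ≤ n) (Λ : ℝ) {δ : ℝ} (δ0 : 0 < δ) : ∀ᶠ R in 𝓝[>] (0 : ℝ),
    ∀ p : Sc, p.n = n → ∀ᶠ j in (T.𝒰 : Filter ℕ), ∀ (t : ℝ) (ζ : ℂ), |T.ε j * t| ≤ Λ →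
      ‖ζ‖ < R / T.ε j → ‖(pt T p j (t, ζ)).1 - T.W‖ ≤ δ ∧ ‖(pt T p j (t, ζ)).2 -
        (T.a + T.W * (T.ε j * t : ℝ) + (T.H₀ - 10 * n * T.W : ℝ) * I)‖ ≤ δ := by
  have W0 := W0 T
  obtain ⟨η, hη⟩ : ∃ η, η = δ / (|Λ| + 1) := ⟨_, rfl⟩
  have η0 : 0 < η := by rw [hη]; positivity
  have η1 : η * (|Λ| + 1) = δ := by rw [hη]; field_simp
  have Λ0 := abs_nonneg Λ
  filter_upwards [Ioo_mem_nhdsGT (show 0 < η / (4 * T.W) by positivity)] with R hR p hp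
  have l1 : Tendsto (fun j => T.ε j * nn T p j) T.𝒰 (𝓝 n) := by
    refine tendsto_of_tendsto_of_tendsto_of_le_of_le (g := fun j => n - T.ε j) (h := fun _ => n)
      (by simpa using (eps T).const_sub n) tendsto_const_nhds (fun j => ?_) fun j => ?_
    · have := (div_lt_iff₀' (T.e0 j)).1 (Nat.lt_floor_add_one (n / T.ε j))
      simp only [nn, hp]
      linarith
    · simp only [nn, hp]
      exact (le_div_iff₀' (T.e0 j)).1 (Nat.floor_le (div_nonneg n0 (T.e0 j).le))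
  have l2 : Tendsto (fun j => T.H j - T.ε j * T.v j * (10 * nn T p j)) T.𝒰
      (𝓝 (T.H₀ - 10 * n * T.W)) :=
    (T.loc.lH.sub ((l1.const_mul 10).mul T.loc.lv)).congr fun j => by ring
  filter_upwards [Metric.tendsto_nhds.1 l2 η η0, Metric.tendsto_nhds.1 T.loc.lv (η / 2)
    (by linarith), Metric.tendsto_nhds.1 T.loc.lv T.W W0] with j a1 a2 a3 t ζ ht hζ
  rw [Real.dist_eq] at a1 a2 a3
  have e0 := T.e0 j
  have C1 := T.loc.C1
  have b1 : ‖al T j * ζ‖ ≤ η / 2 := by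
    have v1 := abs_lt.1 a3
    rw [al, norm_mul, norm_mul, norm_real, norm_real, Real.norm_of_nonneg e0.le,
      Real.norm_of_nonneg (div_nonneg (by linarith) (by linarith))]
    have c1 : T.v j / T.C ≤ 2 * T.W := (div_le_self (by linarith) C1).trans (by linarith)
    have c2 : T.ε j * ‖ζ‖ ≤ R := ((lt_div_iff₀' e0).1 hζ).le
    have c3 := (lt_div_iff₀ (by positivity)).1 hR.2
    calc _ = T.v j / T.C * (T.ε j * ‖ζ‖) := by ring
      _ ≤ 2 * T.W * R := mul_le_mul c1 c2 (by positivity) (by linarith)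
      _ ≤ _ := by linarith
  have b2 : ‖(pt T p j (t, ζ)).1 - T.W‖ ≤ η := by
    have e : (pt T p j (t, ζ)).1 - T.W = (T.v j - T.W : ℝ) + al T j * ζ := by
      simp only [pt]; push_cast; ring
    rw [e]
    refine (norm_add_le _ _).trans ?_
    rw [norm_real, Real.norm_eq_abs]
    linarith
  refine ⟨b2.trans (by nlinarith), ?_⟩
  have e : (pt T p j (t, ζ)).2 -
      (T.a + T.W * (T.ε j * t : ℝ) + (T.H₀ - 10 * n * T.W : ℝ) * I) =
      (T.ε j * t : ℝ) * ((pt T p j (t, ζ)).1 - T.W) +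
        (T.H j - T.ε j * T.v j * (10 * nn T p j) - (T.H₀ - 10 * n * T.W) : ℝ) * I := by
    simp only [pt, x0]; push_cast; ring
  rw [e]
  refine (norm_add_le _ _).trans ?_
  rw [norm_mul, norm_mul, norm_real, norm_real, norm_I, mul_one, Real.norm_eq_abs, Real.norm_eq_abs]
  have := mul_le_mul (ht.trans (le_abs_self Λ)) b2 (norm_nonneg _) Λ0
  linarith

variable {T}

/-- the closed gaps of the model, up to the top -/
def Kg (T : TD) (σ : ℝ) (d : ℕ → ℝ) : Set C2 := {q | ‖q.1 - T.W‖ ≤ σ ∧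
  |q.2.im - T.H₀| ≤ T.ρ' / 2 ∧ |q.2.re - T.a| ≤ T.L - 1 + T.ρ' / 2 ∧
  ∀ c : Fin T.M, d c ≤ |q.2.re - (T.X c T.W).re|}

lemma kg_cpt (σ : ℝ) (d : ℕ → ℝ) : IsCompact (Kg T σ d) := by
  refine isCompact_of_isClosed_isBounded ?_ ((isBounded_closedBall (x := ((T.W : ℂ),
    (T.a + T.H₀ * I : ℂ))) (r := σ + (T.L + T.ρ'))).subset fun q ⟨h1, h2, h3, _⟩ => ?_)
  · simp only [Kg, setOf_and, setOf_forall]
    exact (isClosed_le (by fun_prop) (by fun_prop)).inter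
      ((isClosed_le (by fun_prop) (by fun_prop)).inter
      ((isClosed_le (by fun_prop) (by fun_prop)).inter
      (isClosed_iInter fun c => isClosed_le (by fun_prop) (by fun_prop))))
  · rw [mem_closedBall_iff_norm, Prod.norm_def]
    have h4 := norm_le_abs_re_add_abs_im (q.2 - (T.a + T.H₀ * I))
    simp only [sub_re, add_re, ofReal_re, mul_re, I_re, I_im, ofReal_im, sub_im, add_im, mul_im,
      mul_zero, zero_mul, sub_zero, add_zero, mul_one, zero_add] at h4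
    have := norm_nonneg (q.1 - T.W)
    refine max_le ?_ ?_
    · show ‖q.1 - T.W‖ ≤ _
      linarith [L30 T, T.obs.ρ0]
    · show ‖q.2 - _‖ ≤ _
      linarith

lemma kg_om {d : ℕ → ℝ} (d0 : ∀ c < T.M, 0 < d c) : ∃ σ > 0, Kg T σ d ⊆ T.E.Om := by
  have h1 : ∀ᶠ w in 𝓝 (T.W : ℂ), ∀ c : Fin T.M, ‖T.X c w - T.X c T.W‖ < d c :=
    eventually_all.2 fun c => by
      have := ((T.obs.one c).an _ (mem_ball_self T.obs.σ0)).continuousAt
      simpa only [dist_eq_norm] using Metric.tendsto_nhds.1 this _ (d0 c c.2)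
  obtain ⟨σ, σ0, hσ⟩ := nhds_basis_closedBall.eventually_iff.1
    (h1.and (ball_mem_nhds _ T.obs.σ0))
  refine ⟨σ, σ0, fun q ⟨a1, a2, a3, a4⟩ => ?_⟩
  obtain ⟨b1, b2⟩ := hσ (mem_closedBall_iff_norm.2 a1)
  have ρ0 := T.obs.ρ0
  have c2 := abs_le.1 a2
  have c3 := abs_le.1 a3
  refine (T.obs.om q.1 b2 q.2 ⟨by linarith, by linarith,
    by linarith [T.obs.lim.2.2, T.mx.ok.lt], by linarith⟩).2 fun c s => ?_
  have := (abs_re_le_norm _).trans_lt (b1 c)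
  rw [sub_re, ← s.1] at this
  linarith [a4 c]

/-- **the base points lie in two compact sets** -/
theorem cpt : ∀ᶠ ϱ in 𝓝[>] (0 : ℝ), ∃ G : Set C2, IsCompact G ∧ G ⊆ T.E.Om ∧
    ∀ᶠ n in 𝓝[>] (0 : ℝ), ∃ Kc : Set C2, IsCompact Kc ∧
      Kc ⊆ Wd T.a T.L (-T.E.b₀) T.ρ T.K T.C T.W T.H₀ T.b₀ ∧ ∀ᶠ R in 𝓝[>] (0 : ℝ),
      ∀ p : Sc, p.ϱ = ϱ → p.n = n → ∀ᶠ j in (T.𝒰 : Filter ℕ), ∀ (i : ℤ) (ζ : ℂ),
        (md O p j).Gap i → ‖ζ‖ < R / T.ε j → pt T p j (i, ζ) ∈ Kc ∧ pt T p j (i, ζ) ∈ G := by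
  have W0 := W0 T
  have ρ0 := T.obs.ρ0
  have ρ1 := ρ1 T
  filter_upwards [ddsm O (show 0 < 4 * T.ρ' / T.W by positivity), self_mem_nhdsWithin] with ϱ sm ϱ0
  have ϱ1 : 0 < ϱ := ϱ0
  have d0 : ∀ c < T.M, 0 < T.W * (‖O.κ c‖ * ϱ ^ 2 / 4) / 2 := fun c hc => by
    have := norm_pos_iff.2 (O.lv c hc).lim.κ0
    positivity
  obtain ⟨σ, σ0, hσ⟩ := kg_om (T := T) (d := fun c => T.W * (‖O.κ c‖ * ϱ ^ 2 / 4) / 2) d0
  refine ⟨_, kg_cpt _ _, hσ, ?_⟩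
  filter_upwards [Ioo_mem_nhdsGT (show 0 < T.ρ' / (40 * T.W) by positivity)] with n hn
  have n0 := hn.1
  have n1 := (lt_div_iff₀ (by positivity)).1 hn.2
  have nW : 0 < n * T.W := by positivity
  refine ⟨_, wk_cpt T.a (T.L - 1 / 4) (-T.E.b₀ - 1 / 4) (T.ρ / 2) T.C T.W T.H₀ T.b₀ (n * T.W)
    T.loc.K0 (loc_b T.loc), wk_sub (by linarith [T.loc.ρ0]) (by linarith) (by linarith) nW, ?_⟩
  have h1 : ∀ᶠ δ in 𝓝[>] (0 : ℝ), ∀ c ∈ Finset.range T.M,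
      δ < T.W * (‖O.κ c‖ * ϱ ^ 2 / 4) / 2 := (eventually_all_finset _).2 fun c hc =>
    nhdsWithin_le_nhds (Iio_mem_nhds (d0 c (Finset.mem_range.1 hc)))
  have h2 : ∀ᶠ δ in 𝓝[>] (0 : ℝ), 2 * T.C * δ + T.K * δ ^ 2 ≤ n * T.W := by
    have h : Tendsto (fun δ : ℝ => 2 * T.C * δ + T.K * δ ^ 2) (𝓝 0)
        (𝓝 (2 * T.C * 0 + T.K * 0 ^ 2)) := Continuous.tendsto (by fun_prop) 0
    exact (h.mono_left nhdsWithin_le_nhds).eventually_le_const (by simpa using nW)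
  have io : ∀ {x : ℝ}, 0 < x → ∀ᶠ δ in 𝓝[>] (0 : ℝ), δ ∈ Ioo 0 x := fun h => Ioo_mem_nhdsGT h
  obtain ⟨δ, d1, d2, d3, d4, d5, d6⟩ := (h1.and (h2.and ((io σ0).and
    ((io (half_pos T.loc.ρ0)).and ((io nW).and
    (io (show 0 < T.ρ' / 4 by positivity))))))).exists
  filter_upwards [near T n n0.le T.en d3.1] with R hR p e1 e2
  filter_upwards [hR p e2] with j hj i ζ gi hζ
  obtain ⟨k, hk, t1, t2⟩ := tim O gi
  obtain ⟨f1, f2⟩ := far O (p := p) (fun c hc => by rw [dd, e1]; exact sm c hc) hk t1 t2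
  obtain ⟨g1, g2⟩ := hj i ζ f1 hζ
  rw [ofReal_intCast] at g1 g2
  generalize pt T p j (i, ζ) = q at g1 g2 ⊢
  generalize T.ε j * i = t at f1 f2 g2
  have g3 := abs_le.1 ((abs_re_le_norm _).trans g2)
  have g4 := abs_le.1 ((abs_im_le_norm _).trans g2)
  simp only [sub_re, add_re, ofReal_re, mul_re, I_re, I_im, ofReal_im, sub_im, add_im, mul_im,
    mul_zero, zero_mul, sub_zero, add_zero, mul_one, zero_add] at g3 g4
  have g5 : |T.W * t| ≤ T.L - 1 + T.ρ' / 4 := by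
    rw [abs_mul, abs_of_pos W0]
    exact (le_div_iff₀' W0).1 f1
  have g6 := abs_le.1 g5
  have hi := T.loc.hi
  have tw1 := (tw_ge (H := T.H₀) T.loc.K0 (loc_b T.loc) g1).1
  have q1 : 0 ≤ 2 * T.C * T.ρ + T.K * T.ρ ^ 2 := by
    have := T.loc.C1; have := T.loc.ρ0; have := T.loc.K0; positivity
  refine ⟨⟨g1.trans d4.2.le, abs_le.2 ⟨by linarith [d6.2], by linarith [d6.2]⟩,
    by linarith [d6.2], by linarith [d5.2]⟩, g1.trans d3.2.le,
    abs_le.2 ⟨by linarith [d6.2], by linarith [d6.2]⟩,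
    abs_le.2 ⟨by linarith [d6.2], by linarith [d6.2]⟩, fun c => ?_⟩
  have u1 := mul_le_mul_of_nonneg_left (f2 c c.2) W0.le
  have u2 : T.W * |t - T.pos c| = |T.W * t + T.a - (T.X c T.W).re| := by
    rw [← abs_of_pos W0, ← abs_mul, abs_of_pos W0, TD.pos, xn]
    congr 1
    field_simp
    ring
  rw [u2, dd, e1] at u1
  have u3 := d1 c (Finset.mem_range.2 c.2)
  have u4 := abs_sub_le (T.W * t + T.a) q.2.re (T.X c T.W).re
  have u5 : |T.W * t + T.a - q.2.re| ≤ δ := abs_le.2 ⟨by linarith, by linarith⟩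
  linarith

theorem gap : R_GAP := by
  intro T O
  filter_upwards [cpt O] with ϱ ⟨G, G1, G2, h1⟩
  have om := D.om T.E T.mx.ok
  obtain ⟨r₀, A₀, τ, r0, -, -, τ0, h2⟩ := gapS T.seq T.e0 (nz T) T.loc om.1 T.mx.fam
    (fun q hq => T.mx.ok.ne _ (om.2.2.2 q hq).1) (fun q hq => (wo T q hq).2) G1 G2
  filter_upwards [Ioo_mem_nhdsGT r0] with r hr
  filter_upwards [eventually_ge_atTop A₀] with A hA
  refine Eventually.of_forall fun m => ?_
  filter_upwards [h1] with n ⟨Kc, K1, K2, h3⟩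
  filter_upwards [h3] with R h4
  refine Eventually.of_forall fun H => ?_
  filter_upwards [eventually_ge_atTop (1 / τ)] with K hK
  filter_upwards [h4 ⟨ϱ, r, A, m, n, R, H⟩ rfl rfl, h2 Kc K1 K2] with j a1 a2
  have key := fun i ζ gi hζ => a2 _ (a1 i ζ gi hζ).1 (a1 i ζ gi hζ).2 r (A * T.ε j) hr.2.le
    (mul_le_mul_of_nonneg_right hA (T.e0 j).le)
  refine ⟨fun i gi ζ hζ => ⟨(key i ζ gi hζ).1, (key i ζ gi hζ).2.1, (key i ζ gi hζ).2.2.1⟩,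
    fun i gi ζ hζ => (key i ζ gi hζ).2.2.2.trans (neg_le_neg ?_)⟩
  exact (one_div_le (lt_of_lt_of_le (by positivity) hK) τ0).2 hK

end Vale.Agent.P097F.LC.G2
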