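import Vale.Agent.P097F.LC.Defs

/-!
# P097F/LC: the clock at the checkpoints
-/

set_option linter.all false

noncomputable section

namespace Vale.Agent.P097F.LC.E2

open Filter Topology Set Metric Complex Vale.Agent.P097F.N Vale.Agent.P097F.S Vale.Agent.P097D
open Vale.Agent.P097EE (C2)

theorem ev_all {P : ℕ → Sc → ℝ → Prop} (M : ℕ) (h : ∀ c < M, Ev (P c)) :
    Ev fun p K => ∀ c < M, P c p K := by
  induction M with
  | zero =>
    iterate 8 refine Eventually.of_forall fun _ => ?_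
    intro c hc
    omega
  | succ M ih =>
    refine ((ih fun c hc => h c (by omega)).and (h M (by omega))).mono fun p K k c hc => ?_
    rcases Nat.lt_succ_iff_lt_or_eq.1 hc with e | e
    · exact k.1 c e
    · exact e ▸ k.2

theorem el (T : TD) : Tendsto T.ε T.𝒰 (𝓝 0) := by
  have := (continuous_re.tendsto _).comp T.seq.el
  exact this

theorem lim_of (T : TD) {x : ℝ} {i : ℕ → ℝ} (h : ∀ j, |i j - x / T.ε j| ≤ 1) :
    Tendsto (fun j => T.ε j * i j) T.𝒰 (𝓝 x) := by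
  refine tendsto_iff_norm_sub_tendsto_zero.2 (squeeze_zero (fun _ => norm_nonneg _) (fun j => ?_)
    (el T))
  have e := T.e0 j
  have : T.ε j * i j - x = T.ε j * (i j - x / T.ε j) := by field_simp
  rw [this, Real.norm_eq_abs, abs_mul, abs_of_pos e]
  nlinarith [h j]

/-- the limit point of the time `t` -/
def qs (T : TD) (t n : ℝ) : C2 := (T.W, T.a + (T.H₀ - T.W * (10 * n) : ℝ) * I + T.W * t)

theorem pt_near (T : TD) (t n δ : ℝ) (n0 : 0 < n) (δ0 : 0 < δ) : ∀ᶠ R in 𝓝[>] (0 : ℝ),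
    ∀ p : Sc, p.n = n → p.R = R → ∀ i : ℕ → ℝ, Tendsto (fun j => T.ε j * i j) T.𝒰 (𝓝 t) →
      ∀ᶠ j in (T.𝒰 : Filter ℕ), ∀ ζ : ℂ, ‖ζ‖ < p.R / T.ε j →
        pt T p j (i j, ζ) ∈ closedBall (qs T t n) δ := by
  have c : Continuous fun z : ℂ × ℂ × ℂ => ((z.1, z.2.1 + z.1 * z.2.2) : C2) := by fun_prop
  obtain ⟨δ', δ1, hδ⟩ := Metric.eventually_nhds_iff_ball.1 ((c.tendsto
    (T.W, T.a + (T.H₀ - T.W * (10 * n) : ℝ) * I, t)).eventually (closedBall_mem_nhds (qs T t n) δ0))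
  have W1 := T.W1
  have C1 := T.loc.C1
  filter_upwards [Ioo_mem_nhdsGT (show 0 < δ' / (2 * (T.W + 1)) by positivity)] with R ⟨R0, R1⟩ p
    e1 e2 i hi
  have l1 : Tendsto (fun j => T.ε j * (nn T p j : ℝ)) T.𝒰 (𝓝 n) := lim_of T fun j => by
    have := Nat.floor_le (div_pos n0 (T.e0 j)).le
    have := Nat.lt_floor_add_one (n / T.ε j)
    rw [nn, e1, abs_le]
    constructor <;> linarith
  have l2 : Tendsto (fun j => T.H j - T.ε j * T.v j * (10 * nn T p j)) T.𝒰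
      (𝓝 (T.H₀ - T.W * (10 * n))) :=
    (T.loc.lH.sub (T.loc.lv.mul (l1.const_mul 10))).congr fun j => by ring
  have l3 : Tendsto (x0 T p) T.𝒰 (𝓝 (T.a + (T.H₀ - T.W * (10 * n) : ℝ) * I)) :=
    (((continuous_ofReal.tendsto _).comp l2).mul_const I).const_add _
  have l4 := (continuous_ofReal.tendsto _).comp hi
  filter_upwards [(l3.prodMk_nhds l4).eventually (ball_mem_nhds _ δ1),
    Metric.tendsto_nhds.1 T.loc.lv _ (lt_min one_pos (half_pos δ1))] with j k1 k2 ζ hζ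
  have e := T.e0 j
  rw [Real.dist_eq, lt_min_iff] at k2
  have b1 : ‖al T j * ζ‖ ≤ (T.W + 1) * R := by
    rw [e2, lt_div_iff₀ e] at hζ
    have a1 : |T.v j / T.C| ≤ T.W + 1 := by
      rw [abs_div, abs_of_pos (by linarith : 0 < T.C), div_le_iff₀ (by linarith)]
      have : |T.v j| ≤ T.W + 1 := abs_le.2 ⟨by linarith [(abs_lt.1 k2.1).1],
        by linarith [(abs_lt.1 k2.1).2]⟩
      nlinarith
    rw [al, norm_mul, norm_mul, Complex.norm_real, Complex.norm_real, Real.norm_of_nonneg e.le,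
      Real.norm_eq_abs]
    calc _ = |T.v j / T.C| * (‖ζ‖ * T.ε j) := by ring
      _ ≤ _ := by gcongr
  have b2 : (T.v j + al T j * ζ : ℂ) ∈ ball (T.W : ℂ) δ' := by
    rw [mem_ball_iff_norm, add_sub_right_comm]
    refine (norm_add_le _ _).trans_lt ?_
    rw [← ofReal_sub, Complex.norm_real, Real.norm_eq_abs]
    rw [lt_div_iff₀ (by positivity)] at R1
    linarith [k2.2]
  have := hδ (T.v j + al T j * ζ, x0 T p j, ((T.ε j * i j : ℝ) : ℂ))
    (by rw [← ball_prod_same]; exact ⟨b2, k1⟩)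
  have e' : pt T p j (i j, ζ) = (T.v j + al T j * ζ,
      x0 T p j + (T.v j + al T j * ζ) * ((T.ε j * i j : ℝ) : ℂ)) := by
    simp only [pt, ofReal_mul]
    congr 1
    ring
  rw [e']
  exact this

/-- the clock of the true state near a checkpoint -/
theorem chk (T : TD) (O : Ob T) {c : ℕ} (hc : c < T.M) : ∀ᶠ ϱ in 𝓝[>] (0 : ℝ),
    0 < ‖O.κ c‖ * ϱ ^ 2 / 4 ∧ ∀ᶠ n in 𝓝[>] (0 : ℝ), ∃ δ > 0, ∀ᶠ j in (T.𝒰 : Filter ℕ),
      ∀ q ∈ closedBall (qs T (T.pos c - ‖O.κ c‖ * ϱ ^ 2 / 4) n) δ,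
      ‖clk (fq (T.g j) (O.Ξ c j)) (La (T.g j) (Zt (T.ε j) (T.F j) q)) -
        (-(‖O.κ c‖ * ϱ ^ 2 / 4 : ℝ) - (10 * n : ℝ) * I)‖ < 2 * n := by
  have S := O.lv c hc
  have W1 := T.W1
  have C1 := T.loc.C1
  have W0 : (T.W : ℂ) ≠ 0 := ofReal_ne_zero.2 (by linarith)
  have eP : T.P c = (T.Φ ⟨c, hc⟩ (T.W, 0), T.Δ ⟨c, hc⟩ (T.W, 0)) := dif_pos hc
  have eX : T.Xn c = T.X ⟨c, hc⟩ := dif_pos hc
  have On := T.obs.one ⟨c, hc⟩
  obtain ⟨δ, δ0, -, -, hδ⟩ := one_clk On T.obs.σ0 T.obs.ρ0 W0 (eP ▸ S.lim)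
  rw [← eP] at hδ
  obtain ⟨t1, t2, t3⟩ := T.obs.top ⟨c, hc⟩
  set X := T.X ⟨c, hc⟩ with hX
  have κ0 := norm_pos_iff.2 S.lim.κ0
  have L0 : 0 < T.L := by nlinarith [T.LW]
  have wm := (wom T.mx T.hα T.hβ T.hb L0 T.loc T.sU T.eqA).2
  have tf := tf_of T.loc
  have td : Tendsto (fun ϱ : ℝ => T.W * (‖O.κ c‖ * ϱ ^ 2 / 4)) (𝓝[>] 0) (𝓝 0) :=
    tendsto_nhdsWithin_of_tendsto_nhds (Continuous.tendsto' (by fun_prop) _ _ (by simp))
  filter_upwards [Ioo_mem_nhdsGT S.lim.r0, td.eventually (gt_mem_nhds (lt_min one_pos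
    (half_pos δ0)))] with ϱ ⟨ϱ0, ϱ1⟩ hd
  rw [lt_min_iff] at hd
  obtain ⟨d, ed⟩ : ∃ d, d = ‖O.κ c‖ * ϱ ^ 2 / 4 := ⟨_, rfl⟩
  rw [← ed] at hd ⊢
  have d0 : 0 < d := by rw [ed]; positivity
  refine ⟨d0, ?_⟩
  filter_upwards [Ioo_mem_nhdsGT (show 0 < min (d / 20) (1 / (10 * T.W)) by positivity)] with n
    ⟨n0, n1⟩
  rw [lt_min_iff, lt_div_iff₀ (by positivity : 0 < 10 * T.W)] at n1
  set q₀ := qs T (T.pos c - d) n with hq
  set t₀ : ℂ := -(d : ℂ) - (10 * n : ℝ) * I with ht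
  have r0 : t₀.re = -d := by simp [ht]
  have n2 : ‖t₀‖ ≤ d + 10 * n := by
    refine (norm_sub_le _ _).trans (le_of_eq ?_)
    rw [norm_neg, norm_mul, norm_I, Complex.norm_real, Complex.norm_real,
      Real.norm_of_nonneg d0.le, Real.norm_of_nonneg (by positivity), mul_one]
  have n3 : d ≤ ‖t₀‖ := by
    have := abs_re_le_norm t₀
    rwa [r0, abs_neg, abs_of_pos d0] at this
  have p1 : T.W * T.pos c = (X T.W).re - T.a := by
    rw [TD.pos, eX]
    field_simp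
  have e1 : q₀.2 - X q₀.1 = T.W * t₀ := by
    apply Complex.ext
    · simp [hq, ht, qs]
      linarith
    · simp [hq, ht, qs, t1]
  have cX : ContinuousAt (fun q : C2 => q.2 - X q.1) q₀ := continuousAt_snd.sub
    (ContinuousAt.comp (g := X) (On.an _ (mem_ball_self T.obs.σ0)).continuousAt continuousAt_fst)
  have ct : ContinuousAt (fun q : C2 => (q.2 - X q.1) / q.1) q₀ := cX.div continuousAt_fst W0
  have e2 : (q₀.2 - X q₀.1) / q₀.1 = t₀ := by
    rw [e1]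
    exact mul_div_cancel_left₀ _ W0
  have m0 : q₀ ∈ Wd T.a T.L (-T.E.b₀) T.ρ T.K T.C T.W T.H₀ T.b₀ := by
    have h1 := T.loc.hi
    have h2 := T.loc.ρ0
    have h3 := T.loc.K0
    have h4 : 0 ≤ T.K * T.ρ ^ 2 := by positivity
    have h5 : 0 ≤ T.C * T.ρ := by positivity
    have h6 : 0 < T.W * d := by positivity
    have h7 : 0 < T.W * n := by positivity
    refine ⟨mem_ball_self h2, ?_, ?_, ?_⟩
    · have : q₀.2.re - T.a = T.W * (T.pos c - d) := by simp [hq, qs]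
      rw [this, abs_lt]
      constructor <;> linarith [hd.1]
    · simp [hq, qs]
      linarith [n1.2]
    · simp [hq, qs]
      linarith
  have a1 : ∀ᶠ q : C2 in 𝓝 q₀, ‖q.1 - (T.W : ℂ)‖ < δ := ContinuousAt.eventually_lt
    (f := fun q : C2 => ‖q.1 - T.W‖) (by fun_prop) continuousAt_const (by simpa [hq, qs] using δ0)
  have a2 : ∀ᶠ q : C2 in 𝓝 q₀, ‖q.2 - X q.1‖ < δ := cX.norm.eventually_lt continuousAt_const (by
    show ‖q₀.2 - X q₀.1‖ < δ
    rw [e1, norm_mul, Complex.norm_real, Real.norm_of_nonneg (by linarith)]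
    nlinarith [hd.2, n1.1])
  have a3 : ∀ᶠ q : C2 in 𝓝 q₀, (q.2 - X q.1).re < 0 :=
    (continuous_re.continuousAt.comp cX).eventually_lt continuousAt_const (by
      show (q₀.2 - X q₀.1).re < 0
      rw [e1, re_ofReal_mul, r0]
      nlinarith)
  have a4 : ∀ᶠ q : C2 in 𝓝 q₀, ‖(q.2 - X q.1) / q.1 - t₀‖ < n :=
    (ct.sub continuousAt_const).norm.eventually_lt continuousAt_const (by
      show ‖(q₀.2 - X q₀.1) / q₀.1 - t₀‖ < n
      rw [e2]
      simpa using n0)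
  have a5 : ∀ᶠ q : C2 in 𝓝 q₀, ‖q.1 ^ 3 - (T.W : ℂ) ^ 3‖ < ϱ / 2 := ContinuousAt.eventually_lt
    (f := fun q : C2 => ‖q.1 ^ 3 - T.W ^ 3‖) (by fun_prop) continuousAt_const
    (by simpa [hq, qs] using ϱ0)
  obtain ⟨η, η0, hη⟩ := Metric.nhds_basis_closedBall.eventually_iff.1
    (((tf.op.eventually_mem m0).and a1).and ((a2.and a3).and (a4.and a5)))
  refine ⟨η, η0, ?_⟩
  have tr := (S.tru ϱ0 ϱ1.le tf T.seq.e0 T.seq.el (isCompact_closedBall q₀ η)
    (fun q hq => (hη hq).1.1) (t := fun q => (q.2 - X q.1) / q.1) fun q hq => ?_).2 n n0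
  · filter_upwards [tr] with j k q hq
    have := norm_sub_le_norm_sub_add_norm_sub (clk (fq (T.g j) (O.Ξ c j))
      (La (T.g j) (Zt (T.ε j) (T.F j) q))) ((q.2 - X q.1) / q.1) t₀
    linarith [(k q hq).1, (hη hq).2.2.1]
  · obtain ⟨⟨b0, b1⟩, ⟨b2, b3⟩, b4, b5⟩ := hη hq
    have cl := (hδ q.1 q.2 b1 b2 fun s => by rw [sub_re, s.1, sub_self] at b3; exact b3.false).2
    rw [z0_congr tf.op (fun p hp => (wm p hp).2) b0] at cl
    have u1 := norm_le_norm_sub_add ((q.2 - X q.1) / q.1) t₀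
    have u2 := norm_le_norm_sub_add t₀ ((q.2 - X q.1) / q.1)
    rw [norm_sub_rev t₀] at u2
    exact ⟨cl, by linarith [n1.1], by linarith [n1.1], b5⟩

theorem geo : R_GEO := by
  intro T O
  refine (ev_all T.M (P := fun c p K => ∀ᶠ j in (T.𝒰 : Filter ℕ), ∀ ζ : ℂ, ‖ζ‖ < (md O p j).R →
    ((md O p j).τ₀ c ζ).im ≤ -(T.ε j * (md O p j).n) ∧
    ((md O p j).τ₀ c ζ).re + T.ε j * (md O p j).m ≤ -(1 / K) ∧
    1 / K ≤ ((md O p j).τ₀ c ζ).re + T.ε j * (md O p j).N c - T.ε j * (md O p j).m ∧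
    ‖(md O p j).τ₀ c ζ‖ + T.ε j * (md O p j).m ≤ ‖(md O p j).κ c‖ * (md O p j).ϱ c ^ 2 / 2 ∧
    ‖(md O p j).τ₀ c ζ + T.ε j * (md O p j).N c‖ + T.ε j * (md O p j).m ≤
      ‖(md O p j).κ c‖ * (md O p j).ϱ c ^ 2 / 2) fun c hc => ?_).mono fun p K k =>
    (eventually_all_finite (finite_lt_nat T.M)).2 k
  filter_upwards [chk T O hc] with ϱ ⟨d0, h⟩
  obtain ⟨d, ed⟩ : ∃ d, d = ‖O.κ c‖ * ϱ ^ 2 / 4 := ⟨_, rfl⟩
  rw [← ed] at d0 h
  refine Eventually.of_forall fun r => Eventually.of_forall fun A => ?_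
  filter_upwards [Ioo_mem_nhdsGT (show 0 < d / 8 by positivity)] with m ⟨m0, m1⟩
  filter_upwards [h, Ioo_mem_nhdsGT (show 0 < d / 40 by positivity)] with n ⟨δ, δ0, h⟩ ⟨n0, n1⟩
  filter_upwards [pt_near T (T.pos c - d) n δ n0 δ0] with R hR
  refine Eventually.of_forall fun H => ?_
  filter_upwards [eventually_ge_atTop (8 / d)] with K hK
  have K1 : 1 / K ≤ d / 8 := by
    have := one_div_le_one_div_of_le (by positivity) hK
    rwa [one_div_div] at this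
  set p : Sc := ⟨ϱ, r, A, m, n, R, H⟩ with hp
  have e1 : hi0 O p c = T.pos c - d := by rw [hi0, if_pos hc, dd, ed]
  have e2 : lo0 O p (c + 1) = T.pos c + d := by
    rw [lo0, if_neg (by omega), Nat.add_sub_cancel, dd, ed]
  filter_upwards [h, hR p rfl rfl (fun j => ((md O p j).hi c : ℝ)) (lim_of T fun j => by
    have := Int.floor_le ((T.pos c - d) / T.ε j)
    have := Int.lt_floor_add_one ((T.pos c - d) / T.ε j)
    simp only [md, e1, abs_le]
    constructor <;> linarith), (el T).eventually (gt_mem_nhds n0)] with j k1 k2 k3 ζ hζ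
  have e := T.e0 j
  have k := k1 _ (k2 ζ hζ)
  rw [ofReal_intCast] at k
  change ‖(md O p j).τ₀ c ζ - _‖ < _ at k
  have b1 : T.ε j * (md O p j).n ≤ n := by
    have := Nat.floor_le (div_pos n0 e).le
    rw [le_div_iff₀ e, mul_comm] at this
    exact this
  have b2 : T.ε j * (md O p j).m ≤ m := by
    have := Nat.floor_le (div_pos m0 e).le
    rw [le_div_iff₀ e, mul_comm] at this
    exact this
  have b3 : |T.ε j * (md O p j).N c - 2 * d| ≤ 2 * n ∧ 2 * d ≤ T.ε j * (md O p j).N c := by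
    have u1 := Int.floor_le ((T.pos c - d) / T.ε j)
    have u2 := Int.lt_floor_add_one ((T.pos c - d) / T.ε j)
    have u3 := Int.le_ceil ((T.pos c + d) / T.ε j)
    have u4 := Int.ceil_lt_add_one ((T.pos c + d) / T.ε j)
    have u5 : (T.pos c + d) / T.ε j - (T.pos c - d) / T.ε j = 2 * d / T.ε j := by ring
    have u6 : 0 < 2 * d / T.ε j := by positivity
    have u7 : (((md O p j).N c : ℕ) : ℝ) =
        (⌈(T.pos c + d) / T.ε j⌉ : ℝ) - (⌊(T.pos c - d) / T.ε j⌋ : ℝ) := by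
      have : (0 : ℤ) ≤ ⌈(T.pos c + d) / T.ε j⌉ - ⌊(T.pos c - d) / T.ε j⌋ := by
        have : (0 : ℝ) ≤ (⌈(T.pos c + d) / T.ε j⌉ : ℝ) - (⌊(T.pos c - d) / T.ε j⌋ : ℝ) := by
          linarith
        exact_mod_cast this
      simp only [Md.N, md, e1, e2]
      rw [← Int.cast_natCast, Int.toNat_of_nonneg this, Int.cast_sub]
    have u8 : T.ε j * (2 * d / T.ε j) = 2 * d := by field_simp
    have u9 : T.ε j * (2 * d / T.ε j) ≤ T.ε j * (md O p j).N c :=
      mul_le_mul_of_nonneg_left (by linarith) e.le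
    have u10 : T.ε j * (md O p j).N c ≤ T.ε j * (2 * d / T.ε j + 2) :=
      mul_le_mul_of_nonneg_left (by linarith) e.le
    exact ⟨abs_le.2 ⟨by linarith, by linarith⟩, by linarith⟩
  have e3 : ‖(md O p j).κ c‖ * (md O p j).ϱ c ^ 2 / 2 = 2 * d := by
    rw [ed]
    simp only [md, hp]
    ring
  rw [e3]
  generalize (md O p j).τ₀ c ζ = τ at k ⊢
  have c1 := abs_lt.1 ((abs_re_le_norm _).trans_lt k)
  have c2 := abs_lt.1 ((abs_im_le_norm _).trans_lt k)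
  have c3 := norm_le_abs_re_add_abs_im τ
  have c4 := norm_le_abs_re_add_abs_im (τ + T.ε j * (md O p j).N c)
  have c5 := abs_le.1 b3.1
  simp only [sub_re, sub_im, neg_re, neg_im, ofReal_re, ofReal_im, mul_re, mul_im, I_re, I_im,
    add_re, add_im, natCast_re, natCast_im, mul_zero, mul_one, zero_mul, sub_zero, add_zero,
    neg_zero, zero_sub, sub_neg_eq_add] at c1 c2 c4
  have c6 : |τ.re| ≤ d + 2 * n := abs_le.2 ⟨by linarith, by linarith⟩
  have c7 : |τ.im| ≤ 12 * n := abs_le.2 ⟨by linarith, by linarith⟩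
  have c8 : |τ.re + T.ε j * (md O p j).N c| ≤ d + 4 * n := abs_le.2 ⟨by linarith, by linarith⟩
  exact ⟨by linarith, by linarith, by linarith, by linarith, by linarith⟩


end Vale.Agent.P097F.LC.E2
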