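import Vale.Agent.P097F.LC.Defs
import Vale.Agent.P097F.Top5

/-!
# P097F/LC: layer C from its rows
-/

set_option linter.all false

noncomputable section

namespace Vale.Agent.P097F.LC

open Filter Topology Set Metric Complex Vale.Agent.P097F.N Vale.Agent.P097F.S Vale.Agent.P097D
open Vale.Agent.P097EE (C2)

theorem TD.ep_eq' (T : TD) (j : ℕ) : ep (T.ς j) = T.ε j := by
  unfold ep TD.ς
  rw [← Real.rpow_natCast, ← Real.rpow_mul (T.e0 j).le]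
  norm_num

theorem TD.el' (T : TD) : Tendsto T.ε T.𝒰 (𝓝 0) := (continuous_re.tendsto 0).comp T.seq.el

theorem TD.s0' (T : TD) : Tendsto T.ς T.𝒰 (𝓝 0) := by
  have := (Real.continuousAt_rpow_const 0 ((1 : ℝ) / 220) (Or.inr (by norm_num))).tendsto.comp T.el'
  rwa [Real.zero_rpow (by norm_num)] at this

theorem lc_of (h0 : R_OB) (h1 : R_NUM) (h2 : R_CONE) (h3 : R_DEEP) (h4 : R_GAP) (h5 : R_INV)
    (h6 : R_PAT) (h7 : R_CK) (h8 : R_GEO) (h9 : R_SEP) (h10 : R_SHP) (h11 : R_HOR) :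
    Spec_LC := by
  refine ⟨30, by norm_num, fun 𝒰 ε θ h Q c U E Y a L ρ K₀ C v H b W H₀ b₀ F F₀ σ ρ' n X Φ Δ s e0
    u1 u2 u3 u4 u5 u6 u7 l u8 u9 u10 u11 u12 W1 u13 => ?_⟩
  let T : TD := ⟨𝒰, ε, θ, h, Q, c, U, E, Y, a, L, ρ, K₀, C, v, H, b, W, H₀, b₀, F, F₀, σ, ρ', n, X,
    Φ, Δ, s, e0, u1, u2, u3, u4, u5, u6, u7, l, u8, u9, u10, u11, u12, W1, u13⟩
  change OutC T.𝒰 T.ε T.θ T.h T.U T.a T.L T.v T.H T.F
  clear_value T
  obtain ⟨O⟩ := h0 T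
  have hK : Ev fun _ K => 24 ≤ K := .of_forall fun _ => .of_forall fun _ => .of_forall fun _ =>
    .of_forall fun _ => .of_forall fun _ => .of_forall fun _ => .of_forall fun _ =>
      eventually_ge_atTop 24
  obtain ⟨p, K, ⟨⟨⟨⟨⟨⟨⟨⟨⟨⟨⟨a1, a2⟩, a3⟩, a4⟩, a5⟩, a6⟩, a7⟩, a8⟩, a9⟩, a10⟩, ⟨⟨r0, r1⟩, a11⟩⟩,
    k⟩⟩ := ((((((((((((h1 T O).and (h2 T O)).and (h3 T O)).and (h4 T O)).and (h5 T O)).and
      (h6 T O)).and (h7 T O)).and (h8 T O)).and (h9 T O)).and (h10 T O)).and (h11 T O)).and hK).ex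
  refine ⟨K, 1, 3, T.ς, md O p, al T, x0 T p, ⟨fun j => (T.ep_eq' j).symm, T.s0', by norm_num,
    by linarith, ?_, ⟨fun j y hy => T.ul j hy, fun j => ?_, a4.mono fun j b => b.2,
      fun μ m0 b => ?_⟩, ?_, fun μ m0 => .of_forall fun j => ?_⟩, fun c hc => ?_⟩
  · filter_upwards [a1, a2, a3, a4, a5, a6, a7, a8, a9] with j b1 b2 b3 b4 b5 b6 b7 b8 b9
    rw [T.ep_eq']
    exact ⟨⟨b1, b2, b3, b4.1, b5, b6.1, b6.2, b7, b8, b9.1, b9.2⟩, rfl, rfl, by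
      norm_num [md]⟩
  · rw [T.ep_eq']
    exact ⟨rfl, rfl⟩
  · simpa only [T.ep_eq'] using a10 μ m0 b
  · filter_upwards [a11] with j ⟨b1, b2, _⟩
    refine ⟨b1, fun s ζ => ?_, b2⟩
    simp only [md, Zt, pt]
    congr 3
    ring
  · have := T.e0 j
    have e : (x0 T p j).im + T.ε j * T.v j * (md O p j).m₀ - T.H j = 0 := by simp [x0, md]
    rw [e, abs_zero]
    positivity
  · obtain ⟨_, hc⟩ := hc.exists
    have L := (O.lv c hc).mono r0 (r1 c hc)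
    refine ⟨O.Ξ c, T.P c, O.s c, O.B c, (closedBall_subset_ball ?_).trans (O.lo c hc),
      L.ev.mono fun j b => ⟨b, rfl, rfl, rfl⟩⟩
    linarith [L.lim.s0]

end Vale.Agent.P097F.LC
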