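import Vale.Agent.P097F.LC.Defs
import Vale.Agent.P097F.N.Geo

/-!
# P097F/LC: the geometry of the machine
-/

set_option linter.all false

noncomputable section

namespace Vale.Agent.P097F.LC

open Filter Topology Set Metric Complex Vale.Agent.P097F.N Vale.Agent.P097F.S Vale.Agent.P097D

variable {T : TD}

theorem pt_eq (p : Sc) (j : ℕ) : pt T p j = N.pt (T.ε j) (T.v j / T.C) (T.v j) (x0 T p j) := rfl

theorem TD.vs_pos (T : TD) (j : ℕ) : 0 < T.ς j := Real.rpow_pos_of_pos (T.e0 j) _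

theorem TD.vs_pow (T : TD) (j : ℕ) : T.ς j ^ 220 = T.ε j := by
  rw [TD.ς, ← Real.rpow_natCast, ← Real.rpow_mul (T.e0 j).le]; norm_num

theorem TD.vs_sm (T : TD) (A : ℝ) : ∀ᶠ j in (T.𝒰 : Filter ℕ), A * T.ς j ≤ 1 := by
  have t : Tendsto T.ε T.𝒰 (𝓝 0) := (Complex.continuous_re.tendsto 0).comp T.seq.el
  have t2 := (t.rpow_const (p := 1 / 220) (Or.inr (by norm_num))).const_mul A
  rw [Real.zero_rpow (by norm_num), mul_zero] at t2
  exact (t2.eventually (gt_mem_nhds one_pos)).mono fun j k => k.le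

theorem TD.top_ev (T : TD) : ∀ᶠ j in (T.𝒰 : Filter ℕ), -(-T.E.b₀) + 1 ≤ T.H j := by
  have S := T.loc
  have := S.hi
  have a := mul_nonneg (mul_nonneg zero_le_two (zero_le_one.trans S.C1)) S.ρ0.le
  have b := mul_nonneg S.K0 (sq_nonneg T.ρ)
  exact (S.lH.eventually (lt_mem_nhds (show -(-T.E.b₀) + 1 < T.H₀ by linarith))).mono
    fun j k => k.le

/-- the machine has the geometry of the wedge -/
theorem gm (hH : R_HOR) (T : TD) (O : Ob T) : Ev fun p _ => ∀ᶠ j in (T.𝒰 : Filter ℕ),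
    Gm (T.ε j) (T.v j / T.C) (T.v j) (T.H j) (T.b j) T.C T.a T.L (2 * T.L) (x0 T p j) (T.F j)
      (md O p j) ∧ T.v j / T.C ≤ 2 * T.W := by
  have W1 := T.W1
  have C1 := T.loc.C1
  have e1 : Ev fun p _ => 0 < p.n ∧ p.n < 1 / (80 * T.W) := by
    refine .of_forall fun _ => .of_forall fun _ => .of_forall fun _ => .of_forall fun _ => ?_
    filter_upwards [Ioo_mem_nhdsGT (by positivity : (0 : ℝ) < 1 / (80 * T.W))] with _ k
    exact .of_forall fun _ => .of_forall fun _ => .of_forall fun _ => k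
  refine ((hH T O).and e1).mono fun p _ ⟨⟨_, h1⟩, n0, n1⟩ => ?_
  filter_upwards [h1, T.loc.lv.eventually (Ioo_mem_nhds (show 1 / 2 < T.W by linarith)
    (show T.W < 2 * T.W by linarith))] with j ⟨_, _, k1⟩ ⟨k2, k3⟩
  have e := T.e0 j
  have v0 : 0 < T.v j := by linarith
  have C0 : 0 < T.C := by linarith
  refine ⟨⟨e, by positivity, k2.le, fun _ => rfl, ?_, ?_, ?_, by simp [x0, md], ?_, ?_, fun s hs => ?_⟩,
    (div_le_self v0.le C1).trans k3.le⟩
  · simp only [md]; field_simp
  · simp only [md]; field_simp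
  · simp only [md]; field_simp; ring
  · have : (0 : ℝ) ≤ nn T p j := by positivity
    simp only [md]
    constructor <;> linarith
  · have : T.ε j * nn T p j ≤ p.n := by
      rw [← le_div_iff₀' e]; exact Nat.floor_le (by positivity)
    rw [lt_div_iff₀ (by positivity)] at n1
    have := mul_le_mul this k3.le v0.le n0.le
    simp only [md]
    linarith
  · have := k1 s hs
    refine ⟨by simpa [x0] using this, ?_⟩
    rw [mul_right_comm, abs_mul, abs_of_pos v0] at this
    nlinarith [abs_nonneg (T.ε j * s.re)]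

end Vale.Agent.P097F.LC
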