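import Vale.Agent.P097F.LC.Defs

/-! # P097F/LC: the horizontal range -/

set_option linter.all false

noncomputable section

namespace Vale.Agent.P097F.LC

open Filter Topology Set Metric Complex Vale.Agent.P097F.N Vale.Agent.P097F.S Vale.Agent.P097D

namespace HorA

variable {T : TD} (O : Ob T) (p : Sc)

theorem en_le (T : TD) : T.W * T.en ≤ T.L - 3 / 4 := by
  have a := T.obs.lim.1
  have w := T.W1
  rw [T.hα] at a
  rw [TD.en, mul_div_cancel₀ _ (by linarith)]
  linarith

theorem pos_le (T : TD) {c : ℕ} (hc : c < T.M) : -T.en ≤ T.pos c ∧ T.pos c ≤ T.en := by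
  obtain ⟨-, a1, a2⟩ := T.obs.top ⟨c, hc⟩
  have w := T.W1
  have r := T.obs.ρ0
  simp only [TD.pos, TD.en, TD.Xn, dif_pos hc, ← neg_div]
  exact ⟨div_le_div_of_nonneg_right (by linarith) (by linarith),
    div_le_div_of_nonneg_right (by linarith) (by linarith)⟩

theorem lo_ge {i : ℕ} (hi : i ≤ T.M) (j : ℕ) : -T.en ≤ T.ε j * (md O p j).lo i := by
  have a : -T.en ≤ lo0 O p i := by
    unfold lo0
    split_ifs with h
    · exact le_rfl
    · have := (pos_le T (show i - 1 < T.M by omega)).1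
      have : 0 ≤ dd O p (i - 1) := by unfold dd; positivity
      linarith
  have b := Int.le_ceil (lo0 O p i / T.ε j)
  rw [div_le_iff₀ (T.e0 j), mul_comm] at b
  exact a.trans b

theorem hi_le (i j : ℕ) : T.ε j * (md O p j).hi i ≤ T.en := by
  have a : hi0 O p i ≤ T.en := by
    unfold hi0
    split_ifs with h
    · have := (pos_le T h).2
      have : 0 ≤ dd O p i := by unfold dd; positivity
      linarith
    · exact le_rfl
  have b := Int.floor_le (hi0 O p i / T.ε j)
  rw [le_div_iff₀ (T.e0 j), mul_comm] at b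
  exact b.trans a

theorem main (n0 : 0 < p.n) (n1 : T.W * (9 * p.n) < 1 / 4) :
    ∀ᶠ j in (T.𝒰 : Filter ℕ), al T j ≠ 0 ∧ (∀ i, (md O p j).Gap i →
      |(x0 T p j).re + T.ε j * T.v j * i - T.a| ≤ T.L - 1 / 2) ∧
      ∀ s : ℂ, (md O p j).Hor s → |T.ε j * T.v j * s.re| ≤ T.L - 1 / 2 := by
  have w := T.W1
  have e := en_le T
  have c := T.loc.C1
  have t1 := (T.loc.lv.mul_const (T.en + 9 * p.n)).eventually
    (gt_mem_nhds (show T.W * (T.en + 9 * p.n) < T.L - 1 / 2 by linarith))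
  filter_upwards [t1, T.loc.lv.eventually (lt_mem_nhds (show 0 < T.W by linarith))] with j a1 a2
  have e0 := T.e0 j
  have k : ∀ x : ℝ, -(T.en + 9 * p.n) ≤ T.ε j * x → T.ε j * x ≤ T.en + 9 * p.n →
      |T.ε j * T.v j * x| ≤ T.L - 1 / 2 := fun x b1 b2 => by
    rw [mul_right_comm, abs_mul, abs_of_pos a2]
    nlinarith [mul_le_mul_of_nonneg_right (abs_le.2 ⟨b1, b2⟩) a2.le]
  refine ⟨mul_ne_zero (ofReal_ne_zero.2 e0.ne') (ofReal_ne_zero.2 (by positivity)),
    fun i ⟨g, g1, g2, g3⟩ => ?_, fun s ⟨g1, g2⟩ => ?_⟩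
  · have b1 := (lo_ge O p g1 j).trans (mul_le_mul_of_nonneg_left (Int.cast_le.2 g2) e0.le)
    have b2 := (mul_le_mul_of_nonneg_left (Int.cast_le.2 g3) e0.le).trans (hi_le O p g j)
    have : (x0 T p j).re = T.a := by simp [x0]
    rw [this, add_sub_cancel_left]
    exact k _ (by linarith) (by linarith)
  · have b1 := lo_ge O p (Nat.zero_le _) j
    have b2 := hi_le O p T.M j
    have b3 : T.ε j * nn T p j ≤ p.n := by
      have := Nat.floor_le (show 0 ≤ p.n / T.ε j by positivity)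
      rwa [le_div_iff₀ e0, mul_comm] at this
    have g3 := mul_le_mul_of_nonneg_left g1 e0.le
    have g4 := mul_le_mul_of_nonneg_left g2 e0.le
    change T.ε j * ((md O p j).lo 0 - 9 * nn T p j) ≤ _ at g3
    change _ ≤ T.ε j * ((md O p j).hi T.M + 9 * nn T p j) at g4
    exact k _ (by linarith) (by linarith)

end HorA

theorem hor : R_HOR := by
  intro T O
  have h1 : ∀ᶠ ϱ in 𝓝[>] (0 : ℝ), ∀ c ∈ Finset.range T.M, ϱ ≤ O.r₀ c :=
    (eventually_all_finset _).2 fun c hc => mem_nhdsWithin_of_mem_nhds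
      (ge_mem_nhds (O.lv c (Finset.mem_range.1 hc)).lim.r0)
  have h2 : ∀ᶠ n in 𝓝[>] (0 : ℝ), T.W * (9 * n) < 1 / 4 := mem_nhdsWithin_of_mem_nhds
    ((show Continuous fun n : ℝ => T.W * (9 * n) by fun_prop).continuousAt.eventually_lt
      continuousAt_const (by simp))
  filter_upwards [h1, self_mem_nhdsWithin] with ϱ a1 a2
  filter_upwards with r
  filter_upwards with A
  filter_upwards with m
  filter_upwards [h2, self_mem_nhdsWithin] with n a3 a4
  filter_upwards with R
  filter_upwards with H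
  filter_upwards with K
  exact ⟨⟨a2, fun c hc => a1 c (Finset.mem_range.2 hc)⟩, HorA.main O _ a4 a3⟩

end Vale.Agent.P097F.LC
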