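import Vale.Agent.P097F.LC.Defs
import Vale.Agent.P097F.D.Om

/-!
# P097F/LC: the inverse of the charts
-/

set_option linter.all false

noncomputable section

namespace Vale.Agent.P097F.LC.I2

open Filter Topology Set Metric Complex Vale.Agent.P097F.N Vale.Agent.P097F.S Vale.Agent.P097D
open Vale.Agent.P097EE (C2)

theorem det_ne {L : C2 →L[ℂ] C2} (h : Function.Injective L) : det2 L ≠ 0 := fun d => by
  have z := (injective_iff_map_eq_zero L).1 h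
  unfold det2 at d
  have h1 := z ((L (0, 1)).2, -(L (1, 0)).2) (by
    rw [ap2]
    exact Prod.ext (by simp; linear_combination d) (by simp; ring))
  have h2 := z ((L (0, 1)).1, -(L (1, 0)).1) (by
    rw [ap2]
    exact Prod.ext (by simp; ring) (by simp; linear_combination -d))
  have h3 := z (1, 0) (Prod.ext (neg_eq_zero.1 (congrArg Prod.snd h2))
    (neg_eq_zero.1 (congrArg Prod.snd h1)))
  simpa using congrArg Prod.fst h3

variable (T : TD)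

theorem bas : 1 ≤ T.C ∧ 0 < T.ρ' ∧ T.ρ' ≤ 1 ∧ 30 ≤ T.L ∧ T.E.b₀ + 2 ≤ T.H₀ ∧ 0 < T.en ∧
    T.W * T.en = T.L - 1 + T.ρ' / 4 := by
  have C1 := T.loc.C1
  have W1 := T.W1
  have r0 := T.obs.ρ0
  have h1 := T.obs.lim.1
  rw [T.hα] at h1
  have h2 : 1 ≤ T.C * T.W := one_le_mul_of_one_le_of_one_le C1 W1
  have h3 := T.loc.hi
  have h4 : 0 ≤ T.C * T.ρ := mul_nonneg (by linarith) T.loc.ρ0.le
  have h5 : 0 ≤ T.K * T.ρ ^ 2 := mul_nonneg T.loc.K0 (sq_nonneg _)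
  have h6 : 30 ≤ T.L := by linarith [T.LW]
  refine ⟨C1, r0, by linarith, h6, by linarith, div_pos (by linarith) (by linarith), ?_⟩
  unfold TD.en
  field_simp

theorem pos_eq (c : Fin T.M) : T.W * T.pos c = (T.X c T.W).re - T.a := by
  have := T.W1
  simp only [TD.pos, TD.Xn, dif_pos c.2]
  field_simp

theorem pos_bd {c : ℕ} (hc : c < T.M) : |T.pos c| ≤ T.en := by
  obtain ⟨-, r0, -, -, -, -, e⟩ := bas T
  have W1 := T.W1
  have h1 := pos_eq T ⟨c, hc⟩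
  obtain ⟨-, h2, h3⟩ := T.obs.top ⟨c, hc⟩
  simp only at h1
  exact abs_le.2 ⟨by nlinarith, by nlinarith⟩

theorem pos_mono {c c' : ℕ} (h : c ≤ c') (hc : c' < T.M) : T.pos c ≤ T.pos c' := by
  rcases h.eq_or_lt with rfl | h
  · exact le_rfl
  have W1 := T.W1
  have h1 := pos_eq T ⟨c, h.trans hc⟩
  have h2 := pos_eq T ⟨c', hc⟩
  have h3 := T.obs.sep ⟨c, h.trans hc⟩ ⟨c', hc⟩ h
  have r0 := T.obs.ρ0
  simp only at h1 h2
  nlinarith

/-- the point of the time `t` at the height `y` -/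
def q0 (x : ℝ × ℝ) : C2 := (T.W, T.a + T.W * x.1 + x.2 * I)

theorem q0_cont : Continuous (q0 T) := by unfold q0; fun_prop

variable {T} (O : Ob T)

/-- the times of the gaps -/
def Gt (ϱ : ℝ) : Set ℝ := ⋃ j ∈ Finset.range (T.M + 1),
  Icc (lo0 O ⟨ϱ, 0, 0, 0, 0, 0, 0⟩ j) (hi0 O ⟨ϱ, 0, 0, 0, 0, 0, 0⟩ j)

theorem Gt_cpt (ϱ : ℝ) : IsCompact (Gt O ϱ) :=
  (Finset.range (T.M + 1)).isCompact_biUnion fun _ _ => isCompact_Icc

theorem Gt_mem {p : Sc} {j : ℕ} {i : ℤ} (h : (md O p j).Gap i) : T.ε j * i ∈ Gt O p.ϱ := by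
  obtain ⟨k, hk, h1, h2⟩ := h
  have e0 := T.e0 j
  refine mem_iUnion₂.2 ⟨k, Finset.mem_range.2 (Nat.lt_succ_of_le hk), ?_, ?_⟩
  · have := Int.ceil_le.1 (show ⌈lo0 O p k / T.ε j⌉ ≤ i from h1)
    rw [div_le_iff₀ e0, mul_comm] at this
    exact this
  · have := Int.le_floor.1 (show i ≤ ⌊hi0 O p k / T.ε j⌋ from h2)
    rw [le_div_iff₀ e0, mul_comm] at this
    exact this

theorem Gt_bd {ϱ t : ℝ} (h0 : 0 < ϱ) (h : t ∈ Gt O ϱ) :
    |t| ≤ T.en ∧ ∀ c < T.M, t ≠ T.pos c := by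
  obtain ⟨k, hk, h1, h2⟩ := mem_iUnion₂.1 h
  rw [Finset.mem_range] at hk
  have d : ∀ c < T.M, 0 < dd O ⟨ϱ, 0, 0, 0, 0, 0, 0⟩ c := fun c hc => by
    have := norm_pos_iff.2 (O.lv c hc).lim.κ0
    unfold dd
    positivity
  have l1 : -T.en ≤ t ∧ ∀ c < k, T.pos c < t := by
    unfold lo0 at h1
    split_ifs at h1 with e
    · exact ⟨h1, fun c hc => by omega⟩
    · have a1 := d (k - 1) (by omega)
      exact ⟨by linarith [(abs_le.1 (pos_bd T (c := k - 1) (by omega))).1], fun c hc => by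
        linarith [pos_mono T (c := c) (c' := k - 1) (by omega) (by omega)]⟩
  have l2 : t ≤ T.en ∧ ∀ c < T.M, k ≤ c → t < T.pos c := by
    unfold hi0 at h2
    split_ifs at h2 with e
    · have a1 := d k e
      exact ⟨by linarith [(abs_le.1 (pos_bd T e)).2], fun c hc hk => by
        linarith [pos_mono T hk hc]⟩
    · exact ⟨h2, fun c hc hk => by omega⟩
  refine ⟨abs_le.2 ⟨l1.1, l2.1⟩, fun c hc => ?_⟩
  rcases lt_or_ge c k with a | a
  · exact (l1.2 c a).ne'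
  · exact (l2.2 c hc a).ne

theorem q0_om {ϱ : ℝ} (h0 : 0 < ϱ) {x : ℝ × ℝ} (h : x ∈ Gt O ϱ ×ˢ Icc (T.H₀ - 1) T.H₀) :
    q0 T x ∈ T.E.Om := by
  obtain ⟨-, r0, -, -, b2, -, e⟩ := bas T
  obtain ⟨g1, g2⟩ := Gt_bd O h0 h.1
  have W1 := T.W1
  have g3 := abs_le.1 g1
  have e1 : (q0 T x).2.re = T.a + T.W * x.1 := by simp [q0]
  have e2 : (q0 T x).2.im = x.2 := by simp [q0]
  refine (T.obs.om T.W (mem_ball_self T.obs.σ0) (q0 T x).2 ⟨?_, ?_, ?_, ?_⟩).2 fun c s => ?_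
  · rw [e1]; nlinarith
  · rw [e1]; nlinarith
  · rw [e2]; linarith [h.2.1]
  · rw [e2]; linarith [h.2.2]
  · have h1 := s.1
    rw [e1] at h1
    exact g2 c c.2 (mul_left_cancel₀ (show T.W ≠ 0 by linarith) (by linarith [pos_eq T c]))

/-- the Jacobian of the limit states near the gaps -/
theorem jacG {ϱ : ℝ} (h0 : 0 < ϱ) : ∃ κ β η : ℝ, 0 < κ ∧ 0 ≤ β ∧ 0 < η ∧
    ∀ x ∈ Gt O ϱ ×ˢ Icc (T.H₀ - 1) T.H₀, ∀ q, dist q (q0 T x) < η →
      ‖fderiv ℂ (Z0 T.Y) q‖ ≤ β ∧ κ ≤ ‖det2 (fderiv ℂ (Z0 T.Y) q)‖ := by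
  obtain ⟨op, -, -, om⟩ := D.om T.E T.mx.ok
  have hK := ((Gt_cpt O ϱ).prod (isCompact_Icc (a := T.H₀ - 1) (b := T.H₀))).image (q0_cont T)
  have sub : q0 T '' (Gt O ϱ ×ˢ Icc (T.H₀ - 1) T.H₀) ⊆ T.E.Om := by
    rintro _ ⟨x, hx, rfl⟩
    exact q0_om O h0 hx
  obtain ⟨η, η0, hη⟩ := hK.exists_cthickening_subset_open op sub
  have hK' := hK.cthickening (r := η)
  have cf : ContinuousOn (fderiv ℂ (Z0 T.Y)) T.E.Om := (z0_an T.mx.fam.an op).fderiv.continuousOn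
  have cd : Continuous det2 := by unfold det2; fun_prop
  obtain ⟨β, hβ⟩ := hK'.exists_bound_of_continuousOn (cf.mono hη)
  obtain ⟨κ, κ0, hκ⟩ := hK'.exists_forall_le' (a := 0) ((cd.comp_continuousOn (cf.mono hη)).norm)
    fun q hq => norm_pos_iff.2 (det_ne (jac T.mx.ok.ang op T.mx.fam (hη hq)
      (T.mx.ok.ne _ (om _ (hη hq)).1)).2.2)
  refine ⟨κ, |β|, η, κ0, abs_nonneg _, η0, fun x hx q hq => ?_⟩
  have m := mem_cthickening_of_dist_le q _ η _ (mem_image_of_mem (q0 T) hx) hq.le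
  exact ⟨(hβ q m).trans (le_abs_self _), hκ q m⟩

theorem el (T : TD) : Tendsto T.ε T.𝒰 (𝓝 0) := by
  simpa [Function.comp_def] using (continuous_re.tendsto _).comp T.seq.el

theorem fl_lim (T : TD) {x : ℝ} (x0 : 0 ≤ x) :
    Tendsto (fun j => T.ε j * (⌊x / T.ε j⌋₊ : ℝ)) T.𝒰 (𝓝 x) := by
  have h1 : Tendsto (fun j => x - T.ε j) T.𝒰 (𝓝 x) := by simpa using (el T).const_sub x
  refine tendsto_of_tendsto_of_tendsto_of_le_of_le h1 tendsto_const_nhds (fun j => ?_) fun j => ?_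
  · have e0 := T.e0 j
    have := Nat.lt_floor_add_one (x / T.ε j)
    rw [div_lt_iff₀ e0] at this
    linarith
  · have e0 := T.e0 j
    have := Nat.floor_le (div_nonneg x0 e0.le)
    rw [le_div_iff₀ e0] at this
    linarith

/-- the base points are close to the limit segment -/
theorem near (T : TD) (p : Sc) (n0 : 0 ≤ p.n) {η : ℝ} (η0 : 0 < η) :
    ∀ᶠ j in (T.𝒰 : Filter ℕ), ∀ i : ℤ, |T.ε j * i| ≤ T.en →
      dist ((T.v j : ℂ), x0 T p j + T.ε j * T.v j * i)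
        (q0 T (T.ε j * i, T.H₀ - T.W * (10 * p.n))) < η := by
  have h1 : Tendsto (fun j => |T.v j - T.W| * (1 + T.en) +
      |T.H j - T.v j * (10 * (T.ε j * nn T p j)) - (T.H₀ - T.W * (10 * p.n))|) T.𝒰 (𝓝 0) := by
    have a1 := (T.loc.lv.sub_const T.W).abs.mul_const (1 + T.en)
    have a2 := ((T.loc.lH.sub (T.loc.lv.mul ((fl_lim T n0).const_mul 10))).sub_const
      (T.H₀ - T.W * (10 * p.n))).abs
    simpa [nn] using a1.add a2
  filter_upwards [h1.eventually (gt_mem_nhds η0)] with j hj i hi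
  have en0 := (abs_nonneg _).trans hi
  have a0 := abs_nonneg (T.v j - T.W)
  have a1 := abs_nonneg (T.H j - T.v j * (10 * (T.ε j * nn T p j)) - (T.H₀ - T.W * (10 * p.n)))
  have a2 := mul_nonneg a0 en0
  rw [Prod.dist_eq, max_lt_iff, dist_eq_norm, dist_eq_norm]
  constructor
  · simp only [q0]
    rw [← ofReal_sub, norm_real, Real.norm_eq_abs]
    linarith
  · rw [show x0 T p j + T.ε j * T.v j * i - (q0 T (T.ε j * i, T.H₀ - T.W * (10 * p.n))).2 =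
      (((T.v j - T.W) * (T.ε j * i) : ℝ) : ℂ) + ((T.H j - T.v j * (10 * (T.ε j * nn T p j)) -
        (T.H₀ - T.W * (10 * p.n)) : ℝ) : ℂ) * I by simp only [q0, x0]; push_cast; ring]
    refine (norm_add_le _ _).trans_lt ?_
    rw [norm_mul, norm_I, mul_one, norm_real, norm_real, Real.norm_eq_abs, Real.norm_eq_abs,
      abs_mul]
    have := mul_le_mul_of_nonneg_left hi a0
    linarith

theorem aux (T : TD) (O : Ob T) : Ev fun p K => ∀ᶠ j in (T.𝒰 : Filter ℕ), ∀ i, (md O p j).Gap i →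
    (∀ ζ : ℂ, ‖ζ‖ < (md O p j).R →
      Near (md O p j).T ((md O p j).Z (i, ζ)) (md O p j).r (md O p j).a) →
    ∃ G : C2 → C2, ∀ x : C2, ‖x‖ ≤ 2 * (md O p j).H → ∀ q ∈ ball ((md O p j).C i x) (1 / K),
      DifferentiableAt ℂ G q ∧ (md O p j).C i (G q) = q ∧
        ‖G q - x‖ ≤ K / T.ε j * ‖q - (md O p j).C i x‖ := by
  obtain ⟨C1, r0, r1, L0, b2, en0, e⟩ := bas T
  have W1 := T.W1
  obtain ⟨Fm, hw⟩ := wom T.mx T.hα T.hβ T.hb (by linarith) T.loc T.sU T.eqA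
  have tf := tf_of T.loc
  have op := (D.om T.E T.mx.ok).1
  have nz : P097Mo.NZ T.E.g (Lo 0) := by
    obtain ⟨y, m, n⟩ := T.nz
    exact P097Mo.nz_of T.seq.op (convex_halfSpace_im_lt 0).isPreconnected T.seq.dg m n
  obtain ⟨A₀, hA⟩ : ∃ A₀, A₀ = T.W + T.en + 2 * T.C + 2 := ⟨_, rfl⟩
  have A₀0 : 0 < A₀ := by linarith
  have b1 : 2 ≤ A₀ ∧ T.W + 1 ≤ A₀ ∧ T.en ≤ A₀ ∧ 2 * T.C ≤ A₀ :=
    ⟨by linarith, by linarith, by linarith, by linarith⟩
  filter_upwards [self_mem_nhdsWithin] with ϱ (ϱ0 : 0 < ϱ)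
  obtain ⟨κ, β, η, κ0, β0, η0, hJ⟩ := jacG O ϱ0
  filter_upwards [self_mem_nhdsWithin] with r (r0' : 0 < r)
  filter_upwards [eventually_gt_atTop 0] with A A0
  obtain ⟨ϑ, ϑ0, hϑ⟩ := inv_C κ β A r A₀ κ0 β0 A0 r0' (by linarith)
  filter_upwards [Ioc_mem_nhdsGT (show 0 < r / (216 * A) by positivity)] with m ⟨m0, m1⟩
  filter_upwards [Ioo_mem_nhdsGT (show 0 < min (ϑ * m / 20) (1 / (10 * T.W)) by positivity)]
    with n ⟨n0, n1⟩
  obtain ⟨n1, n2⟩ := lt_min_iff.1 n1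
  rw [lt_div_iff₀ (by positivity)] at n2
  have Wn : 0 < T.W * (10 * n) := by positivity
  have hS := ((isCompact_Icc (a := -T.en) (b := T.en)).prod
    (isCompact_singleton (x := T.H₀ - T.W * (10 * n)))).image (q0_cont T)
  obtain ⟨δ, δ0, hδ⟩ := hS.exists_cthickening_subset_open tf.op (by
    rintro _ ⟨x, ⟨h1, h2⟩, rfl⟩
    rw [mem_singleton_iff] at h2
    have e1 : (q0 T x).2.re - T.a = T.W * x.1 := by simp [q0]
    have e2 : (q0 T x).2.im = x.2 := by simp [q0]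
    refine mem_wd.2 ⟨by simpa [q0] using T.loc.ρ0, ?_, ?_, ?_⟩
    · rw [e1, abs_lt]
      constructor <;> nlinarith [h1.1, h1.2]
    · rw [e2, h2]; linarith
    · rw [e2, h2]; simpa [tw, q0] using Wn)
  have hK := hS.cthickening (r := δ)
  obtain ⟨B, hB⟩ := deepS T.seq nz T.loc Fm (fun w hw => T.mx.ok.ne _ (T.sU hw)) hK hδ
  filter_upwards [Ioc_mem_nhdsGT (show 0 < min m (δ / 2 / A₀ ^ 2) by positivity)] with R ⟨R0, R1⟩
  obtain ⟨R1, R2⟩ := le_min_iff.1 R1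
  obtain ⟨η₀, η₀0, ε₀, ε₀0, h₁, h₁0, K₀, hC⟩ := hϑ (δ / 2) R (2 * |B|) (by positivity) R0
    (by positivity)
  filter_upwards [Ioc_mem_nhdsGT h₁0] with H ⟨H0, H1⟩
  filter_upwards [eventually_ge_atTop K₀] with K hK₀
  obtain ⟨p, hp⟩ : ∃ p : Sc, p = ⟨ϱ, r, A, m, n, R, H⟩ := ⟨_, rfl⟩
  have pn : p.n = n := by rw [hp]
  filter_upwards [hB, tf.zu T.seq.e0 T.seq.el hK hδ η₀0,
    near T p (pn ▸ n0.le) (lt_min η0 (half_pos δ0)),
    (el T).eventually (ge_mem_nhds (show 0 < min ε₀ (ϑ * m / 8) by positivity)),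
    (fl_lim T m0.le).eventually (lt_mem_nhds (show 3 / 4 * m < m by linarith)),
    T.loc.lv.eventually (Ioo_mem_nhds (show 1 / 2 < T.W by linarith)
      (show T.W < T.W + 1 by linarith))] with j k1 k2 k3 k4 k5 ⟨k6, k7⟩
  rw [← hp]
  intro i hi hN
  have e0 := T.e0 j
  have g1 := Gt_mem O hi
  rw [hp] at g1
  have g2 := (Gt_bd O ϱ0 g1).1
  obtain ⟨d1, d2⟩ := lt_min_iff.1 (k3 i g2)
  rw [pn] at d1 d2
  obtain ⟨k4, k4'⟩ := le_min_iff.1 k4
  have mK : ∀ q ∈ ball ((T.v j : ℂ), x0 T p j + T.ε j * T.v j * i) (δ / 2), q ∈ cthickening δ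
      (q0 T '' (Icc (-T.en) T.en ×ˢ {T.H₀ - T.W * (10 * n)})) := fun q hq =>
    mem_cthickening_of_dist_le q _ δ _
      (mem_image_of_mem (q0 T) (mk_mem_prod (abs_le.1 g2) rfl))
      ((dist_triangle _ ((T.v j : ℂ), x0 T p j + T.ε j * T.v j * i) _).trans
        (by linarith only [mem_ball.1 hq, d2]))
  have m0K := mK _ (mem_ball_self (half_pos δ0))
  obtain ⟨j1, j2⟩ := hJ _ (mk_mem_prod g1 ⟨by linarith only [n2], by linarith only [Wn]⟩) _ d1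
  have f1 : T.ε j * (⌊m / T.ε j⌋₊ : ℝ) ≤ m := by
    have := Nat.floor_le (div_nonneg m0.le e0.le)
    rwa [le_div_iff₀ e0, mul_comm] at this
  have f2 : T.ε j * (nn T p j : ℝ) ≤ n := by
    have := Nat.floor_le (div_nonneg n0.le e0.le)
    rw [le_div_iff₀ e0, mul_comm] at this
    rwa [nn, pn]
  have f3 : 0 ≤ T.ε j * (nn T p j : ℝ) := by positivity
  have m1b : |-(T.b j + T.ε j * (10 * nn T p j)) / T.C| ≤ 2 := by
    have := abs_le.1 (T.loc.bC j)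
    have C0 : 0 < T.C := by linarith only [C1]
    have a1 : n * 10 * 1 ≤ n * 10 * T.W := by gcongr
    rw [abs_div, abs_neg, abs_of_pos C0, div_le_iff₀ C0, abs_le]
    constructor <;> linarith only [this.1, this.2, f2, f3, a1, n2, C1]
  have v0 : 0 < T.v j := by linarith only [k6]
  have nc : ‖((T.v j / T.C : ℝ) : ℂ)‖ = T.v j / T.C := by
    rw [norm_real, Real.norm_of_nonneg (div_nonneg v0.le (by linarith only [C1]))]
  have nv : ‖(T.v j : ℂ)‖ = T.v j := by rw [norm_real, Real.norm_of_nonneg v0.le]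
  obtain ⟨G, hG, -⟩ := hC (md O p j).T (Zt (T.ε j) (T.F j)) (Z0 T.Y) ((md O p j).C i)
    (fun ζ => (md O p j).Z (i, ζ)) (T.v j) (x0 T p j + T.ε j * T.v j * i)
    ((T.v j / T.C : ℝ) : ℂ) ((T.ε j * i : ℝ) : ℂ) ⌊m / T.ε j⌋₊ (A * T.ε j) (R / T.ε j) (H / T.ε j)
    (10 * nn T p j) (-(T.b j + T.ε j * (10 * nn T p j)) / T.C) (T.ε j) K e0 k4 hK₀
    (by rwa [mul_div_cancel₀ _ e0.ne']) (by rw [mul_div_cancel₀ _ e0.ne'])
    (by rwa [mul_div_cancel₀ _ e0.ne', ← le_div_iff₀ (by positivity)])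
    (by
      rw [le_div_iff₀ (by positivity)] at m1
      calc _ = 216 * A * (T.ε j * (⌊m / T.ε j⌋₊ : ℝ)) := by ring
        _ ≤ 216 * A * m := by gcongr
        _ ≤ r := by linarith only [m1])
    le_rfl
    (by
      refine le_of_mul_le_mul_left ?_ e0
      rw [abs_of_nonneg (by positivity)]
      have : ϑ * (3 / 4 * m) ≤ ϑ * (T.ε j * (⌊m / T.ε j⌋₊ : ℝ)) := by gcongr
      linarith only [this, f2, n1, k4'])
    (by
      refine le_of_mul_le_mul_left ?_ e0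
      calc _ = (|-(T.b j + T.ε j * (10 * nn T p j)) / T.C| + 1) * R := by field_simp
        _ ≤ (2 + 1) * m := by gcongr
        _ ≤ _ := by linarith only [k5, m0])
    (m1b.trans b1.1) (by rw [nv]; exact k7.le.trans b1.2.1)
    (by rw [nc]; exact (div_le_self v0.le C1).trans (k7.le.trans b1.2.1))
    (by rw [norm_real, Real.norm_eq_abs]; exact g2.trans b1.2.2.1)
    (by
      rw [nv, nc, ← mul_div_assoc, ← mul_div_assoc, le_div_iff₀ (by linarith only [C1])]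
      have a1 : (2 * T.C) ^ 2 ≤ A₀ ^ 2 := pow_le_pow_left₀ (by linarith only [C1]) b1.2.2.2 2
      have a2 : 1 / 2 * (1 / 2) ≤ T.v j * T.v j := by gcongr
      calc _ ≤ (2 * T.C) ^ 2 * (1 / 2 * (1 / 2)) := by nlinarith only [C1]
        _ ≤ _ := by gcongr)
    (fun q hq => by
      have m := mK q hq
      refine ⟨(k1 q m).1, z0_an T.mx.fam.an op q (hw q (hδ m)).1, ?_, ?_⟩
      · rw [z0_congr tf.op (fun x hx => (hw x hx).2) (hδ m)]
        exact (k2 q m).2.le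
      · linarith only [norm_sub_le_of_le (k1 q m).2.1 (k1 _ m0K).2.1, le_abs_self B])
    j1 j2
    (fun ζ => by
      show Zt _ _ (pt T p j (i, ζ)) = _
      congr 1
      simp only [pt, al]
      push_cast
      congr 1
      ring)
    (k1 _ m0K).2.2.1 (by subst hp; exact hN) (by subst hp; exact fun _ => rfl)
  subst hp
  exact ⟨G, fun x hx q hq => ⟨((hG x hx).2 q hq).1.differentiableAt, ((hG x hx).2 q hq).2⟩⟩

theorem inv2 (hG : R_GAP) : R_INV := fun T O =>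
  ((hG T O).and (aux T O)).mono fun _ _ ⟨h1, h2⟩ => by
    filter_upwards [h1, h2] with j k1 k2 i hi
    exact k2 i hi fun ζ hζ => (k1.1 i hi ζ hζ).1

end Vale.Agent.P097F.LC.I2
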