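import Vale.Agent.P097F.LC.Defs
import Vale.Agent.P097F.D.Om

/-!
# P097F/LC: the charts of the machine are invertible
-/

set_option linter.all false

noncomputable section

namespace Vale.Agent.P097F.LC

open Filter Topology Set Metric Complex Vale.Agent.P097F.N Vale.Agent.P097F.S Vale.Agent.P097D
open Vale.Agent.P097EE (C2)

namespace Iv

/-- the limit point of the window time `z.1` at the height `z.2` -/
def qq (T : TD) (z : ℝ × ℝ) : C2 := (T.W, T.a + T.W * z.1 + z.2 * I)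

theorem qq_cont (T : TD) : Continuous (qq T) := by unfold qq; fun_prop

theorem qq_re (T : TD) (t y : ℝ) : (qq T (t, y)).2.re = T.a + T.W * t := by simp [qq]

theorem qq_im (T : TD) (t y : ℝ) : (qq T (t, y)).2.im = y := by simp [qq]

variable {T : TD} (O : Ob T) (p : Sc)

theorem W0 (T : TD) : 0 < T.W := by linarith [T.W1]

theorem rho1 (T : TD) : T.ρ' ≤ 1 := by linarith [T.obs.lim.1, T.hα]

theorem L30 (T : TD) : 30 ≤ T.L := by nlinarith [T.LW, T.W1, T.loc.C1]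

theorem xn {c : ℕ} (h : c < T.M) : T.Xn c = T.X ⟨c, h⟩ := dif_pos h

theorem pos_eq (T : TD) (c : ℕ) : T.a + T.W * T.pos c = (T.Xn c T.W).re := by
  have := (W0 T).ne'
  unfold TD.pos
  field_simp
  ring

theorem en_eq (T : TD) : T.W * T.en = T.L - 1 + T.ρ' / 4 := by
  have := (W0 T).ne'
  unfold TD.en
  field_simp

theorem pos_bd {c : ℕ} (h : c < T.M) : -T.en ≤ T.pos c ∧ T.pos c ≤ T.en := by
  have e := pos_eq T c
  have e' := en_eq T
  obtain ⟨-, a1, a2⟩ := T.obs.top ⟨c, h⟩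
  rw [← xn h] at a1 a2
  have := T.obs.ρ0
  constructor <;> refine le_of_mul_le_mul_left ?_ (W0 T) <;> linarith

theorem pos_mono {c c' : ℕ} (h' : c' < T.M) (h : c ≤ c') : T.pos c ≤ T.pos c' := by
  rcases h.eq_or_lt with e | e
  · rw [e]
  · have k := T.obs.sep ⟨c, e.trans h'⟩ ⟨c', h'⟩ e
    rw [← xn h', ← xn (e.trans h'), ← pos_eq, ← pos_eq] at k
    exact le_of_mul_le_mul_left (by linarith [T.obs.ρ0]) (W0 T)

theorem dd_nn (c : ℕ) : 0 ≤ dd O p c := by unfold dd; positivity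

theorem dd_pos (h0 : 0 < p.ϱ) {c : ℕ} (h : c < T.M) : 0 < dd O p c := by
  have := norm_pos_iff.2 (O.lv c h).lim.κ0
  unfold dd
  positivity

theorem en0 (T : TD) : 0 ≤ T.en := by
  have := W0 T
  have := L30 T
  have := T.obs.ρ0
  exact div_nonneg (by linarith) (by linarith)

theorem lo_ge {j : ℕ} (hj : j ≤ T.M) : -T.en ≤ lo0 O p j := by
  unfold lo0
  split_ifs with h
  · exact le_rfl
  · linarith [(pos_bd (T := T) (c := j - 1) (by omega)).1, dd_nn O p (j - 1)]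

theorem hi_le (j : ℕ) : hi0 O p j ≤ T.en := by
  unfold hi0
  split_ifs with h
  · linarith [(pos_bd h).2, dd_nn O p j]
  · exact le_rfl

theorem off (h0 : 0 < p.ϱ) {j c : ℕ} (hj : j ≤ T.M) (hc : c < T.M) {t : ℝ} (h1 : lo0 O p j ≤ t)
    (h2 : t ≤ hi0 O p j) : t ≠ T.pos c := by
  rcases lt_or_ge c j with h | h
  · rw [lo0, if_neg (by omega)] at h1
    have := pos_mono (T := T) (c := c) (c' := j - 1) (by omega) (by omega)
    exact ne_of_gt (by linarith [dd_pos O p h0 (c := j - 1) (by omega)])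
  · rw [hi0, if_pos (by omega)] at h2
    exact ne_of_lt (by linarith [dd_pos O p h0 (c := j) (by omega), pos_mono hc h])

theorem om (h0 : 0 < p.ϱ) {j : ℕ} (hj : j ≤ T.M) {t y : ℝ} (h1 : lo0 O p j ≤ t)
    (h2 : t ≤ hi0 O p j) (h3 : T.H₀ - T.ρ' / 2 ≤ y) (h4 : y ≤ T.H₀) : qq T (t, y) ∈ T.E.Om := by
  have r0 := T.obs.ρ0
  have e := en_eq T
  have a1 := mul_le_mul_of_nonneg_left ((lo_ge O p hj).trans h1) (W0 T).le
  have a2 := mul_le_mul_of_nonneg_left (h2.trans (hi_le O p j)) (W0 T).le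
  refine (T.obs.om T.W (mem_ball_self T.obs.σ0) (qq T (t, y)).2 ⟨?_, ?_, ?_, ?_⟩).2 fun c k => ?_
  · rw [qq_re]; linarith
  · rw [qq_re]; linarith
  · rw [qq_im]; linarith [T.obs.lim.2.2, T.hb]
  · rw [qq_im]; linarith
  · have k1 := k.1
    rw [qq_re, ← xn c.2, ← pos_eq] at k1
    exact off O p h0 hj c.2 h1 h2 (mul_left_cancel₀ (W0 T).ne' (by linarith))

theorem det_ne {L : C2 →L[ℂ] C2} (h : Function.Injective L) : det2 L ≠ 0 := by
  intro k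
  have z := (injective_iff_map_eq_zero _).1 h
  unfold det2 at k
  have a1 := z ((L (0, 1)).1, -(L (1, 0)).1) (by
    rw [ap2]
    refine Prod.ext ?_ ?_
    · simp; ring
    · simp; linear_combination -k)
  have a2 := z ((L (0, 1)).2, -(L (1, 0)).2) (by
    rw [ap2]
    refine Prod.ext ?_ ?_
    · simp; linear_combination k
    · simp; ring)
  simp only [Prod.mk_eq_zero, neg_eq_zero] at a1 a2
  simpa using z (1, 0) (Prod.ext a1.2 a2.2)

/-- the model family is uniformly immersed near the gaps, up to the top -/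
theorem model (h0 : 0 < p.ϱ) : ∃ κ > 0, ∃ β ≥ 0, ∃ e > 0, ∀ j ≤ T.M, ∀ t y : ℝ, lo0 O p j ≤ t →
    t ≤ hi0 O p j → T.H₀ - T.ρ' / 2 ≤ y → y ≤ T.H₀ → ∀ q, ‖q - qq T (t, y)‖ ≤ e →
      ‖fderiv ℂ (Z0 T.Y) q‖ ≤ β ∧ κ ≤ ‖det2 (fderiv ℂ (Z0 T.Y) q)‖ := by
  have op : IsOpen T.E.Om := (D.om T.E T.mx.ok).1
  have cS : IsCompact (⋃ j ∈ Iic T.M, Icc (lo0 O p j) (hi0 O p j)) :=
    (finite_Iic _).isCompact_biUnion fun _ _ => isCompact_Icc
  have cK := (cS.prod (isCompact_Icc (a := T.H₀ - T.ρ' / 2) (b := T.H₀))).image (qq_cont T)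
  obtain ⟨e, e0, sub⟩ := cK.exists_cthickening_subset_open op (by
    rintro _ ⟨⟨t, y⟩, ⟨a, b⟩, rfl⟩
    obtain ⟨j, hj, a⟩ := mem_iUnion₂.1 a
    exact om O p h0 hj a.1 a.2 b.1 b.2)
  have cK' := cK.cthickening (r := e)
  have an := (z0_an T.mx.fam.an op).fderiv.continuousOn.mono sub
  obtain ⟨β, hβ⟩ := cK'.exists_bound_of_continuousOn an
  have cd : Continuous det2 := by unfold det2; fun_prop
  obtain ⟨κ, κ0, hκ⟩ := cK'.exists_forall_le' (cd.comp_continuousOn an).norm (a := 0)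
    fun q hq => norm_pos_iff.2 (det_ne (jac T.mx.ok.ang op T.mx.fam (sub hq) (by
      obtain ⟨-, e', e1, e2, -⟩ := sub hq
      exact T.mx.ok.ne _ (e2 (mem_ball_self e1)))).2.2)
  refine ⟨κ, κ0, max β 0, le_max_right _ _, e, e0, fun j hj t y a1 a2 a3 a4 q hq => ?_⟩
  have m := mem_cthickening_of_dist_le q (qq T (t, y)) e (qq T '' ((⋃ j ∈ Iic T.M,
    Icc (lo0 O p j) (hi0 O p j)) ×ˢ Icc (T.H₀ - T.ρ' / 2) T.H₀)) (mem_image_of_mem (qq T)
    (mk_mem_prod (mem_iUnion₂.2 ⟨j, mem_Iic.2 hj, mem_Icc.2 ⟨a1, a2⟩⟩) (mem_Icc.2 ⟨a3, a4⟩)))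
    (by rwa [dist_eq_norm])
  exact ⟨(hβ q m).trans (le_max_left _ _), hκ q m⟩

theorem nz (T : TD) : P097Mo.NZ T.E.g (Lo 0) := by
  obtain ⟨y, a, b⟩ := T.nz
  exact P097Mo.nz_of T.seq.op (convex_halfSpace_im_lt 0).isPreconnected T.seq.dg a b

/-- the true states near the line of the height `y` under the top -/
theorem tru (T : TD) {y : ℝ} (y1 : T.H₀ - T.ρ' / 2 ≤ y) (y2 : y < T.H₀) : ∃ δ > 0, ∃ M ≥ 0,
    ∀ η > 0, ∀ᶠ j in (T.𝒰 : Filter ℕ), ∀ t : ℝ, |t| ≤ T.en → ∀ q, ‖q - qq T (t, y)‖ ≤ 2 * δ →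
      AnalyticAt ℂ (Zt (T.ε j) (T.F j)) q ∧ AnalyticAt ℂ (Z0 T.Y) q ∧
      ‖Zt (T.ε j) (T.F j) q - Z0 T.Y q‖ ≤ η ∧ ‖Zt (T.ε j) (T.F j) q‖ ≤ M ∧
      TT (T.θ j) (T.h j) (T.ε j) (Zt (T.ε j) (T.F j) q) =
        Zt (T.ε j) (T.F j) (q.1, q.2 + T.ε j * q.1) := by
  have Tf := tf_of T.loc
  obtain ⟨Fm, w⟩ := wom T.mx T.hα T.hβ T.hb (by linarith [L30 T]) T.loc T.sU T.eqA
  have op : IsOpen T.E.Om := (D.om T.E T.mx.ok).1
  have cK := ((isCompact_Icc (a := -T.en) (b := T.en)).prod (isCompact_singleton (x := y))).image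
    (qq_cont T)
  obtain ⟨e, e0, sub⟩ := cK.exists_cthickening_subset_open Tf.op (by
    rintro _ ⟨⟨t, y'⟩, ⟨a, b⟩, rfl⟩
    obtain rfl : y' = y := b
    have e := en_eq T
    have a1 := mul_le_mul_of_nonneg_left a.1 (W0 T).le
    have a2 := mul_le_mul_of_nonneg_left a.2 (W0 T).le
    have := rho1 T
    have := T.obs.ρ0
    refine mem_wd.2 ⟨by simpa [qq] using T.loc.ρ0, ?_, ?_, ?_⟩
    · rw [qq_re, abs_lt]; constructor <;> linarith
    · rw [qq_im]; linarith [T.obs.lim.2.2, T.hb]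
    · rw [qq_im]; simpa [qq, tw] using y2)
  have cK' := cK.cthickening (r := e)
  obtain ⟨B, hB⟩ := deepS T.seq (nz T) T.loc Fm (fun w hw => T.mx.ok.ne _ (T.sU hw)) cK' sub
  refine ⟨e / 2, half_pos e0, max B 0, le_max_right _ _, fun η η0 => ?_⟩
  filter_upwards [hB, Tf.zu T.seq.e0 T.seq.el cK' sub η0] with j a b t ht q hq
  have m := mem_cthickening_of_dist_le q _ e _ (mem_image_of_mem (qq T)
    (mk_mem_prod (mem_Icc.2 (abs_le.1 ht)) (mem_singleton y))) (by rw [dist_eq_norm]; linarith)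
  obtain ⟨a1, a2, a3, -⟩ := a q m
  refine ⟨a1, z0_an T.mx.fam.an op q (w q (sub m)).1, ?_, a2.trans (le_max_left _ _), a3⟩
  rw [z0_congr Tf.op (fun x hx => (w x hx).2) (sub m)]
  exact (b q m).2.le

theorem eps0 (T : TD) : Tendsto T.ε T.𝒰 (𝓝 0) := by
  simpa [Function.comp_def] using (continuous_re.tendsto _).comp T.seq.el

/-- the base points of the leaf `ζ = 0` -/
theorem base (T : TD) (p : Sc) (n0 : 0 ≤ p.n) {e : ℝ} (e0 : 0 < e) :
    ∀ᶠ j in (T.𝒰 : Filter ℕ), ∀ i : ℤ, |T.ε j * i| ≤ T.en →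
      ‖(((T.v j : ℂ), x0 T p j + T.ε j * T.v j * i) : C2) -
        qq T (T.ε j * i, T.H₀ - 10 * p.n * T.W)‖ ≤ e := by
  have l1 : Tendsto (fun j => T.ε j * (nn T p j : ℝ)) T.𝒰 (𝓝 p.n) := by
    refine tendsto_of_tendsto_of_tendsto_of_le_of_le (g := fun j => p.n - T.ε j) ?_
      tendsto_const_nhds (fun j => ?_) fun j => ?_
    · simpa using tendsto_const_nhds.sub (eps0 T)
    · have := mul_le_mul_of_nonneg_left (Nat.lt_floor_add_one (p.n / T.ε j)).le (T.e0 j).le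
      rw [mul_div_cancel₀ _ (T.e0 j).ne'] at this
      unfold nn
      linarith
    · have := mul_le_mul_of_nonneg_left (Nat.floor_le (div_nonneg n0 (T.e0 j).le)) (T.e0 j).le
      rwa [mul_div_cancel₀ _ (T.e0 j).ne'] at this
  have l2 := (T.loc.lv.sub_const T.W).abs
  have l3 := ((T.loc.lH.sub ((l1.const_mul 10).mul T.loc.lv)).sub_const
    (T.H₀ - 10 * p.n * T.W)).abs
  rw [sub_self, abs_zero] at l2 l3
  have l4 := (l2.const_mul T.en).add l3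
  rw [mul_zero, add_zero] at l4
  filter_upwards [l2.eventually_le_const e0, l4.eventually_le_const e0] with j a b i hi
  rw [Prod.norm_def, max_le_iff]
  constructor
  · have : (((T.v j : ℂ), x0 T p j + T.ε j * T.v j * i) -
        qq T (T.ε j * i, T.H₀ - 10 * p.n * T.W)).1 = ((T.v j - T.W : ℝ) : ℂ) := by simp [qq]
    rwa [this, Complex.norm_real]
  · have : (((T.v j : ℂ), x0 T p j + T.ε j * T.v j * i) -
        qq T (T.ε j * i, T.H₀ - 10 * p.n * T.W)).2 = ((T.ε j * i * (T.v j - T.W) : ℝ) : ℂ) +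
        ((T.H j - 10 * (T.ε j * nn T p j) * T.v j - (T.H₀ - 10 * p.n * T.W) : ℝ) : ℂ) * I := by
      simp only [qq, x0, Prod.snd_sub]
      push_cast
      ring
    rw [this]
    refine (norm_add_le _ _).trans (le_trans ?_ b)
    rw [norm_mul, norm_I, mul_one, Complex.norm_real, Complex.norm_real, Real.norm_eq_abs,
      Real.norm_eq_abs, abs_mul]
    gcongr

theorem fl_le {x ε : ℝ} (x0 : 0 ≤ x) (e0 : 0 < ε) :
    ε * (⌊x / ε⌋₊ : ℝ) ≤ x ∧ x - ε ≤ ε * (⌊x / ε⌋₊ : ℝ) := by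
  have a := mul_le_mul_of_nonneg_left (Nat.lt_floor_add_one (x / ε)).le e0.le
  have b := mul_le_mul_of_nonneg_left (Nat.floor_le (div_nonneg x0 e0.le)) e0.le
  rw [mul_div_cancel₀ _ e0.ne'] at a b
  exact ⟨b, by linarith⟩

theorem sm {x : ℝ} (h : 0 < x) : ∀ᶠ t in 𝓝[>] (0 : ℝ), 0 < t ∧ t ≤ x := by
  filter_upwards [Ioc_mem_nhdsGT h] with t ht using ht

end Iv

open Iv

theorem inv62 (hG : R_GAP) : R_INV := by
  intro T O
  have W0 := W0 T
  have W1 := T.W1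
  have C1 := T.loc.C1
  have en0 := en0 T
  have ρ0 := T.obs.ρ0
  set A' : ℝ := 2 * T.W + T.en + T.C + 2 with hA'
  have A1 : 1 ≤ A' := by linarith
  filter_upwards [hG T O, sm one_pos] with ϱ hG ⟨ϱ0, _⟩
  obtain ⟨κ, κ0, β, β0, e, e0, mo⟩ := model O ⟨ϱ, 0, 0, 0, 0, 0, 0⟩ ϱ0
  filter_upwards [hG, sm one_pos] with r hG ⟨r0, _⟩
  filter_upwards [hG, eventually_gt_atTop 0] with A hG A0
  obtain ⟨ϑ, ϑ0, iv⟩ := inv_C κ β A r A' κ0 β0 A0 r0 A1
  filter_upwards [hG, sm (show 0 < r / (216 * A) by positivity)] with m hG ⟨m0, m1⟩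
  filter_upwards [hG, sm (show 0 < ϑ * m / 20 by positivity), sm (show 0 < T.ρ' / (20 * T.W) by
    positivity), sm (show (0 : ℝ) < 1 / 10 by norm_num)] with n hG ⟨n0, n1⟩ ⟨_, n2⟩ ⟨_, n3⟩
  rw [le_div_iff₀ (by positivity)] at m1 n2
  have y1 : T.H₀ - T.ρ' / 2 ≤ T.H₀ - 10 * n * T.W := by linarith
  have y2 : T.H₀ - 10 * n * T.W < T.H₀ := by
    have : 0 < 10 * n * T.W := by positivity
    linarith
  obtain ⟨δ, δ0, M, M0, tr⟩ := tru T y1 y2
  filter_upwards [hG, sm (show 0 < δ / A' ^ 2 by positivity), sm m0] with R hG ⟨R0, R1⟩ ⟨_, R2⟩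
  rw [le_div_iff₀ (by positivity)] at R1
  obtain ⟨η₀, η0, ε₀, ε0, h₁, h0, K₀, iv⟩ := iv δ R (2 * M) δ0 R0 (by positivity)
  filter_upwards [hG, sm h0] with H hG ⟨H0, H1⟩
  filter_upwards [hG, eventually_ge_atTop K₀] with K hG hK
  set p : Sc := ⟨ϱ, r, A, m, n, R, H⟩ with hp
  filter_upwards [hG, tr η₀ η0, base T p n0.le (lt_min e0 δ0), (eps0 T).eventually_le_const ε0,
    (eps0 T).eventually_le_const (half_pos m0),
    (eps0 T).eventually_le_const (show 0 < ϑ * m / (2 * (2 + ϑ)) by positivity),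
    T.loc.lv.eventually_const_le (show T.W / 2 < T.W by linarith),
    T.loc.lv.eventually_le_const (show T.W < 2 * T.W by linarith)]
    with j hG tr ba s1 s2 s3 v1 v2 i hi
  have e1 := T.e0 j
  have e2 : (T.ε j : ℂ) ≠ 0 := ofReal_ne_zero.2 e1.ne'
  obtain ⟨j', hj', i1, i2⟩ := id hi
  have t1 : lo0 O p j' ≤ T.ε j * i := by
    have := Int.ceil_le.1 i1
    rw [div_le_iff₀ e1] at this
    linarith
  have t2 : T.ε j * i ≤ hi0 O p j' := by
    have := Int.le_floor.1 i2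
    rw [le_div_iff₀ e1] at this
    linarith
  have t3 : |T.ε j * i| ≤ T.en := abs_le.2 ⟨(lo_ge O p hj').trans t1, t2.trans (hi_le O p j')⟩
  obtain ⟨b1, b2⟩ := le_min_iff.1 (ba i t3)
  obtain ⟨f1, f2⟩ := fl_le m0.le e1
  obtain ⟨f3, -⟩ := fl_le n0.le e1
  have nn0 : (0 : ℝ) ≤ nn T p j := Nat.cast_nonneg _
  have f4 : T.ε j * (nn T p j : ℝ) ≤ n := f3
  have m11 : |(md O p j).m₁| ≤ 2 := by
    show |-(T.b j + T.ε j * (10 * nn T p j)) / T.C| ≤ 2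
    have := abs_le.1 (T.loc.bC j)
    have : 0 ≤ T.ε j * (nn T p j : ℝ) := by positivity
    rw [abs_div, abs_of_pos (show 0 < T.C by linarith), div_le_iff₀ (by linarith), abs_le]
    constructor <;> linarith
  have nv : ‖(T.v j : ℂ)‖ = T.v j := by
    rw [Complex.norm_real, Real.norm_of_nonneg (by linarith)]
  have nc : ‖((T.v j / T.C : ℝ) : ℂ)‖ = T.v j / T.C := by
    rw [Complex.norm_real, Real.norm_of_nonneg (div_nonneg (by linarith) (by linarith))]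
  obtain ⟨d1, d2⟩ := mo j' hj' _ _ t1 t2 y1 y2.le _ b1
  have cen := tr _ t3 _ (b2.trans (by linarith))
  have c1 : T.ε j * (H / T.ε j) ≤ h₁ := by rwa [mul_div_cancel₀ _ e1.ne']
  have c2 : R ≤ T.ε j * (R / T.ε j) := by rw [mul_div_cancel₀ _ e1.ne']
  have c3 : T.ε j * (R / T.ε j) * A' ^ 2 ≤ δ := by rwa [mul_div_cancel₀ _ e1.ne']
  have c4 : 216 * (A * T.ε j) * (⌊m / T.ε j⌋₊ : ℝ) ≤ r := by
    have := mul_le_mul_of_nonneg_left f1 (show 0 ≤ 216 * A by positivity)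
    linarith
  have c5 : |10 * (nn T p j : ℝ)| + 2 ≤ ϑ * (⌊m / T.ε j⌋₊ : ℝ) := by
    rw [le_div_iff₀ (by positivity)] at s3
    rw [abs_of_nonneg (by positivity)]
    refine le_of_mul_le_mul_left ?_ e1
    have := mul_le_mul_of_nonneg_left f2 ϑ0.le
    linarith
  have c6 : (|(md O p j).m₁| + 1) * (R / T.ε j) ≤ 7 * (⌊m / T.ε j⌋₊ : ℝ) := by
    refine le_of_mul_le_mul_left ?_ e1
    rw [mul_left_comm, mul_div_cancel₀ _ e1.ne']
    have := mul_le_mul_of_nonneg_right m11 R0.le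
    linarith
  have c7 : |(md O p j).m₁| ≤ A' := by linarith
  have c8 : ‖(T.v j : ℂ)‖ ≤ A' := by rw [nv]; linarith
  have c9 : ‖((T.v j / T.C : ℝ) : ℂ)‖ ≤ A' := by
    rw [nc]; linarith [div_le_self (show 0 ≤ T.v j by linarith) C1]
  have c10 : ‖((T.ε j * i : ℝ) : ℂ)‖ ≤ A' := by
    rw [Complex.norm_real, Real.norm_eq_abs]; linarith
  have c11 : 1 ≤ A' ^ 2 * (‖(T.v j : ℂ)‖ * ‖((T.v j / T.C : ℝ) : ℂ)‖) := by
    rw [nv, nc, mul_div_assoc', mul_div_assoc', le_div_iff₀ (by linarith)]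
    have a1 : (T.C + 2) ^ 2 ≤ A' ^ 2 := pow_le_pow_left₀ (by linarith) (by linarith) 2
    have a2 : 1 / 2 * (1 / 2) ≤ T.v j * T.v j :=
      mul_le_mul (by linarith) (by linarith) (by norm_num) (by linarith)
    have a3 := mul_le_mul a1 a2 (by norm_num) (by positivity)
    linarith [sq_nonneg (T.C - 2), sq_nonneg T.C]
  have c12 : ∀ q ∈ ball (((T.v j : ℂ), x0 T p j + T.ε j * T.v j * i) : C2) δ,
      AnalyticAt ℂ (Zt (T.ε j) (T.F j)) q ∧ AnalyticAt ℂ (Z0 T.Y) q ∧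
      ‖Zt (T.ε j) (T.F j) q - Z0 T.Y q‖ ≤ η₀ ∧ ‖Zt (T.ε j) (T.F j) q -
        Zt (T.ε j) (T.F j) ((T.v j : ℂ), x0 T p j + T.ε j * T.v j * i)‖ ≤ 2 * M := fun q hq => by
    have q1 := norm_sub_le_norm_sub_add_norm_sub q _ (qq T (T.ε j * i, T.H₀ - 10 * n * T.W))
      |>.trans (add_le_add (mem_ball_iff_norm.1 hq).le b2)
    obtain ⟨a1, a2, a3, a4, -⟩ := tr _ t3 q (by linarith)
    exact ⟨a1, a2, a3, (norm_sub_le _ _).trans (by linarith [cen.2.2.2.1])⟩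
  have c13 : ∀ ζ : ℂ, (md O p j).Z (i, ζ) = Zt (T.ε j) (T.F j)
      ((T.v j : ℂ) + T.ε j * ((T.v j / T.C : ℝ) : ℂ) * ζ, x0 T p j + T.ε j * T.v j * i +
        T.ε j * ((T.ε j * i : ℝ) : ℂ) * ((T.v j / T.C : ℝ) : ℂ) * ζ) := fun ζ => by
    show Zt _ _ (pt T p j (i, ζ)) = _
    refine congrArg _ (Prod.ext rfl ?_)
    simp only [pt, al]
    push_cast
    ring
  obtain ⟨G, hG', -⟩ := iv (TT (T.θ j) (T.h j) (T.ε j)) (Zt (T.ε j) (T.F j)) (Z0 T.Y)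
    ((md O p j).C i) (fun ζ => (md O p j).Z (i, ζ)) (T.v j) (x0 T p j + T.ε j * T.v j * i)
    (T.v j / T.C : ℝ) (T.ε j * i : ℝ) ⌊m / T.ε j⌋₊ (A * T.ε j) (R / T.ε j) (H / T.ε j)
    (10 * (nn T p j : ℝ)) (md O p j).m₁ (T.ε j) K e1 s1 hK c1 c2 c3 c4 le_rfl c5 c6 c7 c8 c9 c10 c11
    c12 d1 d2 c13 cen.2.2.2.2 (fun ζ hζ => (hG.1 i hi ζ hζ).1) (fun _ => rfl)
  exact ⟨G, fun q hq y hy => ⟨((hG' q hq).2 y hy).1.differentiableAt, ((hG' q hq).2 y hy).2⟩⟩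

end Vale.Agent.P097F.LC
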