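import Vale.Agent.P097F.LC.Gap2

/-!
# P097F/LC: the inverse of the charts
-/

set_option linter.all false

noncomputable section

namespace Vale.Agent.P097F.LC.G2

open Filter Topology Set Metric Complex Vale.Agent.P097F.N Vale.Agent.P097F.S Vale.Agent.P097D
open Vale.Agent.P097EE (C2)

lemma det_ne {L : C2 →L[ℂ] C2} (h : Function.Injective L) : det2 L ≠ 0 := fun d => by
  have z : ∀ v, L v = 0 → v = 0 := fun v e => h (e.trans (map_zero L).symm)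
  unfold det2 at d
  have e1 := z ((L (0, 1)).2, -(L (1, 0)).2) (by
    rw [ap2]
    refine Prod.ext ?_ ?_ <;> simp only [Prod.fst_add, Prod.snd_add, Prod.smul_fst, Prod.smul_snd,
      smul_eq_mul, Prod.fst_zero, Prod.snd_zero]
    · linear_combination d
    · ring)
  have e2 := z ((L (0, 1)).1, -(L (1, 0)).1) (by
    rw [ap2]
    refine Prod.ext ?_ ?_ <;> simp only [Prod.fst_add, Prod.snd_add, Prod.smul_fst, Prod.smul_snd,
      smul_eq_mul, Prod.fst_zero, Prod.snd_zero]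
    · ring
    · linear_combination -d)
  have e3 := z (0, 1) (Prod.ext (Prod.mk.inj e2).1 (Prod.mk.inj e1).1)
  exact one_ne_zero (congrArg Prod.snd e3)

lemma jacK (T : TD) {G : Set C2} (G1 : IsCompact G) (G2 : G ⊆ T.E.Om) : ∃ κ β : ℝ, 0 < κ ∧ 0 ≤ β ∧
    ∀ q ∈ G, ‖fderiv ℂ (Z0 T.Y) q‖ ≤ β ∧ κ ≤ ‖det2 (fderiv ℂ (Z0 T.Y) q)‖ := by
  have om := D.om T.E T.mx.ok
  have j := fun q (hq : q ∈ G) => jac T.mx.ok.ang om.1 T.mx.fam (G2 hq)
    (T.mx.ok.ne _ (om.2.2.2 q (G2 hq)).1)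
  have c1 : ContinuousOn (fderiv ℂ (Z0 T.Y)) G := fun q hq =>
    (j q hq).1.fderiv.continuousAt.continuousWithinAt
  have c2 : ContinuousOn (fun q => ‖det2 (fderiv ℂ (Z0 T.Y) q)‖) G :=
    (show Continuous fun L : C2 →L[ℂ] C2 => ‖det2 L‖ by unfold det2; fun_prop).comp_continuousOn c1
  obtain ⟨β, hβ⟩ := G1.exists_bound_of_continuousOn c1
  obtain ⟨κ, κ0, hκ⟩ := G1.exists_forall_le' c2 (a := 0)
    fun q hq => norm_pos_iff.2 (det_ne (j q hq).2.2)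
  exact ⟨κ, max β 0, κ0, le_max_right _ _, fun q hq => ⟨(hβ q hq).trans (le_max_left _ _), hκ q hq⟩⟩

theorem inv : R_INV := by
  intro T O
  have W1 := T.W1
  have C1 := T.loc.C1
  have io : ∀ {x : ℝ}, 0 < x → ∀ᶠ δ in 𝓝[>] (0 : ℝ), δ ∈ Ioo 0 x := fun h => Ioo_mem_nhdsGT h
  have tf := tf_of T.loc
  have fm := (wom T.mx T.hα T.hβ T.hb (by linarith [L30 T]) T.loc T.sU T.eqA).1
  obtain ⟨B, hB⟩ : ∃ B, B = 2 + 2 * T.W + |T.en| + 4 * T.C := ⟨_, rfl⟩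
  have en0 := abs_nonneg T.en
  have B1 : 1 ≤ B := by linarith
  filter_upwards [gap T O, cpt O, ddsm O (show 0 < 4 * T.ρ' / T.W by
    have := T.obs.ρ0; positivity)] with ϱ g1 ⟨G, G1, G2, h1⟩ sm
  obtain ⟨κ, β, κ0, β0, hJ⟩ := jacK T G1 G2
  filter_upwards [g1, io one_pos] with r g1 hr
  filter_upwards [g1, eventually_gt_atTop 0] with A g1 A0
  obtain ⟨ϑ, ϑ0, h2⟩ := inv_C κ β A r B κ0 β0 A0 hr.1 B1
  filter_upwards [g1, io (show 0 < r / (216 * A) by have := hr.1; positivity)] with m g1 hm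
  have m0 := hm.1
  have m1 := (lt_div_iff₀ (by positivity)).1 hm.2
  filter_upwards [g1, h1, io (show 0 < ϑ * m / 20 by positivity),
    io (show (0 : ℝ) < 1 / 10 by norm_num)] with n g1 ⟨Kc, K1, K2, h3⟩ hn hn'
  obtain ⟨δ, δ0, hδ⟩ := K1.exists_cthickening_subset_open (wd_open ..) K2
  have K3 := K1.cthickening (r := δ)
  obtain ⟨M, h4⟩ := deepS T.seq (nz T) T.loc fm (fun w hw => T.mx.ok.ne w (T.sU hw)) K3 hδ
  filter_upwards [g1, h3, io (show 0 < δ / B ^ 2 by positivity), io m0] with R g1 h3 hR hR'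
  have R0 := hR.1
  obtain ⟨η₀, η0, ε₀, ε0, h₁, h10, K₀, h5⟩ := h2 δ R (2 * |M|) δ0 R0 (by positivity)
  filter_upwards [g1, io h10] with H g1 hH
  filter_upwards [g1, eventually_ge_atTop K₀] with K g1 hK
  have ev : ∀ {x : ℝ}, 0 < x → ∀ᶠ j in (T.𝒰 : Filter ℕ), T.ε j ≤ x := fun h =>
    (eps T).eventually_le_const h
  filter_upwards [g1, h3 ⟨ϱ, r, A, m, n, R, H⟩ rfl rfl, h4,
    tf.zu T.seq.e0 T.seq.el K3 hδ η0, ev ε0, ev (show 0 < m / 2 by positivity),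
    ev (show 0 < ϑ * m / (2 * (ϑ + 2)) by positivity),
    Metric.tendsto_nhds.1 T.loc.lv (1 / 2) (by norm_num)] with j g1 a1 a2 a3 a4 a5 a6 a7 i gi
  have e0 := T.e0 j
  rw [Real.dist_eq] at a7
  have v1 := abs_lt.1 a7
  have q0 := a1 i 0 gi (by rw [norm_zero]; positivity)
  have e1 : pt T ⟨ϱ, r, A, m, n, R, H⟩ j (i, 0) =
      ((T.v j : ℂ), x0 T ⟨ϱ, r, A, m, n, R, H⟩ j + T.ε j * T.v j * i) := by simp [pt]
  rw [e1] at q0
  obtain ⟨k, hk, t1, t2⟩ := tim O gi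
  have f1 := (far O (p := ⟨ϱ, r, A, m, n, R, H⟩) sm hk t1 t2).1
  have n1 : T.ε j * (⌊n / T.ε j⌋₊ : ℝ) ≤ n :=
    (le_div_iff₀' e0).1 (Nat.floor_le (div_nonneg hn.1.le e0.le))
  have n2 : T.ε j * (⌊m / T.ε j⌋₊ : ℝ) ≤ m :=
    (le_div_iff₀' e0).1 (Nat.floor_le (div_nonneg m0.le e0.le))
  have n3 : m < T.ε j * (⌊m / T.ε j⌋₊ + 1 : ℝ) := (div_lt_iff₀' e0).1 (Nat.lt_floor_add_one _)
  have n0 : (0 : ℝ) ≤ ⌊n / T.ε j⌋₊ := Nat.cast_nonneg _
  have m2 : |-(T.b j + T.ε j * (10 * (⌊n / T.ε j⌋₊ : ℝ))) / T.C| ≤ 2 := by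
    rw [abs_div, abs_neg, abs_of_pos (show 0 < T.C by linarith), div_le_iff₀ (by linarith)]
    have := abs_le.1 (T.loc.bC j)
    have := mul_nonneg e0.le n0
    exact abs_le.2 ⟨by linarith, by linarith [hn'.2]⟩
  have c0 : 0 ≤ T.v j / T.C := div_nonneg (by linarith) (by linarith)
  have c1 : T.v j / T.C ≤ T.v j := div_le_self (by linarith) C1
  have sub : ∀ q ∈ ball ((T.v j : ℂ), x0 T ⟨ϱ, r, A, m, n, R, H⟩ j + T.ε j * T.v j * i) δ,
      q ∈ cthickening δ Kc := fun q hq => mem_cthickening_of_dist_le q _ δ Kc q0.1 (mem_ball.1 hq).le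
  have s0 := sub _ (mem_ball_self δ0)
  have fe : fderiv ℂ (Z0 T.F₀) ((T.v j : ℂ), x0 T ⟨ϱ, r, A, m, n, R, H⟩ j + T.ε j * T.v j * i) =
      fderiv ℂ (Z0 T.Y) ((T.v j : ℂ), x0 T ⟨ϱ, r, A, m, n, R, H⟩ j + T.ε j * T.v j * i) :=
    EventuallyEq.fderiv_eq (eventually_of_mem ((wd_open ..).mem_nhds (K2 q0.1)) fun q hq =>
      (z0_congr (wd_open ..) (fun q hq => (wo T q hq).2) hq).symm)
  obtain ⟨F, hF, -⟩ := h5 (TT (T.θ j) (T.h j) (T.ε j)) (Zt (T.ε j) (T.F j)) (Z0 T.F₀)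
    ((md O ⟨ϱ, r, A, m, n, R, H⟩ j).C i) (fun ζ => (md O ⟨ϱ, r, A, m, n, R, H⟩ j).Z (i, ζ))
    (T.v j) (x0 T ⟨ϱ, r, A, m, n, R, H⟩ j + T.ε j * T.v j * i) (T.v j / T.C : ℝ) (T.ε j * i : ℝ)
    ⌊m / T.ε j⌋₊ (A * T.ε j) (R / T.ε j) (H / T.ε j) (10 * (⌊n / T.ε j⌋₊ : ℝ))
    (-(T.b j + T.ε j * (10 * (⌊n / T.ε j⌋₊ : ℝ))) / T.C) (T.ε j) K e0 a4 hK
    (by rw [mul_div_cancel₀ _ e0.ne']; exact hH.2.le) (by rw [mul_div_cancel₀ _ e0.ne'])
    (by rw [mul_div_cancel₀ _ e0.ne']; exact ((lt_div_iff₀ (by positivity)).1 hR.2).le)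
    (by linarith [mul_le_mul_of_nonneg_left n2 A0.le]) le_rfl
    (by
      rw [abs_of_nonneg (by positivity)]
      refine le_of_mul_le_mul_left ?_ e0
      have u1 := (le_div_iff₀ (by positivity)).1 a6
      have u2 := mul_le_mul_of_nonneg_left n3.le ϑ0.le
      linarith [hn.2])
    (by
      refine (mul_le_mul_of_nonneg_right (show _ ≤ (3 : ℝ) by linarith) (by positivity)).trans ?_
      rw [← mul_div_assoc, div_le_iff₀' e0]
      linarith [hR'.2])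
    (by linarith) (by rw [norm_real, Real.norm_of_nonneg (by linarith)]; linarith)
    (by rw [norm_real, Real.norm_of_nonneg c0]; linarith)
    (by rw [norm_real, Real.norm_eq_abs]; linarith [le_abs_self T.en])
    (by
      rw [norm_real, norm_real, Real.norm_of_nonneg c0, Real.norm_of_nonneg (by linarith),
        ← mul_div_assoc, ← mul_div_assoc, le_div_iff₀ (by linarith)]
      have u1 : 4 * T.C ≤ B ^ 2 := by nlinarith
      have u2 : 1 / 4 ≤ T.v j * T.v j := by nlinarith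
      nlinarith)
    (fun q hq => ⟨(a3 q (sub q hq)).1, z0_an tf.an₀ tf.op q (hδ (sub q hq)), (a3 q (sub q hq)).2.le,
      (norm_sub_le _ _).trans (by
        linarith [(a2 q (sub q hq)).2.1, (a2 _ s0).2.1, le_abs_self M])⟩)
    (fe ▸ (hJ _ q0.2).1) (fe ▸ (hJ _ q0.2).2)
    (fun ζ => by
      simp only [md, pt, al]
      congr 2 <;> push_cast <;> ring)
    (a2 _ s0).2.2.1 (fun ζ hζ => (g1.1 i gi ζ hζ).1) (fun p => rfl)
  exact ⟨F, fun p hp q hq => ⟨((hF p hp).2 q hq).1.differentiableAt, ((hF p hp).2 q hq).2⟩⟩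

end Vale.Agent.P097F.LC.G2
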