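import Vale.Agent.P097F.LC.Defs

/-!
# P097F/LC: the sizes of the machine
-/

set_option linter.all false

noncomputable section

namespace Vale.Agent.P097F.LC

open Filter Topology Set Metric Complex Vale.Agent.P097F.N

namespace NumA

variable (T : TD)

theorem eps_eq (j : ℕ) : T.ε j = T.ς j ^ 220 := by
  rw [TD.ς, ← Real.rpow_natCast, ← Real.rpow_mul (T.e0 j).le]; norm_num

theorem vs_pos (j : ℕ) : 0 < T.ς j := Real.rpow_pos_of_pos (T.e0 j) _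

theorem eps_sm {η : ℝ} (h : 0 < η) : ∀ᶠ j in (T.𝒰 : Filter ℕ), T.ε j < η := by
  have : Tendsto (fun n => |T.ε n|) T.𝒰 (𝓝 0) := by simpa using T.seq.el.norm
  exact (this.eventually (gt_mem_nhds h)).mono fun n k => (le_abs_self _).trans_lt k

/-- an eighth of the separation in window time -/
def de : ℝ := T.ρ' / (8 * T.W)

theorem de_pos : 0 < de T := by
  have := T.obs.ρ0; have := T.W1; unfold de; positivity

theorem en_eq : T.en = (T.L - 1) / T.W + 2 * de T := by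
  have := T.W1; unfold TD.en de; field_simp; ring

theorem en_ge : 29 * T.C ≤ (T.L - 1) / T.W := by
  have := T.W1; have := T.loc.C1; have := T.LW
  rw [le_div_iff₀ (by linarith)]; nlinarith

theorem pos_bd {c : ℕ} (h : c < T.M) :
    -((T.L - 1) / T.W) ≤ T.pos c ∧ T.pos c ≤ (T.L - 1) / T.W := by
  have W0 : 0 < T.W := by linarith [T.W1]
  obtain ⟨-, a, b⟩ := T.obs.top ⟨c, h⟩
  simp only [TD.pos, TD.Xn, dif_pos h, ← neg_div]
  constructor <;> gcongr ?_ / _ <;> linarith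

theorem pos_sep {c : ℕ} (h : c + 1 < T.M) : T.pos c + 32 * de T ≤ T.pos (c + 1) := by
  have W0 : 0 < T.W := by linarith [T.W1]
  have h' : c < T.M := by omega
  have a := T.obs.sep ⟨c, h'⟩ ⟨c + 1, h⟩ (by simp [Fin.lt_def])
  have e : 32 * de T = 4 * T.ρ' / T.W := by unfold de; field_simp; ring
  simp only [TD.pos, TD.Xn, dif_pos h, dif_pos h', e, ← add_div]
  gcongr ?_ / _
  linarith

variable {T} {O : Ob T} {p : Sc}

theorem gap (hd : ∀ c < T.M, dd O p c ≤ de T) {j : ℕ} (hj : j ≤ T.M) :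
    lo0 O p j + de T ≤ hi0 O p j := by
  have d0 := de_pos T
  have e := en_eq T
  have g := en_ge T
  have C1 := T.loc.C1
  unfold lo0 hi0
  rcases j with _ | j
  · simp only [if_true]
    split_ifs with h
    · linarith [(pos_bd T h).1, hd 0 h]
    · linarith
  · simp only [Nat.add_sub_cancel, Nat.succ_ne_zero, if_false]
    split_ifs with h
    · linarith [pos_sep T h, hd j hj, hd _ h]
    · linarith [(pos_bd T (c := j) hj).2, hd j hj]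

theorem flo {x e : ℝ} (e0 : 0 < e) (x0 : 0 ≤ x) : e * (⌊x / e⌋₊ : ℝ) ≤ x := by
  rw [mul_comm, ← le_div_iff₀ e0]; exact Nat.floor_le (by positivity)

theorem fl {x e : ℝ} (e0 : 0 < e) : x - e ≤ e * (⌊x / e⌋ : ℝ) ∧ e * (⌊x / e⌋ : ℝ) ≤ x := by
  have a := mul_le_mul_of_nonneg_left (Int.floor_le (x / e)) e0.le
  have b := mul_le_mul_of_nonneg_left (Int.lt_floor_add_one (x / e)).le e0.le
  rw [mul_div_cancel₀ _ e0.ne'] at a b
  exact ⟨by linarith, a⟩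

theorem ce {x e : ℝ} (e0 : 0 < e) : x ≤ e * (⌈x / e⌉ : ℝ) ∧ e * (⌈x / e⌉ : ℝ) ≤ x + e := by
  have a := mul_le_mul_of_nonneg_left (Int.le_ceil (x / e)) e0.le
  have b := mul_le_mul_of_nonneg_left (Int.ceil_lt_add_one (x / e)).le e0.le
  rw [mul_add, mul_div_cancel₀ _ e0.ne'] at b
  rw [mul_div_cancel₀ _ e0.ne'] at a
  exact ⟨a, by linarith⟩

/-- the order of the sizes -/
structure Ok (O : Ob T) (p : Sc) (K : ℝ) : Prop where
  ϱ0 : 0 < p.ϱ ∧ p.ϱ ≤ 1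
  hd : ∀ c < T.M, dd O p c ≤ de T
  r0 : 0 < p.r ∧ p.r ≤ 1
  A1 : 1 ≤ p.A
  m0 : 0 < p.m ∧ 216 * p.A * p.m ≤ p.r
  n0 : 0 < p.n ∧ 40 * p.n ≤ p.m
  R0 : 0 < p.R ∧ 2 * p.R ≤ p.n
  H0 : 0 < p.H ∧ 4 * p.H ≤ p.R
  K1 : 11 ≤ K ∧ (T.M : ℝ) ≤ K ∧ p.A ≤ K ∧ T.en + 1 ≤ K
  K2 : 1 ≤ K * p.r ∧ 1 ≤ K * p.H ∧ 1 ≤ K * p.ϱ
  K3 : ∀ c < T.M, 1 ≤ K * ‖O.κ c‖ ∧ ‖O.κ c‖ ≤ K

theorem sm {a b : ℝ} (b0 : 0 < b) : ∀ᶠ x in 𝓝[>] (0 : ℝ), 0 < x ∧ a * x ≤ b := by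
  have t : Tendsto (fun x : ℝ => a * x) (𝓝[>] 0) (𝓝 (a * 0)) :=
    (tendsto_id.mono_left nhdsWithin_le_nhds).const_mul a
  rw [mul_zero] at t
  filter_upwards [self_mem_nhdsWithin, t.eventually (gt_mem_nhds b0)] with x h k using ⟨h, k.le⟩

theorem bg {a : ℝ} (a0 : 0 < a) : ∀ᶠ K in (atTop : Filter ℝ), 1 ≤ K * a :=
  (tendsto_id.atTop_mul_const a0).eventually_ge_atTop 1

theorem ok (O : Ob T) : Ev (Ok O) := by
  have d : ∀ᶠ ϱ in 𝓝[>] (0 : ℝ), ∀ c < T.M, ‖O.κ c‖ * ϱ ≤ de T :=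
    (eventually_all_finite (finite_lt_nat T.M)).2 fun c _ => (sm (de_pos T)).mono fun _ h => h.2
  filter_upwards [sm (a := 1) one_pos, d] with ϱ h1 h1'
  filter_upwards [sm (a := 1) one_pos] with r h2
  filter_upwards [eventually_ge_atTop 1] with A h3
  filter_upwards [sm (a := 216 * A) h2.1] with m h4
  filter_upwards [sm (a := 40) h4.1] with n h5
  filter_upwards [sm (a := 2) h5.1] with R h6
  filter_upwards [sm (a := 4) h6.1] with H h7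
  have k : ∀ᶠ K in (atTop : Filter ℝ), ∀ c < T.M, 1 ≤ K * ‖O.κ c‖ ∧ ‖O.κ c‖ ≤ K :=
    (eventually_all_finite (finite_lt_nat T.M)).2 fun c hc =>
      (bg (norm_pos_iff.2 (O.lv c hc).lim.κ0)).and (eventually_ge_atTop _)
  filter_upwards [eventually_ge_atTop 11, eventually_ge_atTop (T.M : ℝ), eventually_ge_atTop A,
    eventually_ge_atTop (T.en + 1), bg h2.1, bg h7.1, bg h1.1, k] with K a1 a2 a3 a4 a5 a6 a7 a8
  refine ⟨⟨h1.1, by simpa using h1.2⟩, fun c hc => ?_, ⟨h2.1, by simpa using h2.2⟩, h3, h4, h5, h6,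
    h7, ⟨a1, a2, a3, a4⟩, ⟨a5, a6, a7⟩, a8⟩
  have a := h1' c hc
  have b := mul_nonneg (norm_nonneg (O.κ c)) h1.1.le
  show ‖O.κ c‖ * ϱ ^ 2 / 4 ≤ _
  nlinarith [h1.1, h1.2]

theorem num_of {K : ℝ} (k : Ok O p K) {j : ℕ} (e1 : T.ε j ≤ 1) (e2 : T.ε j ≤ de T)
    (e3 : T.ε j ≤ p.R) : Num K (T.ς j) (T.ε j) (md O p j) := by
  have e0 := T.e0 j
  have C1 := T.loc.C1
  have C0 : 0 < T.C := by linarith
  obtain ⟨⟨ϱ0, ϱ1⟩, hd, ⟨r0, r1⟩, A1, ⟨m0, m1⟩, ⟨n0, n1⟩, ⟨R0, R1⟩, ⟨H0, H1⟩, ⟨K1, K2, K3, K4⟩,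
    ⟨K5, K6, K7⟩, K8⟩ := k
  have fm := flo e0 m0.le
  have fn : T.ε j * (nn T p j : ℝ) ≤ p.n := flo e0 n0.le
  have n00 : (0 : ℝ) ≤ nn T p j := Nat.cast_nonneg _
  have fn0 := mul_nonneg e0.le n00
  have Am : p.m ≤ p.A * p.m := le_mul_of_one_le_left m0.le A1
  have mm : p.m ≤ 1 := by linarith
  have KC : 11 * T.C ≤ K * T.C := mul_le_mul_of_nonneg_right K1 C0.le
  have lz : lo0 O p 0 = -T.en := if_pos rfl
  have hz : hi0 O p T.M = T.en := if_neg (lt_irrefl _)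
  have l0 := ce (x := lo0 O p 0) e0
  have h0 := fl (x := hi0 O p T.M) e0
  have en : 29 * T.C ≤ T.en := by linarith [en_eq T, en_ge T, de_pos T]
  have wn : T.ε j / T.C * nn T p j ≤ 1 := by
    rw [div_mul_eq_mul_div, div_le_one C0]; linarith
  refine ⟨by linarith, vs_pos T j, eps_eq T j, K2, ?_, fm.trans (by linarith), ?_, ?_, K5, r1, ?_, ?_,
    ?_, ?_, ?_, ⟨div_pos e0 C0, ?_, wn⟩, ⟨zero_le_one, by show 1 ≤ K; linarith⟩, fun i hi => ?_,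
    fun c hc => ?_, ⟨?_, ?_⟩, ⟨O.fl.1, ?_⟩, ⟨O.fr.2.1, ?_⟩, by show 1 ≤ K * 24; linarith,
    fun c hc => ⟨(K8 c hc).1, (K8 c hc).2, K7, ϱ1⟩⟩
  · refine Nat.le_floor ?_
    rw [le_div_iff₀ e0]; push_cast
    show 40 * (nn T p j : ℝ) * _ ≤ _
    linarith
  · show 216 * (p.A * T.ε j) * (⌊p.m / T.ε j⌋₊ : ℝ) ≤ p.r
    linarith [mul_le_mul_of_nonneg_left fm (zero_le_one.trans A1)]
  · exact mul_le_mul_of_nonneg_right K3 e0.le
  · show 1 ≤ K * (T.ε j * (p.H / T.ε j))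
    rwa [mul_div_cancel₀ _ e0.ne']
  · show 4 * (p.H / T.ε j) ≤ p.R / T.ε j
    rw [← mul_div_assoc]; gcongr
  · show p.R / T.ε j ≤ (⌊p.n / T.ε j⌋₊ : ℝ)
    have a := (Nat.lt_floor_add_one (p.n / T.ε j)).le
    rw [div_le_iff₀ e0] at a ⊢
    linarith
  · show 9 * (nn T p j : ℝ) ≤ 10 * nn T p j ∧ 10 * (nn T p j : ℝ) ≤ 10 * nn T p j
    exact ⟨by linarith, le_rfl⟩
  · show |-(T.b j + T.ε j * (10 * nn T p j)) / T.C| ≤ K
    have b := abs_le.1 (T.loc.bC j)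
    rw [abs_div, abs_neg, abs_of_pos C0, div_le_iff₀ C0, abs_le]
    constructor <;> linarith [b.1, b.2]
  · show T.ε j / T.C ≤ K * T.ε j
    rw [div_le_iff₀ C0]
    linarith [mul_le_mul_of_nonneg_left (show 1 ≤ K * T.C by linarith) e0.le]
  · show ⌈lo0 O p i / T.ε j⌉ ≤ ⌊hi0 O p i / T.ε j⌋
    rw [Int.le_floor, le_div_iff₀ e0]
    linarith [(ce (x := lo0 O p i) e0).2, gap hd hi]
  · show ⌊hi0 O p c / T.ε j⌋ < ⌈lo0 O p (c + 1) / T.ε j⌉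
    have hc' : c < T.M := hc
    have d0 : 0 < dd O p c := by
      have := norm_pos_iff.2 (O.lv c hc).lim.κ0
      unfold dd; positivity
    have a1 : hi0 O p c = T.pos c - dd O p c := if_pos hc'
    have a2 : lo0 O p (c + 1) = T.pos c + dd O p c := if_neg (Nat.succ_ne_zero c)
    rw [Int.lt_ceil, lt_div_iff₀ e0]
    linarith [(fl (x := hi0 O p c) e0).2]
  · show T.ε j * |(⌈lo0 O p 0 / T.ε j⌉ : ℝ)| ≤ K
    rw [← abs_of_pos e0, ← abs_mul, abs_of_pos e0, abs_le]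
    constructor <;> linarith [l0.1, l0.2]
  · show T.ε j * |(⌊hi0 O p T.M / T.ε j⌋ : ℝ)| ≤ K
    rw [← abs_of_pos e0, ← abs_mul, abs_of_pos e0, abs_le]
    constructor <;> linarith [h0.1, h0.2]
  · show O.FL ≤ -(T.ε j / T.C * (⌈lo0 O p 0 / T.ε j⌉ : ℝ)) - 1 - T.ε j / T.C * nn T p j
    have : T.ε j / T.C * (⌈lo0 O p 0 / T.ε j⌉ : ℝ) ≤ -28 := by
      rw [div_mul_eq_mul_div, div_le_iff₀ C0]; linarith [l0.2]
    linarith [O.fl.2.1]
  · show -(T.ε j / T.C * (⌊hi0 O p T.M / T.ε j⌋ : ℝ)) + 1 + T.ε j / T.C * nn T p j ≤ O.FR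
    have : 28 ≤ T.ε j / T.C * (⌊hi0 O p T.M / T.ε j⌋ : ℝ) := by
      rw [div_mul_eq_mul_div, le_div_iff₀ C0]; linarith [h0.1]
    linarith [O.fr.1]

end NumA

theorem num : R_NUM := fun T O => (NumA.ok O).mono fun p K k => by
  filter_upwards [NumA.eps_sm T one_pos, NumA.eps_sm T (NumA.de_pos T), NumA.eps_sm T k.R0.1]
    with j a b c using NumA.num_of k a.le b.le c.le

end Vale.Agent.P097F.LC
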