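import Vale.Agent.P097F.LC.Gap
import Vale.Agent.P097F.LC.Num

/-!
# P097F/LC: the inverse of the charts
-/

set_option linter.all false

noncomputable section

namespace Vale.Agent.P097F.LC.H82

open Filter Topology Set Metric Complex Vale.Agent.P097F.N Vale.Agent.P097F.S Vale.Agent.P097D
open Vale.Agent.P097EE (C2)
open Gp57

theorem det_ne {L : C2 →L[ℂ] C2} (h : Function.Injective L) : det2 L ≠ 0 := fun e => by
  have k : ∀ v : C2, L v = 0 → v = 0 := fun v hv => h (hv.trans (map_zero L).symm)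
  unfold det2 at e
  have a := k ((L (0, 1)).1, -(L (1, 0)).1) (by
    rw [ap2]; ext <;> simp <;> first | ring1 | linear_combination -e)
  have b := k ((L (0, 1)).2, -(L (1, 0)).2) (by
    rw [ap2]; ext <;> simp <;> first | ring1 | linear_combination e)
  have c := k (1, 0) (Prod.ext (neg_eq_zero.1 (congrArg Prod.snd a))
    (neg_eq_zero.1 (congrArg Prod.snd b)))
  exact one_ne_zero (congrArg Prod.fst c)

theorem inv : R_INV := by
  intro T O
  obtain ⟨y₀, m₀, g₀⟩ := T.nz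
  have z := P097Mo.nz_of T.seq.op (convex_halfSpace_im_lt 0).isPreconnected T.seq.dg m₀ g₀
  obtain ⟨oO, -, -, sO⟩ := D.om T.E T.mx.ok
  have L0 : 0 < T.L := by nlinarith [T.LW, T.W1, T.loc.C1]
  obtain ⟨fm, eq⟩ := wom T.mx T.hα T.hβ T.hb L0 T.loc T.sU T.eqA
  have jc := fun q hq => jac T.seq.dg oO T.mx.fam hq (T.mx.ok.ne _ (sO q hq).1)
  have tf := tf_of T.loc
  have zc : ∀ q ∈ Wd T.a T.L (-T.E.b₀) T.ρ T.K T.C T.W T.H₀ T.b₀, Z0 T.Y q = Z0 T.F₀ q :=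
    fun q hq => z0_congr tf.op (fun q hq => (eq q hq).2) hq
  have W1 := T.W1
  have C1 := T.loc.C1
  obtain ⟨a, ha⟩ : ∃ a, a = 2 * T.W + 2 * T.C + |T.en| + 11 := ⟨_, rfl⟩
  have en0 := abs_nonneg T.en
  filter_upwards [eventually_mem_nhdsWithin, gap T O, num T O] with ϱ (ϱ0 : 0 < ϱ) hg hn
  obtain ⟨G, hG⟩ : ∃ G : Set ℝ, G = ⋃ k ∈ Finset.range (T.M + 1),
    Icc (lo0 O ⟨ϱ, 0, 0, 0, 0, 0, 0⟩ k) (hi0 O ⟨ϱ, 0, 0, 0, 0, 0, 0⟩ k) := ⟨_, rfl⟩
  have cG : IsCompact G := hG ▸ (Finset.range _).isCompact_biUnion fun _ _ => isCompact_Icc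
  have mG : ∀ t ∈ G, |t| ≤ T.en ∧ ∀ c < T.M, t ≠ T.pos c := fun t ht => by
    rw [hG] at ht
    obtain ⟨k, hk, ht⟩ := mem_iUnion₂.1 ht
    exact gap_t O ϱ0 (Nat.lt_succ_iff.1 (Finset.mem_range.1 hk)) ht
  have cS := cG.image (lp_cont (T := T) T.H₀)
  obtain ⟨δ, δ0, hδ⟩ := cS.exists_cthickening_subset_open oO (by
    rintro _ ⟨t, ht, rfl⟩
    exact lp_om (mG t ht).1 (mG t ht).2)
  have cf : ContinuousOn (fderiv ℂ (Z0 T.Y)) (cthickening δ (lq T T.H₀ '' G)) := fun q hq =>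
    (jc q (hδ hq)).1.fderiv.continuousAt.continuousWithinAt
  obtain ⟨β, hβ⟩ := (cS.cthickening (r := δ)).exists_bound_of_continuousOn cf
  obtain ⟨κ, κ0, hκ⟩ := (cS.cthickening (r := δ)).exists_forall_le' (a := 0)
    ((show Continuous fun L : C2 →L[ℂ] C2 => ‖det2 L‖ by unfold det2; fun_prop).comp_continuousOn
      cf) fun q hq => norm_pos_iff.2 (det_ne (jc q (hδ hq)).2.2)
  filter_upwards [eventually_mem_nhdsWithin, hg, hn] with r (r0 : 0 < r) hg hn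
  filter_upwards [eventually_gt_atTop 0, hg, hn] with A A0 hg hn
  obtain ⟨ϑ, ϑ0, hI⟩ := inv_C κ |β| A r a κ0 (abs_nonneg _) A0 r0 (by linarith)
  filter_upwards [eventually_mem_nhdsWithin, hg, hn] with m (m0 : 0 < m) hg hn
  filter_upwards [small (a := 10 * T.W) (lt_min one_pos (half_pos δ0)),
    small (a := 20) (mul_pos ϑ0 m0), hg, hn] with n ⟨n0, hn1⟩ ⟨_, hn2⟩ hg hn
  have n1 := hn1.le.trans (min_le_left _ _)
  have cS' := (isCompact_Icc (a := -T.en) (b := T.en)).image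
    (lp_cont (T := T) (T.H₀ - 10 * T.W * n))
  obtain ⟨δ', δ0', hδ'⟩ := cS'.exists_cthickening_subset_open tf.op (by
    rintro _ ⟨t, ht, rfl⟩
    exact lp_wd n0 n1 (abs_le.2 ht))
  obtain ⟨B, hB⟩ := (cS'.cthickening (r := δ')).exists_bound_of_continuousOn
    ((z0_an tf.an₀ tf.op).continuousOn.mono hδ')
  filter_upwards [small (a := (1 + |T.en|) * T.W) (lt_min (half_pos δ0') (half_pos δ0)),
    small (a := a ^ 2) (half_pos δ0'), hg, hn] with R ⟨R0, hR⟩ ⟨_, hR'⟩ hg hn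
  obtain ⟨η, η0, ε₀, ε1, h₁, h0, K₀, hI⟩ := hI (δ' / 2) R (2 * (|B| + 1)) (half_pos δ0') R0
    (by positivity)
  filter_upwards [small (a := 1) h0, hg, hn] with H ⟨_, hH⟩ hg hn
  filter_upwards [eventually_ge_atTop K₀, hg, hn] with K hK hg hn
  filter_upwards [hg, hn, pt_near ⟨ϱ, r, A, m, n, R, H⟩ n0 (by rw [← mul_assoc]; exact hR),
    tf.zu T.seq.e0 T.seq.el cS'.cthickening hδ' (lt_min η0 one_pos),
    tf.dyn T.seq z cS'.cthickening hδ' fun q hq => zc q (hδ' hq) ▸ (jc q (eq q (hδ' hq)).1).2.1,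
    NumA.eps_sm T ε1, NumA.eps_sm T (show 0 < ϑ * m / 2 / (2 + ϑ) by positivity),
    T.loc.lv.eventually (Ioo_mem_nhds (show 1 / 2 < T.W by linarith) (show T.W < 2 * T.W by linarith))]
    with j ⟨k0, _⟩ N k2 k3 k4 k5 k6 ⟨v1, v2⟩ i hi
  have ε0 := T.e0 j
  have C0 : 0 < T.C := by linarith
  have tG : T.ε j * i ∈ G := by
    obtain ⟨k, hk, a1, a2⟩ := hi
    have b1 := (div_le_iff₀ ε0).1 (Int.ceil_le.1 a1)
    have b2 := (le_div_iff₀ ε0).1 (Int.le_floor.1 a2)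
    rw [hG, mul_comm]
    exact mem_iUnion₂.2 ⟨k, Finset.mem_range.2 (Nat.lt_succ_of_le hk), b1, b2⟩
  have c1 := k2 i 0 (mG _ tG).1 (by rw [norm_zero]; positivity)
  have c2 : ‖lq T (T.H₀ - 10 * T.W * n) (T.ε j * i) - lq T T.H₀ (T.ε j * i)‖ ≤ δ / 2 := by
    have e : lq T (T.H₀ - 10 * T.W * n) (T.ε j * i) - lq T T.H₀ (T.ε j * i) =
        (0, ((-(10 * T.W * n) : ℝ) : ℂ) * I) := by
      simp only [lq, Prod.mk_sub_mk, sub_self]
      push_cast
      congr 1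
      ring
    have := mul_pos (W0 (T := T)) n0
    rw [e, Prod.norm_mk, norm_zero, norm_mul, norm_I, mul_one, norm_real, Real.norm_eq_abs,
      abs_neg, abs_of_pos (by linarith)]
    exact max_le (by linarith) (hn1.le.trans (min_le_right _ _))
  obtain ⟨x, hx⟩ : ∃ x, x = x0 T ⟨ϱ, r, A, m, n, R, H⟩ j + T.ε j * T.v j * i := ⟨_, rfl⟩
  have e0 : pt T ⟨ϱ, r, A, m, n, R, H⟩ j (i, 0) = ((T.v j : ℂ), x) := by simp [pt, hx]
  rw [e0] at c1
  have s1 := ball_cth (mem_image_of_mem _ (mem_Icc.2 (abs_le.1 (mG _ tG).1)))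
    (c1.trans (min_le_left _ _)) (add_halves δ').le
  have s0 := s1 (mem_ball_self (half_pos δ0'))
  have s2 : ((T.v j : ℂ), x) ∈ cthickening δ (lq T T.H₀ '' G) :=
    mem_cthickening_of_dist_le _ _ _ _ (mem_image_of_mem _ tG) (by
      rw [dist_eq_norm]
      exact (norm_sub_le_norm_sub_add_norm_sub _ _ _).trans
        ((add_le_add (c1.trans (min_le_right _ _)) c2).trans (by linarith)))
  have bz : ∀ q ∈ cthickening δ' (lq T (T.H₀ - 10 * T.W * n) '' Icc (-T.en) T.en),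
      ‖Zt (T.ε j) (T.F j) q‖ ≤ |B| + 1 := fun q hq => by
    linarith [norm_le_norm_sub_add (Zt (T.ε j) (T.F j) q) (Z0 T.F₀ q), (k3 q hq).2, hB q hq,
      le_abs_self B, min_le_right η 1]
  have fn : T.ε j * (nn T ⟨ϱ, r, A, m, n, R, H⟩ j : ℝ) ≤ n := NumA.flo ε0 n0.le
  have n00 : (0 : ℝ) ≤ nn T ⟨ϱ, r, A, m, n, R, H⟩ j := Nat.cast_nonneg _
  have fn0 := mul_nonneg ε0.le n00
  have n2 : n ≤ T.W * n := le_mul_of_one_le_left n0.le W1
  have m1 : |(md O ⟨ϱ, r, A, m, n, R, H⟩ j).m₁| ≤ 11 := by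
    show |-(T.b j + T.ε j * (10 * nn T _ j)) / T.C| ≤ 11
    have b := abs_le.1 (T.loc.bC j)
    rw [abs_div, abs_neg, abs_of_pos C0, div_le_iff₀ C0, abs_le]
    constructor <;> linarith [b.1, b.2]
  have nv : ‖(T.v j : ℂ)‖ = T.v j := by rw [norm_real, Real.norm_of_nonneg (by linarith)]
  have nc : ‖((T.v j / T.C : ℝ) : ℂ)‖ = T.v j / T.C := by
    rw [norm_real, Real.norm_of_nonneg (by positivity)]
  have eR : T.ε j * (R / T.ε j) = R := mul_div_cancel₀ _ ε0.ne'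
  obtain ⟨G', hG', -⟩ := hI (md O ⟨ϱ, r, A, m, n, R, H⟩ j).T (Zt (T.ε j) (T.F j)) (Z0 T.Y)
    ((md O ⟨ϱ, r, A, m, n, R, H⟩ j).C i) (fun ζ => (md O ⟨ϱ, r, A, m, n, R, H⟩ j).Z (i, ζ)) (T.v j) x
    (T.v j / T.C : ℝ) (T.ε j * i : ℝ) ⌊m / T.ε j⌋₊ (A * T.ε j) (R / T.ε j) (H / T.ε j)
    (10 * nn T ⟨ϱ, r, A, m, n, R, H⟩ j) (md O ⟨ϱ, r, A, m, n, R, H⟩ j).m₁ (T.ε j) K ε0 k5.le hK
    (by rw [mul_div_cancel₀ _ ε0.ne']; linarith) eR.ge (by rw [eR]; linarith) N.am le_rfl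
    (by
      have a1 := (div_lt_iff₀ ε0).1 (Nat.lt_floor_add_one (m / T.ε j))
      have a2 := (lt_div_iff₀ (by positivity)).1 k6
      have a3 := mul_le_mul_of_nonneg_left a1.le ϑ0.le
      rw [abs_of_nonneg (by positivity)]
      exact le_of_mul_le_mul_left (by linarith) ε0)
    (by
      have a1 : R / T.ε j ≤ nn T ⟨ϱ, r, A, m, n, R, H⟩ j := N.Rn
      have a2 : 40 * (nn T ⟨ϱ, r, A, m, n, R, H⟩ j : ℝ) ≤ ⌊m / T.ε j⌋₊ := by exact_mod_cast N.nm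
      have a3 := mul_le_mul_of_nonneg_right (add_le_add_left m1 1) (div_pos R0 ε0).le
      linarith)
    (by linarith) (by linarith) (by linarith [div_le_self (show 0 ≤ T.v j by linarith) C1])
    (by rw [norm_real, Real.norm_eq_abs]; linarith [(mG _ tG).1, le_abs_self T.en])
    (by
      rw [nv, nc, ← mul_div_assoc, ← mul_div_assoc, one_le_div C0]
      have a1 : 2 * (2 * T.C) ≤ a * a := mul_le_mul (by linarith) (by linarith) (by linarith)
        (by linarith)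
      have a2 : 1 / 2 * (1 / 2) ≤ T.v j * T.v j := mul_self_le_mul_self (by norm_num) v1.le
      have a3 := mul_le_mul a1 a2 (by norm_num) (mul_self_nonneg a)
      linarith)
    (fun q hq => ⟨(k3 q (s1 hq)).1, (jc q (eq q (hδ' (s1 hq))).1).1, by
      rw [zc q (hδ' (s1 hq))]; exact (k3 q (s1 hq)).2.le.trans (min_le_left _ _),
      (norm_sub_le _ _).trans (by linarith [bz q (s1 hq), bz _ s0])⟩)
    ((hβ _ s2).trans (le_abs_self _)) (hκ _ s2)
    (fun ζ => by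
      simp only [md, pt, al, hx]
      congr 2
      push_cast
      ring)
    (k4 _ s0).1 (fun ζ hζ => (k0 i hi ζ hζ).1) fun _ => rfl
  exact ⟨G', fun p hp q hq => ⟨((hG' p hp).2 q hq).1.differentiableAt, ((hG' p hp).2 q hq).2⟩⟩

end Vale.Agent.P097F.LC.H82
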