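import Vale.Agent.P097F.LC.Defs
import Vale.Agent.P097F.N.Obg

/-!
# P097F/LC: the patches exist
-/

set_option linter.all false

noncomputable section

namespace Vale.Agent.P097F.LC

open Filter Topology Set Metric Complex Vale.Agent.P097F.N Vale.Agent.P097D Vale.Agent.P097Mo

namespace TD

variable (T : TD)

theorem nzL : NZ T.E.g (Lo 0) := by
  obtain ⟨y, hy, k⟩ := T.nz
  exact nz_of T.seq.op (convex_halfSpace_im_lt 0).isPreconnected T.seq.dg hy k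

theorem Xn_eq {c : ℕ} (h : c < T.M) : T.Xn c = T.X ⟨c, h⟩ := dif_pos h

theorem P_eq {c : ℕ} (h : c < T.M) :
    T.P c = (T.Φ ⟨c, h⟩ (T.W, 0), T.Δ ⟨c, h⟩ (T.W, 0)) := dif_pos h

theorem sp {c : ℕ} (h : c < T.M) : Sp T.E.g (T.P c) (T.W ^ 3) ∧ (T.P c).1 ∈ Lo 0 := by
  have := T.obs.ρ0
  rw [T.P_eq h]
  exact ch_sp (T.obs.one ⟨c, h⟩).ch (by positivity) (mem_ball_self T.obs.σ0)

end TD

theorem ob : R_OB := fun T => by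
  have H : ∀ c : ℕ, ∃ (κ : ℂ) (r s B M : ℝ) (Ξ : ℕ → ℂ × ℂ → ℂ × ℂ) (Ξ₀ : ℂ × ℂ → ℂ × ℂ),
      c < T.M → LevS T.𝒰 T.g Ξ T.E.g Ξ₀ (T.P c) (T.W ^ 3) κ r s B ∧
        ball (T.P c).1 (2 * s) ⊆ Lo 0 ∧ 0 ≤ M ∧ QB T.𝒰 T.Q T.U (T.P c).1 s M := fun c => by
    by_cases h : c < T.M
    · obtain ⟨κ, B, M, s, -, M0, s0, k⟩ := levS T.seq T.nzL (T.sp h).2 (T.sp h).1
      obtain ⟨k1, k2, Ξ, Ξ₀, k3⟩ := k s s0 le_rfl
      exact ⟨κ, _, s, B, M, Ξ, Ξ₀, fun _ => ⟨k3, k1, M0, k2⟩⟩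
    · exact ⟨0, 0, 0, 0, 0, 0, 0, fun e => (h e).elim⟩
  choose κ r s B M Ξ Ξ₀ H using H
  obtain ⟨x, x1, x2, x3⟩ := avoid (fun c : Fin T.M => T.sl0 c) 24
  obtain ⟨y, y1, y2, y3⟩ := avoid (fun c : Fin T.M => T.sl0 c) (-25)
  exact ⟨⟨κ, r, s, B, M, Ξ, Ξ₀, x, y, fun c h => (H c h).1, fun c h => (H c h).2.1,
    fun c h => (H c h).2.2, ⟨x1.le, by linarith, fun c h => x3 ⟨c, h⟩⟩,
    y1.le, by linarith, fun c h => y3 ⟨c, h⟩⟩⟩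

end Vale.Agent.P097F.LC
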