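import Vale.Agent.P097F.LC.Defs
import Vale.Agent.P097F.N.Obg2
import Vale.Agent.P097F.N.Obl

/-!
# P097F/LC: the clocks at the checkpoints; the rows `GEO` and `SL`
-/

set_option linter.all false

noncomputable section

namespace Vale.Agent.P097F.LC

open Filter Topology Set Metric Complex Vale.Agent.P097F.N Vale.Agent.P097F.S Vale.Agent.P097D
open Vale.Agent.P097EE (C2)

theorem Ev.all {P : ℕ → Sc → ℝ → Prop} : ∀ M : ℕ, (∀ c < M, Ev (P c)) →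
    Ev fun p K => ∀ c < M, P c p K
  | 0, _ => by simp [Ev]
  | M + 1, h => ((Ev.all M fun c hc => h c (by omega)).and (h M (by omega))).mono
      fun p K k c hc => by
        rcases Nat.lt_succ_iff_lt_or_eq.1 hc with a | a
        · exact k.1 c a
        · exact a ▸ k.2

namespace Gq

variable (T : TD)

theorem el : Tendsto T.ε T.𝒰 (𝓝 0) := by
  simpa [Function.comp_def] using (continuous_re.tendsto _).comp T.seq.el

theorem sq_lim {u : ℕ → ℝ} {x : ℝ} (h : ∀ j, |u j - x / T.ε j| ≤ 1) :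
    Tendsto (fun j => T.ε j * u j) T.𝒰 (𝓝 x) := by
  refine tendsto_iff_dist_tendsto_zero.2 (squeeze_zero (fun _ => dist_nonneg) (fun j => ?_) (el T))
  have e := T.e0 j
  rw [Real.dist_eq, show T.ε j * u j - x = T.ε j * (u j - x / T.ε j) by field_simp, abs_mul,
    abs_of_pos e]
  exact mul_le_of_le_one_right e.le (h j)

theorem fl (x : ℝ) : Tendsto (fun j => T.ε j * (⌊x / T.ε j⌋ : ℤ)) T.𝒰 (𝓝 x) :=
  sq_lim T fun j => abs_le.2 ⟨by linarith [Int.lt_floor_add_one (x / T.ε j)],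
    by linarith [Int.floor_le (x / T.ε j)]⟩

theorem ce (x : ℝ) : Tendsto (fun j => T.ε j * (⌈x / T.ε j⌉ : ℤ)) T.𝒰 (𝓝 x) :=
  sq_lim T fun j => abs_le.2 ⟨by linarith [Int.le_ceil (x / T.ε j)],
    by linarith [Int.ceil_lt_add_one (x / T.ε j)]⟩

theorem nf {x : ℝ} (h : 0 ≤ x) : Tendsto (fun j => T.ε j * (⌊x / T.ε j⌋₊ : ℕ)) T.𝒰 (𝓝 x) :=
  sq_lim T fun j => abs_le.2 ⟨by linarith [Nat.lt_floor_add_one (x / T.ε j)],
    by linarith [Nat.floor_le (div_nonneg h (T.e0 j).le)]⟩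

theorem W0 : 0 < T.W := by linarith [T.W1]

theorem C0 : 0 < T.C := by linarith [T.loc.C1]

theorem L0 : 30 ≤ T.L := by nlinarith [T.LW, T.loc.C1, T.W1]

theorem wm : ∀ q ∈ Wd T.a T.L (-T.E.b₀) T.ρ T.K T.C T.W T.H₀ T.b₀, q ∈ T.E.Om ∧ T.Y q = T.F₀ q :=
  (wom T.mx T.hα T.hβ T.hb (by linarith [L0 T]) T.loc T.sU T.eqA).2

/-- the true families converge to the model family -/
theorem tf : Tf T.𝒰 (fun n => (T.ε n : ℂ)) T.θ T.h
    (fun n => Wd T.a T.L (-T.E.b₀) T.ρ T.K T.C (T.v n) (T.H n) (T.b n))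
    (Wd T.a T.L (-T.E.b₀) T.ρ T.K T.C T.W T.H₀ T.b₀) T.F T.Y :=
  have S := tf_of T.loc
  ⟨S.op, S.ex, S.an, S.law, fun q hq => T.mx.fam.an q (wm T q hq).1,
    fun q hq u hu => (wm T q hq).2 ▸ S.cc q hq u hu⟩

variable {T} (O : Ob T) {c : ℕ} (hc : c < T.M)
include hc

theorem top : (T.Xn c T.W).im = T.H₀ ∧ T.a - T.L + 1 ≤ (T.Xn c T.W).re ∧
    (T.Xn c T.W).re ≤ T.a + T.L - 1 := by
  simpa only [TD.Xn, dif_pos hc] using T.obs.top ⟨c, hc⟩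

theorem anX : AnalyticOnNhd ℂ (T.Xn c) (ball T.W T.σ) := by
  simpa only [TD.Xn, dif_pos hc] using (T.obs.one ⟨c, hc⟩).an

theorem κ0 : 0 < ‖O.κ c‖ := norm_pos_iff.2 (O.lv c hc).lim.κ0

theorem clm : ∃ δ > 0, δ ≤ T.σ ∧ δ ≤ 1 ∧ ∀ w x : ℂ, ‖w - T.W‖ < δ → ‖x - T.Xn c w‖ < δ →
    x.re ≠ (T.Xn c w).re → w ≠ 0 ∧ Clm T.E.g (O.Ξ₀ c) (T.P c) (T.W ^ 3) (O.r₀ c) (O.s c)
      (Z0 T.Y (w, x)) w ((x - T.Xn c w) / w) := by
  have Lv := (O.lv c hc).lim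
  simp only [TD.Xn, TD.P, dif_pos hc] at Lv ⊢
  obtain ⟨δ, a, b, d, k⟩ := one_clk (T.obs.one ⟨c, hc⟩) T.obs.σ0 T.obs.ρ0
    (ofReal_ne_zero.2 (W0 T).ne') Lv
  exact ⟨δ, a, b, by linarith [T.obs.lim.1, T.hα], fun w x h1 h2 h3 => k w x h1 h2 fun e => h3 e.1⟩

/-- the clocks near a checkpoint `X W + t - i h₀` -/
theorem ph : ∃ δ₁ > 0, ∀ ϱ t h₀ : ℝ, 0 < ϱ → ϱ ≤ O.r₀ c → |t| = T.W * (‖O.κ c‖ * ϱ ^ 2 / 4) →
    0 < h₀ → h₀ < |t| → 2 * |t| ≤ δ₁ → ∃ δ, Ph T.𝒰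
      (fun j => tzc (T.g j) (O.Ξ c j) (T.ε j) (T.F j)) (T.Xn c) (T.W, T.Xn c T.W - t - h₀ * I) δ ∧
      closedBall ((T.W : ℂ), T.Xn c T.W - t - h₀ * I) δ ⊆
        Wd T.a T.L (-T.E.b₀) T.ρ T.K T.C T.W T.H₀ T.b₀ := by
  obtain ⟨δ₁, δ0, δσ, δ1, k⟩ := clm O hc
  refine ⟨δ₁, δ0, fun ϱ t h₀ ϱ0 ϱ1 ht h0 h1 h2 => ?_⟩
  obtain ⟨x1, x2, x3⟩ := top hc
  have w0 := W0 T
  have k0 := κ0 O hc
  have aX := anX hc _ (mem_ball_self T.obs.σ0)
  set q₀ : C2 := ((T.W : ℂ), T.Xn c T.W - t - h₀ * I) with hq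
  have c1 : ContinuousAt (fun q : C2 => q.2 - T.Xn c q.1) q₀ :=
    continuousAt_snd.sub (ContinuousAt.comp (g := T.Xn c) aX.continuousAt continuousAt_fst)
  have e1 : q₀.2 - T.Xn c q₀.1 = -(t + h₀ * I) := by simp only [hq]; ring
  have n1 : |t| ≤ ‖q₀.2 - T.Xn c q₀.1‖ := by
    rw [e1, norm_neg]
    simpa using abs_re_le_norm (t + h₀ * I)
  have n2 : ‖q₀.2 - T.Xn c q₀.1‖ < 2 * |t| := by
    rw [e1, norm_neg]
    refine (norm_add_le _ _).trans_lt ?_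
    simp [abs_of_pos h0]
    linarith
  have c2 : ContinuousAt (fun q : C2 => ‖(q.2 - T.Xn c q.1) / q.1‖) q₀ :=
    (c1.div continuousAt_fst (ofReal_ne_zero.2 w0.ne')).norm
  have e2 : ‖(q₀.2 - T.Xn c q₀.1) / q₀.1‖ = ‖q₀.2 - T.Xn c q₀.1‖ / T.W := by
    rw [norm_div]
    simp [hq, abs_of_pos w0]
  have p0 : 0 < ‖O.κ c‖ * ϱ ^ 2 := by positivity
  have ta := abs_lt.1 (show |t| < 1 by linarith)
  have m : q₀ ∈ Wd T.a T.L (-T.E.b₀) T.ρ T.K T.C T.W T.H₀ T.b₀ := by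
    have := T.loc.hi
    have := mul_pos (C0 T) T.loc.ρ0
    have := mul_nonneg T.loc.K0 (sq_nonneg T.ρ)
    refine mem_wd.2 ⟨by simpa [hq] using T.loc.ρ0, abs_lt.2 ⟨?_, ?_⟩, ?_, ?_⟩ <;>
      simp [hq, tw, x1] <;> linarith
  have ev : ∀ᶠ q in 𝓝 q₀, q ∈ Wd T.a T.L (-T.E.b₀) T.ρ T.K T.C T.W T.H₀ T.b₀ ∧
      Obl T.E.g (O.Ξ₀ c) (T.P c) (T.W ^ 3) ϱ (O.s c) T.Y (T.Xn c) q := by
    filter_upwards [(wd_open ..).mem_nhds m, continuousAt_fst.eventually (ball_mem_nhds _ δ0),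
      c1.norm.eventually_lt continuousAt_const (n2.trans_le h2),
      (continuous_re.continuousAt.comp c1).eventually_ne (y := 0) (by
        simp only [Function.comp, e1]
        simpa using abs_pos.1 (h0.trans h1)),
      continuousAt_const.eventually_lt c2 (show ‖O.κ c‖ * ϱ ^ 2 / 32 < _ by
        rw [e2, lt_div_iff₀ w0]
        nlinarith),
      c2.eventually_lt continuousAt_const (show _ < ‖O.κ c‖ * ϱ ^ 2 / 2 by
        rw [e2, div_lt_iff₀ w0]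
        nlinarith),
      (((continuousAt_fst.pow 3).sub continuousAt_const).norm.eventually_lt continuousAt_const
        (show ‖q₀.1 ^ 3 - (T.W : ℂ) ^ 3‖ < ϱ / 2 by simpa [hq] using ϱ0))]
      with q a1 a2 a3 (a4 : (q.2 - T.Xn c q.1).re ≠ 0) a5 a6 a7
    obtain ⟨b1, b2⟩ := k q.1 q.2 (mem_ball_iff_norm.1 a2) a3 (sub_ne_zero.1 (by simpa using a4))
    exact ⟨a1, b2.obl (O.lv c hc).lim ϱ0 a5.le a6.le a7 b1
      (anX hc _ (ball_subset_ball δσ a2))⟩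
  obtain ⟨δ, d0, hd⟩ := Metric.nhds_basis_closedBall.eventually_iff.1 ev
  have S := (O.lv c hc).mono ϱ0 ϱ1
  have e0 := T.seq.e0
  have sb : ∀ w ∈ ball (T.W : ℂ) δ, (w, q₀.2) ∈ closedBall q₀ δ := fun w hw =>
    ball_subset_closedBall (mem_ball_prod.2 ⟨hw, mem_ball_self d0⟩)
  refine ⟨δ, ⟨d0, ?_, fun q hq u hu => ?_, fun w hw => (hd (sb w hw)).2.an,
    fun w hw => (hd (sb w hw)).2.w0⟩, fun q hq => (hd hq).1⟩
  · exact (tauK S (tf T) e0 T.seq.el (isCompact_closedBall q₀ δ) (fun q hq => (hd hq).1)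
      (fun q hq => (hd hq).2) one_pos).mono fun j k q hq => (k q (ball_subset_closedBall hq)).1
  · exact (tauZ S (tf T) e0 T.seq.el (hd (ball_subset_closedBall hq)).1
      (hd (ball_subset_closedBall hq)).2 hu).1

/-- the smallness of the sizes at the obstacle `c` -/
theorem og1 : ∀ᶠ ϱ in 𝓝[>] (0 : ℝ), 0 < ϱ ∧ T.W * (‖O.κ c‖ * ϱ ^ 2 / 4) ≤ 1 ∧
    ∀ p : Sc, p.ϱ = ϱ → 0 < p.n → 10 * p.n < dd O p c →
    ∃ δ, Og T.𝒰 (md O p) c T.ε T.v (fun j => T.v j / T.C) (x0 T p)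
      (fun j => tzc (T.g j) (O.Ξ c j) (T.ε j) (T.F j)) (T.Xn c) T.W (T.W / T.C) T.a
      (T.W * (10 * p.n)) (T.W * dd O p c) (T.W * dd O p c) δ := by
  obtain ⟨δ₁, δ0, k⟩ := ph O hc
  have t : Tendsto (fun ϱ : ℝ => 2 * (T.W * (‖O.κ c‖ * ϱ ^ 2 / 4))) (𝓝[>] 0) (𝓝 0) := by
    have := ((by fun_prop : Continuous fun ϱ : ℝ => 2 * (T.W * (‖O.κ c‖ * ϱ ^ 2 / 4))).tendsto
      0).mono_left (nhdsWithin_le_nhds (s := Ioi 0))
    simpa using this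
  have w0 := W0 T
  filter_upwards [self_mem_nhdsWithin, t.eventually_le_const δ0, t.eventually_le_const two_pos,
    (tendsto_id.mono_left nhdsWithin_le_nhds).eventually_le_const (O.lv c hc).lim.r0]
    with ϱ (a1 : 0 < ϱ) a2 a4 a3
  refine ⟨a1, by linarith, ?_⟩
  rintro p rfl n0 n1
  have d0 : 0 < T.W * dd O p c := mul_pos w0 (by linarith)
  obtain ⟨δ, P, -⟩ := k p.ϱ (T.W * dd O p c) (T.W * (10 * p.n)) a1 a3 (abs_of_pos d0)
    (by positivity) (by rw [abs_of_pos d0]; gcongr) (by rwa [abs_of_pos d0])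
  refine ⟨δ, T.e0, w0, T.loc.lv, T.loc.lv.div_const _, ?_, ?_, ?_, P, ?_⟩
  · have := T.loc.lH.sub (T.loc.lv.mul ((nf T n0.le).const_mul 10))
    rw [(top hc).1]
    refine (((continuous_ofReal.tendsto _).comp (this.congr fun j => ?_)).mul_const I).const_add _
    rw [nn]
    ring
  · have := fl T (hi0 O p c)
    rwa [show ((T.Xn c T.W).re - T.W * dd O p c - T.a) / T.W = hi0 O p c by
      rw [hi0, if_pos hc, TD.pos]; field_simp; ring]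
  · have := ce T (lo0 O p (c + 1))
    rwa [show ((T.Xn c T.W).re + T.W * dd O p c - T.a) / T.W = lo0 O p (c + 1) by
      rw [lo0, if_neg (by omega), Nat.add_sub_cancel, TD.pos]; field_simp; ring]
  · filter_upwards [T.loc.lv.eventually_ne w0.ne'] with j v0
    refine ⟨?_, fun ζ => ?_⟩
    · show T.ε j / T.C = _
      field_simp
    · show tzc (T.g j) (O.Ξ c j) (T.ε j) (T.F j) (pt T p j ((md O p j).hi c, ζ)) = _
      simp only [pt, al]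
      congr 2
      ring

theorem lt_dd {ϱ : ℝ} (h : 0 < ϱ) (k : ℝ) :
    ∀ᶠ x in 𝓝[>] (0 : ℝ), 0 < x ∧ k * x < ‖O.κ c‖ * ϱ ^ 2 / 4 := by
  have := κ0 O hc
  exact eventually_mem_nhdsWithin.and ((((by fun_prop : Continuous fun x : ℝ => k * x).tendsto
    0).mono_left nhdsWithin_le_nhds).eventually_lt_const (by rw [mul_zero]; positivity))

end Gq

/-- **the checkpoints** -/
theorem og (T : TD) (O : Ob T) : Ev fun p _ => ∀ c < T.M, T.W * dd O p c ≤ 1 ∧ 0 ≤ dd O p c ∧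
    ∃ δ, Og T.𝒰 (md O p) c T.ε T.v (fun j => T.v j / T.C) (x0 T p)
      (fun j => tzc (T.g j) (O.Ξ c j) (T.ε j) (T.F j)) (T.Xn c) T.W (T.W / T.C) T.a
      (T.W * (10 * p.n)) (T.W * dd O p c) (T.W * dd O p c) δ := by
  refine Ev.all T.M fun c hc => ?_
  filter_upwards [Gq.og1 O hc] with ϱ ⟨a1, a2, a3⟩
  refine Eventually.of_forall fun r => Eventually.of_forall fun A => Eventually.of_forall fun m => ?_
  filter_upwards [Gq.lt_dd O hc a1 10] with n ⟨b1, b2⟩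
  exact Eventually.of_forall fun R => Eventually.of_forall fun H => Eventually.of_forall fun K =>
    ⟨a2, by unfold dd; positivity, a3 _ rfl b1 b2⟩

theorem Gq.sl : R_SL := fun T O => (og T O).mono fun p _ k c hc => by
  obtain ⟨-, -, δ, G⟩ := k c hc
  have := G.sl
  have w0 := Gq.W0 T
  have c0 := Gq.C0 T
  rwa [show T.W / T.C * ((deriv (T.Xn c) T.W).re / T.W - ((T.Xn c T.W).re - T.a) / T.W ^ 2) =
    T.sl0 c by rw [TD.sl0, TD.pos]; field_simp] at this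

theorem geo : R_GEO := fun T O => by
  refine (Ev.all (P := fun c p K => ∀ᶠ j in (T.𝒰 : Filter ℕ), ∀ ζ : ℂ, ‖ζ‖ < (md O p j).R →
    ((md O p j).τ₀ c ζ).im ≤ -(T.ε j * (md O p j).n) ∧
    ((md O p j).τ₀ c ζ).re + T.ε j * (md O p j).m ≤ -(1 / K) ∧
    1 / K ≤ ((md O p j).τ₀ c ζ).re + T.ε j * (md O p j).N c - T.ε j * (md O p j).m ∧
    ‖(md O p j).τ₀ c ζ‖ + T.ε j * (md O p j).m ≤ ‖O.κ c‖ * p.ϱ ^ 2 / 2 ∧
    ‖(md O p j).τ₀ c ζ + T.ε j * (md O p j).N c‖ + T.ε j * (md O p j).m ≤ ‖O.κ c‖ * p.ϱ ^ 2 / 2)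
    T.M fun c hc => ?_).mono fun p K k => (eventually_all_finite (finite_Iio T.M)).2 k
  have w0 := Gq.W0 T
  filter_upwards [Gq.og1 O hc] with ϱ ⟨a1, _, a3⟩
  refine Eventually.of_forall fun r => Eventually.of_forall fun A => ?_
  filter_upwards [Gq.lt_dd O hc a1 2] with m ⟨m1, m2⟩
  filter_upwards [Gq.lt_dd O hc a1 20] with n ⟨b1, b2⟩
  obtain ⟨δ, G⟩ := a3 ⟨ϱ, r, A, m, n, 0, 0⟩ rfl b1 (by unfold dd; linarith)
  have e1 : ∀ x, T.W * x / T.W = x := fun x => mul_div_cancel_left₀ x w0.ne'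
  obtain ⟨ϑ, ϑ0, K₀, k⟩ := G.geo (Λ := ‖O.κ c‖ * ϱ ^ 2 / 2) (Gq.nf T b1.le) (Gq.nf T m1.le)
    (by positivity) (by rw [e1]; linarith) m1.le (by rw [e1, dd]; linarith)
    (by rw [e1, dd]; linarith) (by rw [← mul_add, e1, dd]; linarith)
    (by rw [← mul_add, e1, dd]; linarith)
  filter_upwards [(tendsto_id.mono_left nhdsWithin_le_nhds).eventually_le_const ϑ0] with R (hR : R ≤ ϑ)
  refine Eventually.of_forall fun H => ?_
  filter_upwards [eventually_ge_atTop K₀] with K hK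
  filter_upwards [k K hK] with j kj ζ (hζ : ‖ζ‖ < R / T.ε j)
  rw [lt_div_iff₀' (T.e0 j)] at hζ
  exact kj ζ (hζ.le.trans hR)

end Vale.Agent.P097F.LC
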