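import Vale.Agent.P097F.LC.Defs

/-!
# P097F/LC: the step maps in the patches
-/

set_option linter.all false

noncomputable section

namespace Vale.Agent.P097F.LC.H19

open Filter Topology Set Metric Complex Vale.Agent.P097F.N Vale.Agent.P097F.S Vale.Agent.P097D

theorem pat : R_PAT := by
  intro T O
  have h0 : ∀ᶠ ϱ in 𝓝[>] (0 : ℝ), ∀ c ∈ Iio T.M, ϱ ≤ O.r₀ c :=
    (eventually_all_finite (finite_Iio _)).2 fun c hc =>
      mem_nhdsWithin_of_mem_nhds (Iic_mem_nhds (O.lv c hc).lim.r0)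
  filter_upwards [h0, Ioc_mem_nhdsGT one_pos] with ϱ h1 h2
  refine .of_forall fun r => .of_forall fun A => .of_forall fun m => .of_forall fun n =>
    .of_forall fun R => .of_forall fun H => ?_
  have k : ∀ c ∈ Iio T.M, ∀ᶠ K in (atTop : Filter ℝ), ∀ᶠ j in (T.𝒰 : Filter ℕ),
      (PatchG (TT (T.θ j) (T.h j) (T.ε j)) (T.g j) (O.Ξ c j) (O.κ c) (T.W ^ 3) (T.ε j) ϱ
        (T.ς j ^ 10) (K * T.ς j ^ 240) ∧
      PatchG (TB (T.θ j) (T.h j) (T.ε j)) (T.g j) (O.Ξ c j) (O.κ c) (T.W ^ 3) (-T.ε j) ϱ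
        (T.ς j ^ 10) (K * T.ς j ^ 240)) ∧ ∀ q ∈ An (T.W ^ 3) ϱ (ϱ / 16),
        ∀ q' ∈ An (T.W ^ 3) ϱ (ϱ / 16),
          ‖Xv (T.g j) (O.Ξ c j) q - Xv (T.g j) (O.Ξ c j) q'‖ ≤ K * ‖q - q'‖ := fun c hc => by
    have S := (O.lv c hc).mono h2.1 (h1 c hc)
    obtain ⟨K₁, -, hK⟩ := LevS.pat S T.seq (O.qb c hc).1 (O.qb c hc).2
    filter_upwards [eventually_ge_atTop K₁, eventually_ge_atTop (4 * O.B c ^ 5 / (ϱ / 16) ^ 2)]
      with K k1 k2
    filter_upwards [hK, S.lip h2.2] with j p l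
    have s0 : 0 < T.ς j := Real.rpow_pos_of_pos (T.e0 j) _
    obtain ⟨p1, p2⟩ := p (T.ς j) s0 (by
      rw [norm_real, Real.norm_of_nonneg (T.e0 j).le, TD.ς, one_div]
      exact (Real.rpow_inv_natCast_pow (n := 220) (T.e0 j).le (by norm_num)).symm)
    exact ⟨⟨p1.mono (by gcongr), p2.mono (by gcongr)⟩,
      fun q hq q' hq' => (l q hq q' hq').trans (by gcongr)⟩
  filter_upwards [(eventually_all_finite (finite_Iio _)).2 k] with K hK
  filter_upwards [(eventually_all_finite (finite_Iio _)).2 hK] with j hj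
  exact ⟨fun c hc => (hj c hc).1, fun c hc q hq q' hq' _ => (hj c hc).2 q hq q' hq'⟩

end Vale.Agent.P097F.LC.H19
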