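import Vale.Agent.P097F.LC.Ob
import Vale.Agent.P097F.LC.Gap
import Vale.Agent.P097F.N.Geo
import Vale.Agent.P097F.N.Stn
import Vale.Agent.P097F.D.Om

/-!
# P097F/LC: elementary facts, limits of the stations and of the base points
-/

set_option linter.all false

noncomputable section

namespace Vale.Agent.P097F.LC

open Filter Topology Set Metric Complex Vale.Agent.P097F.N Vale.Agent.P097F.S Vale.Agent.P097D
open Vale.Agent.P097EE (C2)

namespace TD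

variable (T : TD)

/-- the limit wedge -/
abbrev Wg : Set C2 := Wd T.a T.L (-T.E.b₀) T.ρ T.K T.C T.W T.H₀ T.b₀

/-- the limit of the point of the time `0` -/
def x00 (n : ℝ) : ℂ := T.a + (T.H₀ - 10 * T.W * n : ℝ) * I

theorem el : Tendsto T.ε T.𝒰 (𝓝 0) := (continuous_re.tendsto _).comp T.seq.el

theorem ev_e {η : ℝ} (h : 0 < η) : ∀ᶠ j in (T.𝒰 : Filter ℕ), T.ε j < η :=
  T.el.eventually (gt_mem_nhds h)

theorem ec (j : ℕ) : (T.ε j : ℂ) ≠ 0 := T.seq.e0 j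

theorem vs0 (j : ℕ) : 0 < T.ς j := Real.rpow_pos_of_pos (T.e0 j) _

theorem vs_eq (j : ℕ) : T.ε j = T.ς j ^ 220 := by
  rw [ς, one_div]
  exact_mod_cast (Real.rpow_inv_natCast_pow (T.e0 j).le (by norm_num : (220 : ℕ) ≠ 0)).symm

theorem vs_ep (j : ℕ) : T.ε j = ep (T.ς j) := T.vs_eq j

theorem vs_lim : Tendsto T.ς T.𝒰 (𝓝 0) := by
  have := T.el.rpow_const (p := (1 : ℝ) / 220) (Or.inr (by norm_num))
  rwa [Real.zero_rpow (by norm_num)] at this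

theorem ev_s {η : ℝ} (h : 0 < η) : ∀ᶠ j in (T.𝒰 : Filter ℕ), T.ς j < η :=
  T.vs_lim.eventually (gt_mem_nhds h)

theorem W0 : 0 < T.W := by linarith [T.W1]

theorem Wc : (T.W : ℂ) ≠ 0 := ofReal_ne_zero.2 T.W0.ne'

theorem C1 : 1 ≤ T.C := T.loc.C1

theorem C0 : 0 < T.C := by linarith [T.C1]

theorem L30 : 30 ≤ T.L := by nlinarith [T.LW, T.C1, T.W1]

theorem r0 : 0 < T.ρ' := T.obs.ρ0

theorem r1 : T.ρ' ≤ 1 := by linarith [T.obs.lim.1, T.hα]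

theorem bH : T.E.b₀ + 2 ≤ T.H₀ := by
  have := T.loc.hi
  have := mul_nonneg T.C0.le T.loc.ρ0.le
  have := mul_nonneg T.loc.K0 (sq_nonneg T.ρ)
  linarith

theorem ev_v {η : ℝ} (h : 0 < η) : ∀ᶠ j in (T.𝒰 : Filter ℕ), |T.v j - T.W| < η :=
  (Metric.tendsto_nhds.1 T.loc.lv η h).mono fun j h => by rwa [Real.dist_eq] at h

theorem ev_H {η : ℝ} (h : 0 < η) : ∀ᶠ j in (T.𝒰 : Filter ℕ), |T.H j - T.H₀| < η :=
  (Metric.tendsto_nhds.1 T.loc.lH η h).mono fun j h => by rwa [Real.dist_eq] at h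

theorem ev_v2 : ∀ᶠ j in (T.𝒰 : Filter ℕ), T.W / 2 ≤ T.v j ∧ T.v j ≤ 2 * T.W :=
  (T.ev_v (η := 1 / 2) (by norm_num)).mono fun j h => by
    have := T.W1
    rw [abs_lt] at h
    constructor <;> linarith

theorem nzz : P097Mo.NZ T.E.g (Lo 0) := by
  obtain ⟨y, m, n⟩ := T.nz
  exact P097Mo.nz_of T.seq.op (convex_halfSpace_im_lt 0).isPreconnected T.seq.dg m n

theorem tf : Tf T.𝒰 (fun n => (T.ε n : ℂ)) T.θ T.h
    (fun n => Wd T.a T.L (-T.E.b₀) T.ρ T.K T.C (T.v n) (T.H n) (T.b n)) T.Wg T.F T.F₀ := tf_of T.loc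

theorem fam0 : D.Fam T.E.g T.F₀ T.Wg :=
  (wom T.mx T.hα T.hβ T.hb (by linarith [T.L30]) T.loc T.sU T.eqA).1

theorem wg_om : ∀ p ∈ T.Wg, p ∈ T.E.Om ∧ T.Y p = T.F₀ p :=
  (wom T.mx T.hα T.hβ T.hb (by linarith [T.L30]) T.loc T.sU T.eqA).2

theorem om_op : IsOpen T.E.Om := (D.om _ T.mx.ok).1

theorem om_ne : ∀ q ∈ T.E.Om, q.1 ≠ 0 := fun q h => T.mx.ok.ne _ ((D.om _ T.mx.ok).2.2.2 q h).1

theorem ball_ne : ∀ w ∈ ball (T.W : ℂ) T.ρ, w ≠ 0 := fun w h => T.mx.ok.ne _ (T.sU h)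

theorem z0_eq {q : C2} (h : q ∈ T.Wg) : Z0 T.Y q = Z0 T.F₀ q :=
  z0_congr (wd_open ..) (fun p hp => (T.wg_om p hp).2) h

variable {c c' : ℕ}

theorem Xn_an (h : c < T.M) : AnalyticOnNhd ℂ (T.Xn c) (ball T.W T.σ) :=
  T.Xn_eq h ▸ (T.obs.one _).an

theorem Xn_at (h : c < T.M) : AnalyticAt ℂ (T.Xn c) T.W := T.Xn_an h _ (mem_ball_self T.obs.σ0)

theorem Xn_im (h : c < T.M) : (T.Xn c T.W).im = T.H₀ := T.Xn_eq h ▸ (T.obs.top _).1

theorem Xn_re (c : ℕ) : (T.Xn c T.W).re = T.a + T.W * T.pos c := by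
  rw [pos, mul_div_cancel₀ _ T.W0.ne']; ring

theorem Xn_W (h : c < T.M) : T.Xn c T.W = T.a + T.W * T.pos c + T.H₀ * I :=
  Complex.ext (by simp [T.Xn_re]) (by simp [T.Xn_im h])

theorem pos_bd (h : c < T.M) : |T.W * T.pos c| ≤ T.L - 1 := by
  have := (T.obs.top ⟨c, h⟩).2
  rw [← T.Xn_eq h, T.Xn_re] at this
  exact abs_le.2 ⟨by linarith, by linarith⟩

theorem pos_sep (h : c < c') (h' : c' < T.M) : T.W * T.pos c + 4 * T.ρ' ≤ T.W * T.pos c' := by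
  have := T.obs.sep ⟨c, h.trans h'⟩ ⟨c', h'⟩ h
  rw [← T.Xn_eq, ← T.Xn_eq, T.Xn_re, T.Xn_re] at this
  linarith

theorem pos_le (h : c ≤ c') (h' : c' < T.M) : T.pos c ≤ T.pos c' := by
  rcases h.eq_or_lt with rfl | h
  · rfl
  · exact le_of_mul_le_mul_left (by linarith [T.pos_sep h h', T.r0]) T.W0

theorem en_eq : T.W * T.en = T.L - 1 + T.ρ' / 4 := mul_div_cancel₀ _ T.W0.ne'

theorem en0 : 0 < T.en := div_pos (by linarith [T.L30, T.r0]) T.W0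

theorem en_le : T.en ≤ T.L := by nlinarith [T.en_eq, T.en0, T.W1, T.r1]

theorem pos_en (h : c < T.M) : |T.pos c| + T.ρ' / (4 * T.W) ≤ T.en := by
  have := T.pos_bd h
  rw [abs_mul, abs_of_pos T.W0] at this
  have e : T.W * (T.ρ' / (4 * T.W)) = T.ρ' / 4 := by have := T.W0; field_simp
  exact le_of_mul_le_mul_left (by rw [T.en_eq, mul_add, e]; linarith) T.W0

end TD

theorem ce_bd {e : ℝ} (e0 : 0 < e) (x : ℝ) : x ≤ e * ⌈x / e⌉ ∧ e * ⌈x / e⌉ < x + e := by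
  have a1 := Int.le_ceil (x / e)
  have a2 := Int.ceil_lt_add_one (x / e)
  rw [div_le_iff₀ e0] at a1
  have a3 := mul_lt_mul_of_pos_left a2 e0
  rw [mul_add, mul_div_cancel₀ _ e0.ne'] at a3
  constructor <;> linarith

theorem sq_lim {l : Filter ℕ} {e u : ℕ → ℝ} {x : ℝ} (he : Tendsto e l (𝓝 0))
    (h : ∀ j, x - e j ≤ u j ∧ u j ≤ x + e j) : Tendsto u l (𝓝 x) :=
  tendsto_of_tendsto_of_tendsto_of_le_of_le (by simpa using he.const_sub x)
    (by simpa using he.const_add x) (fun j => (h j).1) fun j => (h j).2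

variable {T : TD} (O : Ob T) (p : Sc)

theorem lo_bd (j i : ℕ) : lo0 O p i ≤ T.ε j * (md O p j).lo i ∧
    T.ε j * (md O p j).lo i < lo0 O p i + T.ε j := ce_bd (T.e0 j) _

theorem hi_bd (j i : ℕ) : hi0 O p i - T.ε j < T.ε j * (md O p j).hi i ∧
    T.ε j * (md O p j).hi i ≤ hi0 O p i := fl_bd (T.e0 j) _

theorem nn_bd (h : 0 ≤ p.n) (j : ℕ) : p.n - T.ε j < T.ε j * nn T p j ∧ T.ε j * nn T p j ≤ p.n :=
  fln_bd (T.e0 j) h

theorem mm_bd (h : 0 ≤ p.m) (j : ℕ) : p.m - T.ε j < T.ε j * (md O p j).m ∧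
    T.ε j * (md O p j).m ≤ p.m := fln_bd (T.e0 j) h

theorem lo_lim (i : ℕ) : Tendsto (fun j => T.ε j * (md O p j).lo i) T.𝒰 (𝓝 (lo0 O p i)) :=
  sq_lim T.el fun j => ⟨by linarith [lo_bd O p j i, T.e0 j], (lo_bd O p j i).2.le⟩

theorem hi_lim (i : ℕ) : Tendsto (fun j => T.ε j * (md O p j).hi i) T.𝒰 (𝓝 (hi0 O p i)) :=
  sq_lim T.el fun j => ⟨(hi_bd O p j i).1.le, by linarith [hi_bd O p j i, T.e0 j]⟩

theorem nn_lim (h : 0 ≤ p.n) : Tendsto (fun j => T.ε j * nn T p j) T.𝒰 (𝓝 p.n) :=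
  fln_lim h T.e0 T.el

theorem mm_lim (h : 0 ≤ p.m) : Tendsto (fun j => T.ε j * (md O p j).m) T.𝒰 (𝓝 p.m) :=
  fln_lim h T.e0 T.el

theorem lo0_zero : lo0 O p 0 = -T.en := if_pos rfl

theorem lo0_succ (c : ℕ) : lo0 O p (c + 1) = T.pos c + dd O p c := if_neg c.succ_ne_zero

theorem hi0_lt {c : ℕ} (h : c < T.M) : hi0 O p c = T.pos c - dd O p c := if_pos h

theorem hi0_last : hi0 O p T.M = T.en := if_neg (lt_irrefl _)

theorem dd_nn (c : ℕ) : 0 ≤ dd O p c := by unfold dd; positivity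

theorem Ob.k0 {c : ℕ} (h : c < T.M) : 0 < ‖O.κ c‖ := norm_pos_iff.2 (O.lv c h).lim.κ0

theorem dd_pos (h0 : 0 < p.ϱ) {c : ℕ} (h : c < T.M) : 0 < dd O p c := by
  have := O.k0 h
  unfold dd; positivity

theorem x0_re (T : TD) (j : ℕ) : (x0 T p j).re = T.a := by simp [x0]

theorem x0_im (T : TD) (j : ℕ) : (x0 T p j).im = T.H j - T.ε j * T.v j * (10 * nn T p j) := by
  simp only [x0, add_im, ofReal_im, mul_im, ofReal_re, I_im, I_re]; ring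

theorem dep_lim (T : TD) (h : 0 ≤ p.n) :
    Tendsto (fun j => T.H j - T.ε j * T.v j * (10 * nn T p j)) T.𝒰 (𝓝 (T.H₀ - 10 * T.W * p.n)) :=
  (T.loc.lH.sub ((T.loc.lv.const_mul 10).mul (fln_lim h T.e0 T.el))).congr fun j => by
    unfold nn; ring

theorem x0_lim (T : TD) (h : 0 ≤ p.n) : Tendsto (x0 T p) T.𝒰 (𝓝 (T.x00 p.n)) :=
  (((continuous_ofReal.tendsto _).comp (dep_lim p T h)).mul_const I).const_add _

theorem vc_lim (T : TD) : Tendsto (fun j => (T.v j : ℂ)) T.𝒰 (𝓝 T.W) :=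
  (continuous_ofReal.tendsto _).comp T.loc.lv

theorem al_lim (T : TD) : Tendsto (fun j => al T j / T.ε j) T.𝒰 (𝓝 (T.W / T.C : ℝ)) :=
  ((continuous_ofReal.tendsto _).comp (T.loc.lv.div_const T.C)).congr fun j => by
    rw [al, mul_div_cancel_left₀ _ (T.ec j)]; rfl

theorem al_norm (T : TD) (j : ℕ) (ζ : ℂ) : ‖al T j * ζ‖ = |T.v j| / T.C * (T.ε j * ‖ζ‖) := by
  rw [al, norm_mul, norm_mul, norm_real, norm_real, Real.norm_of_nonneg (T.e0 j).le, norm_div,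
    Real.norm_of_nonneg T.C0.le, Real.norm_eq_abs]
  ring

/-- the change of the step -/
theorem al_le (T : TD) : ∀ᶠ j in (T.𝒰 : Filter ℕ), ∀ ζ : ℂ,
    ‖al T j * ζ‖ ≤ 2 * T.W * (T.ε j * ‖ζ‖) := T.ev_v2.mono fun j h ζ => by
  have := T.W0
  have := T.e0 j
  rw [al_norm, abs_of_nonneg (by linarith)]
  exact mul_le_mul_of_nonneg_right ((div_le_self (by linarith) T.C1).trans h.2) (by positivity)

theorem md_Z (j : ℕ) (q : C2) : (md O p j).Z q = Zt (T.ε j) (T.F j) (pt T p j q) := rfl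

theorem lt_R (j : ℕ) (x : ℝ) : x < (md O p j).R ↔ T.ε j * x < p.R := by
  rw [mul_comm]; exact lt_div_iff₀ (T.e0 j)

theorem pt_N (T : TD) (j : ℕ) (q : C2) :
    pt T p j q = N.pt (T.ε j) (T.v j / T.C) (T.v j) (x0 T p j) q := rfl

/-- the limit of the points -/
theorem pt_lim (T : TD) (h : 0 ≤ p.n) {s ζ : ℕ → ℂ} {t u : ℂ}
    (hs : Tendsto (fun j => T.ε j * s j) T.𝒰 (𝓝 t)) (hz : Tendsto (fun j => al T j * ζ j) T.𝒰 (𝓝 u)) :
    Tendsto (fun j => pt T p j (s j, ζ j)) T.𝒰 (𝓝 (T.W + u, T.x00 p.n + (T.W + u) * t)) :=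
  ((vc_lim T).add hz).prodMk_nhds (((x0_lim p T h).add (((vc_lim T).add hz).mul hs)).congr
    fun j => by simp only [pt]; ring)

theorem hi_limC (i : ℕ) :
    Tendsto (fun j => (T.ε j : ℂ) * ((md O p j).hi i : ℂ)) T.𝒰 (𝓝 (hi0 O p i : ℝ)) :=
  ((continuous_ofReal.tendsto _).comp (hi_lim O p i)).congr fun j => by simp

theorem lo_limC (i : ℕ) :
    Tendsto (fun j => (T.ε j : ℂ) * ((md O p j).lo i : ℂ)) T.𝒰 (𝓝 (lo0 O p i : ℝ)) :=
  ((continuous_ofReal.tendsto _).comp (lo_lim O p i)).congr fun j => by simp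

/-- the times of the gaps stay away from the obstacles -/
theorem gap_far {ϱ : ℝ} (h0 : 0 < ϱ) : ∃ d > 0, ∀ p : Sc, p.ϱ = ϱ → ∀ j i, (md O p j).Gap i →
    |T.ε j * i| ≤ T.en ∧ ∀ c < T.M, d ≤ |T.ε j * i - T.pos c| := by
  obtain ⟨d, d0, hd⟩ : ∃ d > 0, ∀ c < T.M, d ≤ ‖O.κ c‖ * ϱ ^ 2 / 4 := by
    have : ∀ᶠ d in 𝓝[>] (0 : ℝ), ∀ c ∈ Finset.range T.M, d ≤ ‖O.κ c‖ * ϱ ^ 2 / 4 :=
      (Finset.eventually_all _).2 fun c hc => nhdsWithin_le_nhds (ge_mem_nhds (by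
        have := O.k0 (Finset.mem_range.1 hc); positivity))
    obtain ⟨d, a, b⟩ := (this.and self_mem_nhdsWithin).exists
    exact ⟨d, b, fun c hc => a c (Finset.mem_range.2 hc)⟩
  refine ⟨d, d0, fun p e j i ⟨k, hk, a1, a2⟩ => ?_⟩
  have hM : k ≤ T.M := hk
  have b1 : lo0 O p k ≤ T.ε j * i := (lo_bd O p j k).1.trans
    (mul_le_mul_of_nonneg_left (by exact_mod_cast a1) (T.e0 j).le)
  have b2 : T.ε j * i ≤ hi0 O p k := le_trans
    (mul_le_mul_of_nonneg_left (by exact_mod_cast a2) (T.e0 j).le) (hi_bd O p j k).2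
  have hd' : ∀ c < T.M, d ≤ dd O p c := fun c hc => by rw [dd, e]; exact hd c hc
  have q0 : 0 ≤ T.ρ' / (4 * T.W) := by have := T.r0; have := T.W0; positivity
  refine ⟨abs_le.2 ⟨?_, ?_⟩, fun c hc => ?_⟩
  · rcases k with _ | k
    · rwa [lo0_zero] at b1
    · rw [lo0_succ] at b1
      linarith [T.pos_en (c := k) hM, neg_abs_le (T.pos k), dd_nn O p k]
  · rcases hM.eq_or_lt with rfl | h
    · rwa [hi0_last] at b2
    · rw [hi0_lt O p h] at b2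
      linarith [T.pos_en h, le_abs_self (T.pos k), dd_nn O p k]
  · rcases lt_or_ge c k with h | h
    · obtain ⟨k, rfl⟩ : ∃ k', k = k' + 1 := ⟨k - 1, by omega⟩
      rw [lo0_succ] at b1
      exact le_abs.2 (Or.inl (by linarith [T.pos_le (Nat.lt_succ_iff.1 h) hM, hd' k hM]))
    · rw [hi0_lt O p (h.trans_lt hc)] at b2
      exact le_abs.2 (Or.inr (by linarith [T.pos_le h hc, hd' k (h.trans_lt hc)]))

/-- the horizontal range -/
theorem hor_bd (h : 0 ≤ p.n) (j : ℕ) {s : ℂ} (hs : (md O p j).Hor s) :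
    |T.ε j * s.re| ≤ T.en + 9 * p.n := by
  have a1 := mul_le_mul_of_nonneg_left hs.1 (T.e0 j).le
  have a2 := mul_le_mul_of_nonneg_left hs.2 (T.e0 j).le
  have b1 := (lo_bd O p j 0).1
  have b2 := (hi_bd O p j T.M).2
  have b3 : T.ε j * (md O p j).n ≤ p.n := (nn_bd p h j).2
  rw [lo0_zero] at b1
  rw [hi0_last] at b2
  have e : (md O p j).M = T.M := rfl
  rw [e] at a2
  exact abs_le.2 ⟨by linarith, by linarith⟩

/-- **the geometry of the machine** -/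
theorem gm36 (T : TD) : ∀ᶠ n in 𝓝[>] (0 : ℝ), ∀ (O : Ob T) (p : Sc), p.n = n →
    ∀ᶠ j in (T.𝒰 : Filter ℕ), Gm (T.ε j) (T.v j / T.C) (T.v j) (T.H j) (T.b j) T.C T.a T.L
      (T.L + 1) (x0 T p j) (T.F j) (md O p j) := by
  have W0 := T.W0
  have L0 := T.L30
  filter_upwards [Ioo_mem_nhdsGT (show (0 : ℝ) < 1 / (200 * T.W) by positivity)] with n hn O p e
  have n0 : 0 ≤ p.n := e ▸ hn.1.le
  have n1 : p.n * (200 * T.W) < 1 := e ▸ (lt_div_iff₀ (by positivity)).1 hn.2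
  have n2 : 200 * p.n ≤ 1 := by nlinarith [T.W1]
  filter_upwards [T.ev_v2, T.ev_v (η := 1 / (8 * (T.L + 1))) (by positivity)] with j ⟨v1, v2⟩ v3
  have v0 : 0 < T.v j := by linarith
  have C0 := T.C0
  have a1 := (nn_bd (T := T) p n0 j).2
  refine ⟨T.e0 j, by positivity, by linarith [T.W1], fun _ => rfl, ?_, ?_, ?_, x0_im p T j,
    ⟨?_, le_rfl⟩, ?_, fun s hs => ?_⟩
  · show T.ε j / T.C = _
    field_simp
  · show (1 : ℝ) = _
    field_simp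
  · show -(T.b j + T.ε j * (10 * nn T p j)) / T.C = -(T.b j * (T.v j / T.C) / T.v j) -
      T.v j / T.C * T.ε j * (10 * nn T p j) / T.v j
    field_simp
    ring
  · show 9 * (nn T p j : ℝ) ≤ 10 * nn T p j
    linarith [(nn T p j).cast_nonneg (α := ℝ)]
  · show 40 * (T.ε j * nn T p j) * T.v j ≤ 1
    calc _ ≤ 40 * p.n * (2 * T.W) := by gcongr
      _ ≤ 1 := by nlinarith
  · have b1 := hor_bd O p n0 j hs
    have b2 : |T.ε j * s.re| ≤ T.L + 1 := by linarith [T.en_le]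
    refine ⟨?_, b2⟩
    have b3 : |(T.v j - T.W) * (T.ε j * s.re)| ≤ 1 / (8 * (T.L + 1)) * (T.L + 1) := by
      rw [abs_mul]; gcongr
    have b4 : |T.W * (T.ε j * s.re)| ≤ T.W * (T.en + 9 * p.n) := by
      rw [abs_mul, abs_of_pos W0]; gcongr
    rw [show 1 / (8 * (T.L + 1)) * (T.L + 1) = 1 / 8 by field_simp] at b3
    rw [mul_add, T.en_eq] at b4
    rw [x0_re, show T.a + T.ε j * T.v j * s.re - T.a =
      (T.v j - T.W) * (T.ε j * s.re) + T.W * (T.ε j * s.re) by ring]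
    linarith [abs_add_le ((T.v j - T.W) * (T.ε j * s.re)) (T.W * (T.ε j * s.re)), T.r1]

/-- a time near an obstacle, in the coordinates of the obstacle -/
theorem lq_eq {c : ℕ} (h : c < T.M) (n u : ℝ) :
    Gp57.lq T (T.H₀ - 10 * T.W * n) (T.pos c + u) =
      ((T.W : ℂ), T.Xn c T.W + T.W * (u - 10 * n * I)) := by
  rw [T.Xn_W h, Gp57.lq]
  push_cast
  congr 1
  ring

theorem gap_hi {j c : ℕ} (h : c < T.M) (h1 : (md O p j).lo c ≤ (md O p j).hi c) :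
    (md O p j).Gap ((md O p j).hi c) := ⟨c, h.le, h1, le_rfl⟩

/-- **the checkpoints**: near the limit points, for all labels -/
theorem ck_near (n0 : 0 ≤ p.n) {δ : ℝ} (hR : 2 * T.W * p.R * (1 + (T.L + 1)) < δ) {t : ℝ}
    (ht : |t| ≤ T.L) {i : ℕ → ℤ} (hi : Tendsto (fun j => T.ε j * i j) T.𝒰 (𝓝 t)) :
    ∀ᶠ j in (T.𝒰 : Filter ℕ), ∀ ζ : ℂ, ‖ζ‖ < (md O p j).R →
      ‖pt T p j (i j, ζ) - Gp57.lq T (T.H₀ - 10 * T.W * p.n) t‖ < δ := by
  have a1 := pt_lim p T n0 (s := fun j => (i j : ℂ)) (ζ := fun _ => 0) (t := t) (u := 0)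
    (((continuous_ofReal.tendsto _).comp hi).congr fun j => by simp) (by simp)
  have e : ((T.W : ℂ) + 0, T.x00 p.n + (T.W + 0) * t) = Gp57.lq T (T.H₀ - 10 * T.W * p.n) t := by
    rw [TD.x00, Gp57.lq]; congr 1 <;> ring
  rw [e] at a1
  have L0 := T.L30
  have W0 := T.W0
  filter_upwards [Metric.tendsto_nhds.1 a1 _ (sub_pos.2 hR), al_le T,
    Metric.tendsto_nhds.1 hi 1 one_pos] with j b1 b2 b3 ζ hζ
  have b4 : ‖al T j * ζ‖ ≤ 2 * T.W * p.R :=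
    (b2 ζ).trans (mul_le_mul_of_nonneg_left ((lt_R O p j _).1 hζ).le (by positivity))
  have b5 : |T.ε j * i j| ≤ T.L + 1 := by
    rw [Real.dist_eq] at b3
    linarith [abs_sub_abs_le_abs_sub (T.ε j * i j) t]
  have b6 : pt T p j (i j, ζ) - pt T p j (i j, 0) =
      (al T j * ζ, al T j * ζ * (T.ε j * i j : ℝ)) := by
    simp only [pt, Prod.mk_sub_mk]; push_cast; congr 1 <;> ring
  have b0 := (norm_nonneg _).trans b4
  have b7 : ‖pt T p j (i j, ζ) - pt T p j (i j, 0)‖ ≤ 2 * T.W * p.R * (1 + (T.L + 1)) := by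
    rw [b6, Prod.norm_def]
    refine max_le (b4.trans (le_mul_of_one_le_right b0 (by linarith))) ?_
    rw [norm_mul, norm_real, Real.norm_eq_abs]
    exact mul_le_mul b4 (by linarith) (abs_nonneg _) b0
  rw [dist_eq_norm] at b1
  linarith [norm_sub_le_norm_sub_add_norm_sub (pt T p j (i j, ζ)) (pt T p j (i j, 0))
    (Gp57.lq T (T.H₀ - 10 * T.W * p.n) t)]

end Vale.Agent.P097F.LC
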