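import Vale.Agent.P097F.LC.Defs
import Vale.Agent.P097F.N.Stn

/-!
# P097F/LC: the base points of the gaps lie in compact sets
-/

set_option linter.all false

noncomputable section

namespace Vale.Agent.P097F.LC.P2

open Filter Topology Set Metric Complex Vale.Agent.P097F.N Vale.Agent.P097F.S Vale.Agent.P097D
open Vale.Agent.P097EE (C2)

/-- the limit wedge -/
abbrev Wd0 (T : TD) : Set C2 := Wd T.a T.L (-T.E.b₀) T.ρ T.K T.C T.W T.H₀ T.b₀

/-- a compact set which reaches the top and stays away from the slits -/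
def Kg (T : TD) (d η : ℝ) : Set C2 := {q | ‖q.1 - T.W‖ ≤ η ∧
  |q.2.re - T.a| ≤ T.L - 1 + T.ρ' / 2 ∧ |q.2.im - T.H₀| ≤ T.ρ' / 2 ∧
  ∀ c, d ≤ |q.2.re - (T.X c T.W).re|}

/-- the limit point of the window time `t` at the depth `10 n W` -/
def mp (T : TD) (n : ℝ) (t : ℂ) : C2 := (T.W, T.a + (T.H₀ - 10 * n * T.W : ℝ) * I + T.W * t)

variable (T : TD)

theorem el : Tendsto T.ε T.𝒰 (𝓝 0) := by
  simpa [Function.comp_def] using (Complex.continuous_re.tendsto _).comp T.seq.el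

theorem rho1 : T.ρ' ≤ 1 := by
  have := T.obs.lim.1
  rw [T.hα] at this
  linarith

theorem kg_cpt (d η : ℝ) : IsCompact (Kg T d η) := by
  refine Metric.isCompact_of_isClosed_isBounded ?_ ?_
  · simp only [Kg, setOf_and, setOf_forall]
    refine IsClosed.inter ?_ (IsClosed.inter ?_ (IsClosed.inter ?_ (isClosed_iInter fun c => ?_)))
    all_goals
      apply isClosed_le <;> fun_prop
  · refine (isBounded_closedBall (x := ((T.W : ℂ), (⟨T.a, T.H₀⟩ : ℂ)))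
      (r := η + (T.L - 1 + T.ρ' / 2) + T.ρ' / 2)).subset fun q ⟨h1, h2, h3, _⟩ => ?_
    have n : ‖q.2 - ⟨T.a, T.H₀⟩‖ ≤ |q.2.re - T.a| + |q.2.im - T.H₀| :=
      norm_le_abs_re_add_abs_im _
    rw [mem_closedBall, Prod.dist_eq, max_le_iff, dist_eq_norm, dist_eq_norm]
    have := norm_nonneg (q.1 - T.W)
    have := abs_nonneg (q.2.re - T.a)
    have := abs_nonneg (q.2.im - T.H₀)
    constructor <;> simp only <;> linarith

theorem kg_om {d : ℝ} (d0 : 0 < d) : ∃ η > 0, Kg T d η ⊆ T.E.Om := by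
  have o := T.obs
  have a : ∀ᶠ w in 𝓝 (T.W : ℂ), w ∈ ball (T.W : ℂ) T.σ ∧ ∀ c, dist (T.X c w) (T.X c T.W) < d :=
    (show ∀ᶠ w in 𝓝 (T.W : ℂ), w ∈ ball (T.W : ℂ) T.σ from ball_mem_nhds _ o.σ0).and
      (eventually_all.2 fun c => Metric.tendsto_nhds.1
        ((o.one c).an _ (mem_ball_self o.σ0)).continuousAt d d0)
  obtain ⟨η, η0, hη⟩ := Metric.nhds_basis_closedBall.eventually_iff.1 a
  refine ⟨η, η0, fun q ⟨h1, h2, h3, h4⟩ => ?_⟩
  obtain ⟨k1, k2⟩ := hη (mem_closedBall_iff_norm.2 h1)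
  have l := o.lim.2.2
  have ρ0 := o.ρ0
  rw [T.hb] at l
  rw [abs_le] at h2 h3
  refine (o.om q.1 k1 q.2 ⟨by linarith, by linarith, by linarith, by linarith⟩).2 fun c hc => ?_
  have := (abs_re_le_norm _).trans_lt (mem_ball_iff_norm.1 (k2 c))
  rw [sub_re, ← hc.1] at this
  linarith [h4 c]

theorem wpos (c : Fin T.M) : T.W * T.pos c = (T.X c T.W).re - T.a := by
  have := T.W1
  rw [TD.pos, TD.Xn, dif_pos c.2]
  field_simp

theorem wen : T.W * T.en = T.L - 1 + T.ρ' / 4 := by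
  have := T.W1
  rw [TD.en]
  field_simp

theorem pos_mono {c c' : ℕ} (h : c ≤ c') (h' : c' < T.M) : T.pos c ≤ T.pos c' := by
  rcases h.eq_or_lt with rfl | e
  · exact le_rfl
  have W0 : 0 < T.W := by linarith [T.W1]
  have a := wpos T ⟨c, e.trans h'⟩
  have b := wpos T ⟨c', h'⟩
  have s := T.obs.sep ⟨c, e.trans h'⟩ ⟨c', h'⟩ e
  exact le_of_mul_le_mul_left (by linarith [T.obs.ρ0]) W0

theorem pos_en {c : ℕ} (h : c < T.M) : |T.pos c| ≤ T.en := by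
  have W0 : 0 < T.W := by linarith [T.W1]
  have a := wpos T ⟨c, h⟩
  have b := wen T
  obtain ⟨-, s1, s2⟩ := T.obs.top ⟨c, h⟩
  have := T.obs.ρ0
  exact abs_le.2 ⟨le_of_mul_le_mul_left (by linarith) W0, le_of_mul_le_mul_left (by linarith) W0⟩

variable {T} (O : Ob T)

theorem dd_nn (p : Sc) (c : ℕ) : 0 ≤ dd O p c := by unfold dd; positivity

/-- the window time of a base point -/
theorem gap_t {p : Sc} {j : ℕ} {i : ℤ} (h : (md O p j).Gap i) {d : ℝ}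
    (hd : ∀ c < T.M, d ≤ dd O p c) :
    |T.ε j * i| ≤ T.en ∧ ∀ c < T.M, d ≤ |T.ε j * i - T.pos c| := by
  obtain ⟨k, kM, h1, h2⟩ := h
  have e0 := T.e0 j
  change k ≤ T.M at kM
  have a1 : lo0 O p k ≤ T.ε j * i := by
    have := Int.ceil_le.1 h1
    rwa [div_le_iff₀' e0] at this
  have a2 : T.ε j * i ≤ hi0 O p k := by
    have := Int.le_floor.1 h2
    rwa [le_div_iff₀' e0] at this
  refine ⟨abs_le.2 ⟨le_trans ?_ a1, a2.trans ?_⟩, fun c hc => ?_⟩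
  · unfold lo0
    split_ifs with z
    · exact le_rfl
    · linarith [(abs_le.1 (pos_en T (show k - 1 < T.M by omega))).1, dd_nn O p (k - 1)]
  · unfold hi0
    split_ifs with z
    · linarith [(abs_le.1 (pos_en T z)).2, dd_nn O p k]
    · exact le_rfl
  · rcases lt_or_ge c k with z | z
    · rw [lo0, if_neg (by omega)] at a1
      linarith [pos_mono T (show c ≤ k - 1 by omega) (by omega), hd (k - 1) (by omega),
        le_abs_self (T.ε j * i - T.pos c)]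
    · rw [hi0, if_pos (by omega)] at a2
      linarith [pos_mono T z hc, hd k (by omega), neg_abs_le (T.ε j * i - T.pos c)]

theorem dd_low {ϱ : ℝ} (ϱ0 : 0 < ϱ) : ∃ d > 0, ∀ p : Sc, p.ϱ = ϱ → ∀ c < T.M, d ≤ dd O p c := by
  have a : ∀ᶠ d in 𝓝[>] (0 : ℝ), ∀ c : Fin T.M, d < ‖O.κ c‖ * ϱ ^ 2 / 4 :=
    eventually_all.2 fun c => nhdsWithin_le_nhds (gt_mem_nhds (by
      have := norm_pos_iff.2 (O.lv c c.2).lim.κ0
      positivity))
  obtain ⟨d, k, d0⟩ := (a.and self_mem_nhdsWithin).exists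
  exact ⟨d, d0, fun p e c hc => by rw [dd, e]; exact (k ⟨c, hc⟩).le⟩

variable (T)

theorem nn_lim {p : Sc} (n0 : 0 ≤ p.n) :
    Tendsto (fun j => T.ε j * (nn T p j : ℝ)) T.𝒰 (𝓝 p.n) := fln_lim n0 T.e0 (el T)

theorem x0_lim {p : Sc} (n0 : 0 ≤ p.n) :
    Tendsto (x0 T p) T.𝒰 (𝓝 (T.a + (T.H₀ - 10 * p.n * T.W : ℝ) * I)) := by
  have a := T.loc.lH.sub (((nn_lim T n0).const_mul 10).mul T.loc.lv)
  have b : Tendsto (fun j => T.H j - T.ε j * T.v j * (10 * nn T p j)) T.𝒰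
      (𝓝 (T.H₀ - 10 * p.n * T.W)) := a.congr fun j => by ring
  exact (((continuous_ofReal.tendsto _).comp b).mul_const I).const_add _

/-- the points of the machine are near their limit points -/
theorem pt_near {η Λ : ℝ} (η0 : 0 < η) (Λ1 : 1 ≤ Λ) : ∀ᶠ R in 𝓝[>] (0 : ℝ), ∀ p : Sc, 0 ≤ p.n →
    ∀ᶠ j in (T.𝒰 : Filter ℕ), ∀ s ζ : ℂ, T.ε j * ‖s‖ ≤ Λ → T.ε j * ‖ζ‖ ≤ R →
      dist (pt T p j (s, ζ)) (mp T p.n (T.ε j * s)) ≤ η := by
  have W1 := T.W1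
  have C1 := T.loc.C1
  filter_upwards [nhdsWithin_le_nhds (gt_mem_nhds (show (0 : ℝ) < η / (8 * Λ * T.W) by positivity))]
    with R hR p n0
  filter_upwards [Metric.tendsto_nhds.1 (x0_lim T n0) (η / 2) (by positivity),
    Metric.tendsto_nhds.1 T.loc.lv (min 1 (η / (4 * Λ))) (by positivity)] with j k1 k2 s ζ hs hζ
  have e0 := T.e0 j
  rw [Real.dist_eq, lt_min_iff] at k2
  rw [lt_div_iff₀ (by positivity)] at hR
  have k3 := (lt_div_iff₀ (by positivity)).1 k2.2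
  have v2 : |T.v j / T.C| ≤ 2 * T.W := by
    rw [abs_div, abs_of_pos (by linarith : 0 < T.C)]
    refine (div_le_self (abs_nonneg _) C1).trans ?_
    have := abs_lt.1 k2.1
    exact abs_le.2 ⟨by linarith, by linarith⟩
  have b1 : ‖al T j * ζ‖ ≤ 2 * T.W * R := by
    rw [al, norm_mul, norm_mul, Complex.norm_real, Complex.norm_real, Real.norm_of_nonneg e0.le,
      Real.norm_eq_abs, mul_right_comm, mul_comm]
    exact mul_le_mul v2 hζ (by positivity) (by positivity)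
  have b2 : ‖(T.v j + al T j * ζ : ℂ) - T.W‖ * Λ ≤ η / 2 := by
    have : ‖(T.v j + al T j * ζ : ℂ) - T.W‖ ≤ |T.v j - T.W| + 2 * T.W * R := by
      rw [add_sub_right_comm, ← Complex.ofReal_sub]
      exact (norm_add_le _ _).trans (by rw [Complex.norm_real, Real.norm_eq_abs]; linarith)
    nlinarith
  have n1 := norm_nonneg ((T.v j + al T j * ζ : ℂ) - T.W)
  rw [dist_eq_norm] at k1
  rw [Prod.dist_eq, max_le_iff, dist_eq_norm, dist_eq_norm]
  refine ⟨by simp only [pt, mp]; nlinarith, ?_⟩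
  have e : (pt T p j (s, ζ)).2 - (mp T p.n (T.ε j * s)).2 =
      (x0 T p j - (T.a + (T.H₀ - 10 * p.n * T.W : ℝ) * I)) +
        ((T.v j + al T j * ζ : ℂ) - T.W) * (T.ε j * s) := by
    simp only [pt, mp]; ring
  rw [e]
  refine (norm_add_le _ _).trans ?_
  rw [norm_mul, norm_mul, Complex.norm_real, Real.norm_of_nonneg e0.le]
  linarith [mul_le_mul_of_nonneg_left hs n1]

/-- the neighbourhood of a limit point -/
theorem mp_in {d η n δ t : ℝ} (hn : 40 * n * T.W ≤ T.ρ') (δ0 : 0 ≤ δ) (δ1 : δ ≤ 1)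
    (h1 : δ ≤ η) (h2 : 4 * δ ≤ T.ρ') (h3 : 2 * δ ≤ d) (h4 : 2 * δ ≤ T.ρ)
    (h5 : (1 + 2 * T.C + T.K) * δ ≤ 9 * n) (t1 : |t| ≤ T.en) (t2 : ∀ c < T.M, d ≤ |t - T.pos c|)
    {q : C2} (hq : dist q (mp T n t) ≤ δ) : q ∈ Kg T (d / 2) η ∧
      q ∈ Wk T.a (T.L - 1 / 2) (-T.E.b₀ - 1 / 2) (T.ρ / 2) T.K T.C T.W T.H₀ T.b₀ n := by
  have W1 := T.W1
  have K0 := T.loc.K0
  have C1 := T.loc.C1
  have n0 : 0 ≤ n := by nlinarith
  have nW := mul_le_mul_of_nonneg_left W1 n0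
  rw [Prod.dist_eq, max_le_iff, dist_eq_norm, dist_eq_norm] at hq
  obtain ⟨a1, a2⟩ := hq
  change ‖q.1 - T.W‖ ≤ δ at a1
  have r := abs_le.1 ((abs_re_le_norm _).trans a2)
  have i := abs_le.1 ((abs_im_le_norm _).trans a2)
  have er : (mp T n t).2.re = T.a + T.W * t := by simp [mp]
  have ei : (mp T n t).2.im = T.H₀ - 10 * n * T.W := by simp [mp]
  rw [sub_re, er] at r
  rw [sub_im, ei] at i
  have b1 : |T.W * t| ≤ T.L - 1 + T.ρ' / 4 := by
    rw [← wen, abs_mul, abs_of_pos (by linarith)]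
    exact mul_le_mul_of_nonneg_left t1 (by linarith)
  rw [abs_le] at b1
  have ρ1 := rho1 T
  have l := T.obs.lim.2.2
  rw [T.hb] at l
  have tw1 := (tw_ge (H := T.H₀) K0 (loc_b T.loc) a1).1
  have sq : T.K * δ ^ 2 ≤ T.K * δ := mul_le_mul_of_nonneg_left (by nlinarith) K0
  refine ⟨⟨a1.trans h1, abs_le.2 ⟨by linarith, by linarith⟩, abs_le.2 ⟨by linarith, by linarith⟩,
    fun c => ?_⟩, by linarith, abs_le.2 ⟨by linarith, by linarith⟩, by linarith, by linarith⟩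
  have b2 : d ≤ |T.W * t - T.W * T.pos c| := by
    rw [← mul_sub, abs_mul, abs_of_pos (by linarith : 0 < T.W)]
    nlinarith [t2 c c.2, abs_nonneg (t - T.pos c)]
  rw [wpos] at b2
  rcases le_abs.1 b2 with z | z <;> apply le_abs.2
  · left; linarith
  · right; linarith

variable {T}

/-- **the base points of the gaps** -/
theorem base {ϱ : ℝ} (ϱ0 : 0 < ϱ) : ∃ G : Set C2, IsCompact G ∧ G ⊆ T.E.Om ∧
    ∀ᶠ n in 𝓝[>] (0 : ℝ), ∃ (Kc : Set C2) (δ : ℝ), IsCompact Kc ∧ Kc ⊆ Wd0 T ∧ 0 < δ ∧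
    ∀ᶠ R in 𝓝[>] (0 : ℝ), ∀ p : Sc, p.ϱ = ϱ → p.n = n → p.R = R →
    ∀ᶠ j in (T.𝒰 : Filter ℕ), ∀ i, (md O p j).Gap i → ∀ ζ : ℂ, ‖ζ‖ ≤ (md O p j).R →
      ∀ q ∈ closedBall (pt T p j (i, ζ)) δ, q ∈ G ∧ q ∈ Kc := by
  obtain ⟨d, d0, hd⟩ := dd_low O ϱ0
  obtain ⟨η, η0, hη⟩ := kg_om T (half_pos d0)
  have W1 := T.W1
  have K0 := T.loc.K0
  have C1 := T.loc.C1
  have ρ0 := T.loc.ρ0
  have ρ1 := T.obs.ρ0
  refine ⟨_, kg_cpt T _ _, hη, ?_⟩
  filter_upwards [nhdsWithin_le_nhds (gt_mem_nhds (show (0 : ℝ) < T.ρ' / (40 * T.W) by positivity)),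
    self_mem_nhdsWithin] with n hn n0
  replace n0 : 0 < n := n0
  rw [lt_div_iff₀ (by positivity)] at hn
  obtain ⟨δ, δ0, δ1, h1, h2, h3, h4, h5⟩ : ∃ δ : ℝ, 0 < δ ∧ δ ≤ 1 ∧ δ ≤ η ∧ δ ≤ T.ρ' / 4 ∧
      δ ≤ d / 2 ∧ δ ≤ T.ρ / 2 ∧ δ ≤ 9 * n / (1 + 2 * T.C + T.K) := by
    simp only [← le_min_iff]
    exact ⟨_, by positivity, le_rfl⟩
  rw [le_div_iff₀' (by positivity)] at h5
  refine ⟨_, δ / 2, wk_cpt T.a (T.L - 1 / 2) (-T.E.b₀ - 1 / 2) (T.ρ / 2) T.C T.W T.H₀ T.b₀ n K0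
    (loc_b T.loc), wk_sub (by linarith) (by linarith) (by linarith) n0, half_pos δ0, ?_⟩
  filter_upwards [pt_near T (half_pos δ0) (le_max_left 1 T.en)] with R hR p e1 e2 e3
  filter_upwards [hR p (e2 ▸ n0.le)] with j k i hi ζ hζ q hq
  obtain ⟨t1, t2⟩ := gap_t O hi (hd p e1)
  have e0 := T.e0 j
  have k1 := k i ζ (by
    rw [Complex.norm_intCast, ← abs_of_pos e0, ← abs_mul]; exact t1.trans (le_max_right _ _))
    (by rw [← e3]; exact (le_div_iff₀' e0).1 hζ)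
  refine mp_in T (by linarith) δ0.le δ1 h1 (by linarith) (by linarith) (by linarith) h5 t1 t2 ?_
  rw [e2] at k1
  push_cast
  linarith [dist_triangle q (pt T p j (i, ζ)) (mp T n (T.ε j * i)), mem_closedBall.1 hq]

end Vale.Agent.P097F.LC.P2
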