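import Vale.Agent.P097F.LC.Defs
import Vale.Agent.P097F.N.Obg

/-!
# P097F/LC: the slopes are separated and central
-/

set_option linter.all false

noncomputable section

namespace Vale.Agent.P097F.LC

open Filter Topology Set Metric Complex Vale.Agent.P097F.N Vale.Agent.P097F.S Vale.Agent.P097D

namespace SepA

theorem evρ {P : ℝ → Prop} (h : ∀ᶠ x in 𝓝[>] (0 : ℝ), P x) : Ev fun p _ => P p.ϱ :=
  h.mono fun _ k => .of_forall fun _ => .of_forall fun _ => .of_forall fun _ => .of_forall fun _ =>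
    .of_forall fun _ => .of_forall fun _ => .of_forall fun _ => k

theorem evK {P : ℝ → Prop} (h : ∀ᶠ x in atTop, P x) : Ev fun _ K => P K :=
  .of_forall fun _ => .of_forall fun _ => .of_forall fun _ => .of_forall fun _ =>
    .of_forall fun _ => .of_forall fun _ => .of_forall fun _ => h

theorem evf {α : Type} {l : Filter α} {M : ℕ} {P : ℕ → α → Prop}
    (h : ∀ c < M, ∀ᶠ x in l, P c x) : ∀ᶠ x in l, ∀ c < M, P c x :=
  (eventually_all_finite (finite_lt_nat M)).2 h

theorem big {x : ℝ} (h : x ≠ 0) : ∀ᶠ K in atTop, 1 < K * |x| :=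
  (tendsto_id.atTop_mul_const (abs_pos.2 h)).eventually_gt_atTop 1

variable (T : TD)

theorem an {c : ℕ} (hc : c < T.M) : AnalyticAt ℂ (T.Xn c) T.W := by
  rw [TD.Xn, dif_pos hc]
  exact (T.obs.one ⟨c, hc⟩).an _ (mem_ball_self T.obs.σ0)

theorem re_le {c : ℕ} (hc : c < T.M) : |(deriv (T.Xn c) T.W).re| ≤ T.C := by
  have C1 := T.loc.C1
  have W1 := T.W1
  have L0 : 0 < T.L := by nlinarith [T.LW]
  have w := (wom T.mx T.hα T.hβ T.hb L0 T.loc T.sU T.eqA).2
  rw [TD.Xn, dif_pos hc]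
  exact (slope T.loc.ρ0 T.hα T.hβ T.mx.ok.lt T.obs (fun p hp => (w p hp).1) ⟨c, hc⟩).2.2

theorem ne {c c' : ℕ} (hc : c < T.M) (hc' : c' < T.M) (h : c ≠ c') : T.sl0 c - T.sl0 c' ≠ 0 := by
  have C0 : T.C ≠ 0 := by linarith [T.loc.C1]
  have W0 : T.W ≠ 0 := by linarith [T.W1]
  have k := sl_ne (an T hc) (an T hc') W0 T.obs.σ0
    (fun u hu => by simpa only [TD.Xn, dif_pos hc, dif_pos hc'] using T.lev ⟨c, hc⟩ ⟨c', hc'⟩ u hu)
    (by simpa only [TD.Xn, dif_pos hc, dif_pos hc'] using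
      T.sep ⟨c, hc⟩ ⟨c', hc'⟩ fun e => h (congrArg Fin.val e))
  intro e
  apply k
  simp only [TD.sl0, TD.pos] at e
  field_simp at e ⊢
  linarith

theorem el : Tendsto T.ε T.𝒰 (𝓝 0) := by
  simpa [Function.comp_def] using (continuous_re.tendsto _).comp T.seq.el

theorem fl (x : ℝ) : Tendsto (fun j => T.ε j * (⌊x / T.ε j⌋ : ℤ)) T.𝒰 (𝓝 x) := by
  refine tendsto_of_tendsto_of_tendsto_of_le_of_le (g := fun j => x - T.ε j) (h := fun _ => x)
    (by simpa using (el T).const_sub x) tendsto_const_nhds (fun j => ?_) fun j => ?_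
  · have e := T.e0 j
    have := mul_lt_mul_of_pos_left (Int.sub_one_lt_floor (x / T.ε j)) e
    rw [mul_sub, mul_div_cancel₀ _ e.ne'] at this
    simp only
    linarith
  · have e := T.e0 j
    have := mul_le_mul_of_nonneg_left (Int.floor_le (x / T.ε j)) e.le
    rwa [mul_div_cancel₀ _ e.ne'] at this

theorem ce (x : ℝ) : Tendsto (fun j => T.ε j * (⌈x / T.ε j⌉ : ℤ)) T.𝒰 (𝓝 x) := by
  have := (fl T (-x)).neg
  simpa [neg_div, Int.floor_neg] using this

end SepA

open SepA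

theorem sep (hS : R_SL) : R_SEP := by
  intro T O
  have C1 := T.loc.C1
  have h1 : Ev fun p _ => ∀ c < T.M, ‖O.κ c‖ * p.ϱ ^ 2 / 4 < 1 :=
    evρ (P := fun x => ∀ c < T.M, ‖O.κ c‖ * x ^ 2 / 4 < 1) (evf fun c _ => by
      have : Tendsto (fun x : ℝ => ‖O.κ c‖ * x ^ 2 / 4) (𝓝 0) (𝓝 (‖O.κ c‖ * 0 ^ 2 / 4)) :=
        (by fun_prop : Continuous fun x : ℝ => ‖O.κ c‖ * x ^ 2 / 4).tendsto 0
      exact (this.eventually_lt_const (by simp)).filter_mono nhdsWithin_le_nhds)
  have h2 : Ev fun _ K => ∀ c < T.M, 1 < K * |T.sl0 c - O.FL| ∧ 1 < K * |T.sl0 c - O.FR| ∧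
      ∀ c' < T.M, c ≠ c' → 1 < K * |T.sl0 c - T.sl0 c'| :=
    evK (evf fun c hc => (big (sub_ne_zero.2 (O.fl.2.2 c hc))).and
      ((big (sub_ne_zero.2 (O.fr.2.2 c hc))).and (evf fun c' hc' => by
        by_cases e : c = c'
        · exact .of_forall fun _ k => absurd e k
        · exact (big (ne T hc hc' e)).mono fun _ k _ => k)))
  refine ((hS T O).and (h1.and h2)).mono fun p K ⟨s, d, k⟩ => Eventually.and
    (evf (M := T.M) fun c hc => ?_) (evf (M := T.M) fun c hc => ?_)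
  · refine Eventually.and ?_ (Eventually.and ?_ (evf (M := T.M) fun c' hc' => ?_))
    · exact ((((s c hc).sub_const O.FL).abs.const_mul K).eventually_const_lt (k c hc).1).mono
        fun _ => le_of_lt
    · exact ((((s c hc).sub_const O.FR).abs.const_mul K).eventually_const_lt (k c hc).2.1).mono
        fun _ => le_of_lt
    · by_cases e : c = c'
      · exact .of_forall fun _ k => absurd e k
      · exact ((((s c hc).sub (s c' hc')).abs.const_mul K).eventually_const_lt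
          ((k c hc).2.2 c' hc' e)).mono fun _ k _ => k.le
  · have r := abs_le.1 (re_le T hc)
    have d1 := d c hc
    have d0 : 0 ≤ ‖O.κ c‖ * p.ϱ ^ 2 / 4 := by positivity
    have C0 : 0 < T.C := by linarith
    have b : ∀ x : ℝ, |x| ≤ ‖O.κ c‖ * p.ϱ ^ 2 / 4 → |T.sl0 c + (T.pos c + x) / T.C| < 3 := by
      intro x hx
      have hx := abs_le.1 hx
      rw [TD.sl0, ← add_div, abs_div, abs_of_pos C0, div_lt_iff₀ C0, abs_lt]
      constructor <;> linarith
    have t1 := ((s c hc).add ((fl T (hi0 O p c)).div_const T.C)).abs.eventually_lt_const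
      (u := 3) (by
        rw [hi0, if_pos hc, sub_eq_add_neg]
        exact b _ (by rw [abs_neg, dd, abs_of_nonneg d0]))
    have t2 := ((s c hc).add ((ce T (lo0 O p (c + 1))).div_const T.C)).abs.eventually_lt_const
      (u := 3) (by
        rw [lo0, if_neg (Nat.succ_ne_zero c), Nat.add_sub_cancel]
        exact b _ (by rw [dd, abs_of_nonneg d0]))
    filter_upwards [t1, t2] with j a1 a2
    rw [mul_div_right_comm] at a1 a2
    exact ⟨a1.le, a2.le⟩

end Vale.Agent.P097F.LC
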