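import Vale.Agent.P097F.LC.Defs
import Vale.Agent.P097F.N.Obl
import Vale.Agent.P097F.N.Obg

/-!
# P097F/LC: the checkpoints of the obstacles, the limit of the slopes
-/

set_option linter.all false

noncomputable section

namespace Vale.Agent.P097F.LC

open Filter Topology Set Metric Complex Vale.Agent.P097F.N Vale.Agent.P097F.S Vale.Agent.P097D
open Vale.Agent.P097EE (C2)

namespace St

variable {T : TD} (O : Ob T)

theorem eps (T : TD) : Tendsto T.ε T.𝒰 (𝓝 0) := (continuous_re.tendsto 0).comp T.seq.el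

theorem near (T : TD) {x : ℝ} {k : ℕ → ℝ} (h : ∀ j, |k j - x / T.ε j| ≤ 1) :
    Tendsto (fun j => T.ε j * k j) T.𝒰 (𝓝 x) := by
  refine tendsto_iff_dist_tendsto_zero.2 (squeeze_zero (fun _ => dist_nonneg) (fun j => ?_) (eps T))
  have e := T.e0 j
  rw [Real.dist_eq, show T.ε j * k j - x = T.ε j * (k j - x / T.ε j) by field_simp, abs_mul,
    abs_of_pos e]
  exact mul_le_of_le_one_right e.le (h j)

theorem fl (T : TD) (x : ℝ) : Tendsto (fun j => T.ε j * (⌊x / T.ε j⌋ : ℤ)) T.𝒰 (𝓝 x) :=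
  near T fun j => abs_le.2 ⟨by linarith [Int.lt_floor_add_one (x / T.ε j)],
    by linarith [Int.floor_le (x / T.ε j)]⟩

theorem cl (T : TD) (x : ℝ) : Tendsto (fun j => T.ε j * (⌈x / T.ε j⌉ : ℤ)) T.𝒰 (𝓝 x) :=
  near T fun j => abs_le.2 ⟨by linarith [Int.le_ceil (x / T.ε j)],
    by linarith [Int.ceil_lt_add_one (x / T.ε j)]⟩

theorem nfl (T : TD) {x : ℝ} (h : 0 ≤ x) :
    Tendsto (fun j => T.ε j * (⌊x / T.ε j⌋₊ : ℕ)) T.𝒰 (𝓝 x) :=
  near T fun j => abs_le.2 ⟨by linarith [Nat.lt_floor_add_one (x / T.ε j)],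
    by linarith [Nat.floor_le (div_nonneg h (T.e0 j).le)]⟩

theorem x0_lim (T : TD) {p : Sc} (h : 0 ≤ p.n) :
    Tendsto (x0 T p) T.𝒰 (𝓝 (T.a + (T.H₀ - T.W * (10 * p.n) : ℝ) * I)) := by
  have a := T.loc.lH.sub (T.loc.lv.mul ((nfl T h).const_mul 10))
  refine (((continuous_ofReal.tendsto _).comp a).mul_const I).const_add _ |>.congr fun j => ?_
  simp only [x0, nn, Function.comp]
  congr 3
  ring

theorem v_lim (T : TD) : Tendsto (fun j => (T.v j : ℂ)) T.𝒰 (𝓝 T.W) :=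
  (continuous_ofReal.tendsto _).comp T.loc.lv

theorem al_lim (T : TD) :
    Tendsto (fun j => al T j / T.ε j) T.𝒰 (𝓝 ((T.W / T.C : ℝ) : ℂ)) :=
  ((continuous_ofReal.tendsto _).comp (T.loc.lv.div_const T.C)).congr fun j => by
    rw [al, mul_div_cancel_left₀ _ (T.seq.e0 j)]
    rfl

theorem xn (T : TD) {c : ℕ} (h : c < T.M) : T.Xn c = T.X ⟨c, h⟩ := dif_pos h

theorem pp (T : TD) {c : ℕ} (h : c < T.M) :
    T.P c = (T.Φ ⟨c, h⟩ (T.W, 0), T.Δ ⟨c, h⟩ (T.W, 0)) := dif_pos h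

theorem W0 (T : TD) : 0 < T.W := by linarith [T.W1]

theorem L0 (T : TD) : 0 < T.L := by nlinarith [T.W1, T.LW, T.loc.C1]

theorem xn_im (T : TD) {c : ℕ} (h : c < T.M) : (T.Xn c T.W).im = T.H₀ := by
  rw [xn T h]
  exact (T.obs.top _).1

theorem xn_an (T : TD) {c : ℕ} (h : c < T.M) : AnalyticAt ℂ (T.Xn c) T.W := by
  rw [xn T h]
  exact (T.obs.one _).an _ (mem_ball_self T.obs.σ0)

/-- the limit wedge -/
def wd (T : TD) : Set C2 := Wd T.a T.L (-T.E.b₀) T.ρ T.K T.C T.W T.H₀ T.b₀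

theorem eqY (T : TD) : EqOn T.Y T.F₀ (wd T) := fun q hq =>
  ((wom T.mx T.hα T.hβ T.hb (L0 T) T.loc T.sU T.eqA).2 q hq).2

theorem wd_of (T : TD) {x : ℂ} (h : ((T.W : ℂ), x) ∈ T.E.Om) (h' : x.im < T.H₀) :
    ((T.W : ℂ), x) ∈ wd T := by
  obtain ⟨-, a, b, c⟩ := (D.om T.E T.mx.ok).2.2.2 _ h
  rw [T.hα] at a
  rw [T.hβ] at b
  exact mem_wd.2 ⟨by simpa using T.loc.ρ0, abs_lt.2 ⟨by linarith, by linarith⟩, by linarith,
    by simpa [tw] using h'⟩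

/-- the checkpoint on the top line: `e = -1` before, `e = 1` after the obstacle -/
def ck (ϱ : ℝ) (c : ℕ) (e : ℝ) : ℂ := T.Xn c T.W + (e * T.W * (‖O.κ c‖ * ϱ ^ 2 / 4) : ℝ)

/-- the limit family near the checkpoints -/
def Gd (ϱ : ℝ) : Prop := ∀ c < T.M, (0 < ϱ ∧ ϱ ≤ O.r₀ c) ∧ ∀ e : ℝ, e = 1 ∨ e = -1 →
  ∀ᶠ q in 𝓝 (((T.W : ℂ), ck O ϱ c e) : C2), q ∈ T.E.Om ∧
    Obl T.E.g (O.Ξ₀ c) (T.P c) (T.W ^ 3) ϱ (O.s c) T.Y (T.Xn c) q ∧
    Z0 T.Y q ∈ Ins T.E.g (T.P c) (T.W ^ 3) ϱ (O.s c)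

theorem gd : ∀ᶠ ϱ in 𝓝[>] (0 : ℝ), Gd O ϱ := by
  refine (eventually_all_finite (finite_lt_nat T.M)).2 fun c (h : c < T.M) => ?_
  have W0 := W0 T
  have w0 : (T.W : ℂ) ≠ 0 := ofReal_ne_zero.2 W0.ne'
  have Lv := (O.lv c h).lim
  have o := T.obs.one ⟨c, h⟩
  rw [← xn T h] at o
  obtain ⟨δ, δ0, δ1, δ2, H⟩ := one_clk o T.obs.σ0 T.obs.ρ0 w0 (pp T h ▸ Lv)
  rw [← pp T h] at H
  have k0 := norm_pos_iff.2 Lv.κ0
  have t : Tendsto (fun ϱ : ℝ => T.W * (‖O.κ c‖ * ϱ ^ 2 / 4)) (𝓝[>] 0) (𝓝 0) := by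
    simpa using ((by fun_prop : Continuous fun ϱ : ℝ => T.W * (‖O.κ c‖ * ϱ ^ 2 / 4)).tendsto
      0).mono_left nhdsWithin_le_nhds
  filter_upwards [t.eventually_lt_const δ0, Ioc_mem_nhdsGT Lv.r0] with ϱ a b
  refine ⟨b, fun e he => ?_⟩
  have ϱ0 := b.1
  obtain ⟨d, hd⟩ : ∃ d, d = ‖O.κ c‖ * ϱ ^ 2 / 4 := ⟨_, rfl⟩
  have d0 : 0 < d := by rw [hd]; positivity
  have e1 : |e| = 1 := by rcases he with rfl | rfl <;> simp
  have e0 : e ≠ 0 := fun k => by simp [k] at e1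
  rw [← hd] at a
  have z : ck O ϱ c e - T.Xn c T.W = (e * T.W * d : ℝ) := by rw [ck, hd, add_sub_cancel_left]
  have n1 : ‖ck O ϱ c e - T.Xn c T.W‖ = T.W * d := by
    rw [z, norm_real, Real.norm_eq_abs, abs_mul, abs_mul, e1, abs_of_pos W0, abs_of_pos d0, one_mul]
  have c1 := continuous_fst.tendsto (((T.W : ℂ), ck O ϱ c e) : C2)
  have c2 := continuous_snd.tendsto (((T.W : ℂ), ck O ϱ c e) : C2)
  have c3 := c2.sub ((xn_an T h).continuousAt.tendsto.comp c1)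
  have c4 := (c3.div c1 w0).norm
  have n2 : ‖(ck O ϱ c e - T.Xn c T.W) / T.W‖ = d := by
    rw [norm_div, n1, norm_real, Real.norm_eq_abs, abs_of_pos W0]
    field_simp
  have c5 := ((c1.pow 3).sub_const ((T.W : ℂ) ^ 3)).norm
  dsimp only at c4 c5
  rw [n2] at c4
  rw [sub_self, norm_zero] at c5
  filter_upwards [c1.eventually (ball_mem_nhds _ δ0), c3.norm.eventually_lt_const (n1 ▸ a),
    ((continuous_re.tendsto _).comp c3).eventually_ne (b₂ := 0)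
      (by rw [z, ofReal_re]; positivity),
    c4.eventually_const_le (show d / 8 < d by linarith),
    c4.eventually_le_const (show d < 2 * d by linarith),
    c5.eventually_lt_const (half_pos ϱ0),
    (c2.sub_const (T.Xn c T.W)).norm.eventually_lt_const (n1 ▸ a)] with q k1 k2 k3 k4 k5 k6 k7
  have ns : ¬ D.Sl (T.Xn c q.1) q.2 := fun s => k3 (sub_eq_zero.2 s.1)
  obtain ⟨u1, u2⟩ := H q.1 q.2 (mem_ball_iff_norm.1 k1) k2 ns
  have m1 : q.1 ∈ ball (T.W : ℂ) T.σ := ball_subset_ball δ1 k1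
  have s1 : ‖O.κ c‖ * ϱ ^ 2 / 32 ≤ ‖(q.2 - T.Xn c q.1) / q.1‖ := le_trans (by linarith) k4
  have s2 : ‖(q.2 - T.Xn c q.1) / q.1‖ ≤ ‖O.κ c‖ * ϱ ^ 2 / 2 := le_trans k5 (by linarith)
  have b1 := abs_lt.1 ((abs_re_le_norm _).trans_lt k7)
  have b2 := abs_lt.1 ((abs_im_le_norm _).trans_lt k7)
  rw [sub_re] at b1
  rw [sub_im] at b2
  have l1 := T.obs.lim.2.2
  have l2 := T.mx.ok.lt
  have l3 := xn_im T h
  exact ⟨(o.om _ m1 _ ⟨by linarith, by linarith, by linarith, by linarith⟩).2 ns,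
    Clm.obl u2 Lv ϱ0 s1 s2 k6 u1 (o.an _ m1), u2.ins Lv ϱ0 s1 s2 k6⟩

/-- the base point below the checkpoint -/
def bp (ϱ n : ℝ) (c : ℕ) (e : ℝ) : C2 := (T.W, ck O ϱ c e - (T.W * (10 * n) : ℝ) * I)

theorem bp_lim (ϱ : ℝ) (c : ℕ) (e : ℝ) :
    Tendsto (fun n => bp O ϱ n c e) (𝓝[>] 0) (𝓝 ((T.W : ℂ), ck O ϱ c e)) := by
  simpa [bp] using ((by unfold bp; fun_prop : Continuous fun n => bp O ϱ n c e).tendsto
    0).mono_left nhdsWithin_le_nhds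

theorem bp_eq (p : Sc) {c : ℕ} (h : c < T.M) (e : ℝ) : bp O p.ϱ p.n c e =
    ((T.W : ℂ), T.a + (T.H₀ - T.W * (10 * p.n) : ℝ) * I +
      T.W * (T.pos c + e * dd O p c : ℝ)) := by
  have W0 := (W0 T).ne'
  refine Prod.ext rfl (Complex.ext ?_ ?_)
  · simp only [bp, ck, dd, TD.pos, sub_re, add_re, ofReal_re, mul_re, I_re, I_im, ofReal_im]
    field_simp
    ring
  · simp only [bp, ck, sub_im, add_im, ofReal_re, mul_im, I_re, I_im, ofReal_im, xn_im T h]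
    ring

/-- the true clock converges near the base points -/
def Gb (ϱ n : ℝ) : Prop := 0 < n ∧ ∀ c < T.M, ∀ e : ℝ, e = 1 ∨ e = -1 → ∃ δ > 0,
  closedBall (bp O ϱ n c e) δ ⊆ wd T ∧ ∀ q ∈ closedBall (bp O ϱ n c e) δ,
    Obl T.E.g (O.Ξ₀ c) (T.P c) (T.W ^ 3) ϱ (O.s c) T.F₀ (T.Xn c) q ∧
    Z0 T.F₀ q ∈ Ins T.E.g (T.P c) (T.W ^ 3) ϱ (O.s c)

theorem gb {ϱ : ℝ} (G : Gd O ϱ) : ∀ᶠ n in 𝓝[>] (0 : ℝ), Gb O ϱ n := by
  refine (eventually_mem_nhdsWithin (s := Ioi (0 : ℝ))).and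
    ((eventually_all_finite (finite_lt_nat T.M)).2 fun c (h : c < T.M) => ?_)
  have W0 := W0 T
  have op : IsOpen (wd T) := wd_open _ _ _ _ _ _ _ _ _
  have one : ∀ e : ℝ, e = 1 ∨ e = -1 → ∀ᶠ n in 𝓝[>] (0 : ℝ), ∃ δ > 0,
      closedBall (bp O ϱ n c e) δ ⊆ wd T ∧ ∀ q ∈ closedBall (bp O ϱ n c e) δ,
        Obl T.E.g (O.Ξ₀ c) (T.P c) (T.W ^ 3) ϱ (O.s c) T.F₀ (T.Xn c) q ∧
        Z0 T.F₀ q ∈ Ins T.E.g (T.P c) (T.W ^ 3) ϱ (O.s c) := fun e he => by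
    filter_upwards [(bp_lim O ϱ c e).eventually ((G c h).2 e he).eventually_nhds,
      self_mem_nhdsWithin] with n a (n0 : 0 < n)
    have m : bp O ϱ n c e ∈ wd T := wd_of T a.self_of_nhds.1 (by
      simp only [ck, sub_im, add_im, ofReal_re, mul_im, I_re, I_im, ofReal_im, xn_im T h]
      nlinarith [mul_pos W0 n0])
    obtain ⟨δ, δ0, k⟩ := nhds_basis_closedBall.eventually_iff.1 (a.and (op.eventually_mem m))
    refine ⟨δ, δ0, fun q hq => (k hq).2, fun q hq => ?_⟩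
    obtain ⟨⟨-, u, u'⟩, w⟩ := k hq
    have z := z0_congr op (eqY T) w
    exact ⟨⟨z ▸ u.g0, z ▸ u.yd, z ▸ u.la, z ▸ u.lv, z ▸ u.tm, u.w0, u.an⟩, z ▸ u'⟩
  filter_upwards [one 1 (.inl rfl), one (-1) (.inr rfl)] with n a b e he
  rcases he with rfl | rfl
  exacts [a, b]

theorem sl0_eq (T : TD) {c : ℕ} (h : c < T.M) (y : ℝ) : ((T.W / T.C : ℝ) *
    deriv (fun w => (T.Xn c w - (T.a + y * I)) / w) T.W).re = T.sl0 c := by
  have W0 := (W0 T).ne'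
  rw [sl_eq (xn_an T h) W0, TD.sl0, TD.pos]
  simp only [add_re, ofReal_re, mul_re, I_re, I_im, ofReal_im]
  field_simp
  ring

end St

open St in
theorem sl : R_SL := by
  intro T O
  filter_upwards [gd O] with ϱ G
  refine .of_forall fun r => .of_forall fun A => .of_forall fun m => ?_
  filter_upwards [gb O G] with n B
  refine .of_forall fun R => .of_forall fun H => .of_forall fun K c h => ?_
  obtain ⟨p, hp⟩ : ∃ p : Sc, p = ⟨ϱ, r, A, m, n, R, H⟩ := ⟨_, rfl⟩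
  rw [← hp]
  obtain ⟨δ, δ0, b1, b2⟩ := B.2 c h (-1) (.inr rfl)
  have e1 : ϱ = p.ϱ := by rw [hp]
  have e2 : n = p.n := by rw [hp]
  have n0 := B.1
  have g0 := (G c h).1
  rw [e1, e2, bp_eq O p h] at b1 b2
  rw [e2] at n0
  rw [e1] at g0
  have hi : hi0 O p c = T.pos c + -1 * dd O p c := by rw [hi0, if_pos h]; ring
  have t := slp ((O.lv c h).mono g0.1 g0.2) (tf_of T.loc) T.seq.e0 T.seq.el
    (i := fun j => ((md O p j).hi c : ℂ)) (ν := fun j => (md O p j).ν (T.ε j) c) δ0 b1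
    (fun q hq => (b2 q hq).1) (v_lim T) (x0_lim T n0.le)
    (by
      rw [← hi]
      exact ((continuous_ofReal.tendsto _).comp (fl T (hi0 O p c))).congr fun j => by
        simp [md]) (al_lim T) (.of_forall fun j ζ => rfl)
  rw [← sl0_eq T h (T.H₀ - T.W * (10 * p.n))]
  exact (continuous_re.tendsto _).comp t

end Vale.Agent.P097F.LC
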