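import Vale.Agent.P097F.LC.Defs
import Vale.Agent.P097F.N.Ob2

/-!
# P097F/LC: the slopes of the obstacles converge
-/

set_option linter.all false

noncomputable section

namespace Vale.Agent.P097F.LC

open Filter Topology Set Metric Complex Vale.Agent.P097F.N Vale.Agent.P097F.S Vale.Agent.P097D
open Vale.Agent.P097EE (C2)

namespace H41

theorem all {P : ℕ → Sc → ℝ → Prop} (M : ℕ) (h : ∀ c < M, Ev (P c)) :
    Ev fun p K => ∀ c < M, P c p K := by
  induction M with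
  | zero =>
    refine .of_forall fun _ => .of_forall fun _ => .of_forall fun _ => .of_forall fun _ =>
      .of_forall fun _ => .of_forall fun _ => .of_forall fun _ => .of_forall fun _ c hc => ?_
    omega
  | succ M ih =>
    refine ((ih fun c hc => h c (by omega)).and (h M (by omega))).mono fun p K a c hc => ?_
    rcases Nat.lt_succ_iff_lt_or_eq.1 hc with e | e
    · exact a.1 c e
    · exact e ▸ a.2

variable (T : TD)

theorem el : Tendsto T.ε T.𝒰 (𝓝 0) := by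
  have := (continuous_re.tendsto 0).comp T.seq.el
  exact this

theorem fl (x : ℝ) : Tendsto (fun j => T.ε j * (⌊x / T.ε j⌋ : ℝ)) T.𝒰 (𝓝 x) := by
  have a : Tendsto (fun j => x - T.ε j) T.𝒰 (𝓝 x) := by simpa using (el T).const_sub x
  refine tendsto_of_tendsto_of_tendsto_of_le_of_le a tendsto_const_nhds (fun j => ?_) fun j => ?_
  · have := mul_le_mul_of_nonneg_left (Int.sub_one_lt_floor (x / T.ε j)).le (T.e0 j).le
    rwa [mul_sub, mul_one, mul_div_cancel₀ _ (T.e0 j).ne'] at this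
  · have := mul_le_mul_of_nonneg_left (Int.floor_le (x / T.ε j)) (T.e0 j).le
    rwa [mul_div_cancel₀ _ (T.e0 j).ne'] at this

theorem fln {x : ℝ} (x0 : 0 ≤ x) : Tendsto (fun j => T.ε j * (⌊x / T.ε j⌋₊ : ℝ)) T.𝒰 (𝓝 x) := by
  refine (fl T x).congr fun j => ?_
  rw [← Int.natCast_floor_eq_floor (div_nonneg x0 (T.e0 j).le), Int.cast_natCast]

theorem L0 : 0 < T.L := by nlinarith [T.LW, T.W1, T.loc.C1]

variable {T}

/-- the clock near a station converges to the model clock -/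
theorem core (O : Ob T) (c : Fin T.M) : ∃ δ > 0, ∀ (ϱ : ℝ) (t : ℂ), 0 < ϱ → ϱ ≤ O.r₀ c →
    T.W * ‖t‖ < δ → t.re ≠ 0 → t.im < 0 → ‖O.κ c‖ * ϱ ^ 2 / 32 < ‖t‖ → ‖t‖ < ‖O.κ c‖ * ϱ ^ 2 / 2 →
    ∃ η > 0, ∀ e > 0, ∀ᶠ j in (T.𝒰 : Filter ℕ),
      ∀ q ∈ closedBall (((T.W : ℂ), T.X c T.W + T.W * t) : C2) η,
      AnalyticAt ℂ (T.X c) q.1 ∧ q.1 ≠ 0 ∧
      DifferentiableAt ℂ (fun q => clk (fq (T.g j) (O.Ξ c j)) (La (T.g j) (Zt (T.ε j) (T.F j) q))) q ∧
      ‖clk (fq (T.g j) (O.Ξ c j)) (La (T.g j) (Zt (T.ε j) (T.F j) q)) -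
        (q.2 - T.X c q.1) / q.1‖ < e := by
  have S := O.lv c c.2
  have eP : T.P c = (T.Φ c (T.W, 0), T.Δ c (T.W, 0)) := dif_pos c.2
  have W1 := T.W1
  have W0 : (T.W : ℂ) ≠ 0 := ofReal_ne_zero.2 (by linarith)
  have on := T.obs.one c
  obtain ⟨δ, δ0, δ1, -, hδ⟩ := one_clk on T.obs.σ0 T.obs.ρ0 W0 (eP ▸ S.lim)
  rw [← eP] at hδ
  refine ⟨min δ 1, by positivity, fun ϱ t ϱ0 ϱ1 t1 t2 t3 t4 t5 => ?_⟩
  obtain ⟨x1, x2, x3⟩ := T.obs.top c
  have aX := on.an _ (mem_ball_self T.obs.σ0)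
  have wo := (wom T.mx T.hα T.hβ T.hb (L0 T) T.loc T.sU T.eqA).2
  have op := wd_open T.a T.L (-T.E.b₀) T.ρ T.K T.C T.W T.H₀ T.b₀
  have n1 : ‖(T.W : ℂ) * t‖ < min δ 1 := by
    rwa [norm_mul, Complex.norm_real, Real.norm_of_nonneg (by linarith)]
  have n2 := abs_lt.1 ((abs_re_le_norm _).trans_lt (n1.trans_le (min_le_right _ _)))
  have n3 := abs_lt.1 ((abs_im_le_norm _).trans_lt (n1.trans_le (min_le_right _ _)))
  have n4 : ((T.W : ℂ) * t).im < 0 := by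
    rw [im_ofReal_mul]
    exact mul_neg_of_pos_of_neg (by linarith) t3
  have n5 : ((T.W : ℂ) * t).re ≠ 0 := by
    rw [re_ofReal_mul]
    exact mul_ne_zero (by linarith) t2
  obtain ⟨q₀, hq⟩ : ∃ q₀ : C2, q₀ = ((T.W : ℂ), T.X c T.W + T.W * t) := ⟨_, rfl⟩
  have q1 : q₀.1 = T.W := by rw [hq]
  have q2 : q₀.2 = T.X c T.W + T.W * t := by rw [hq]
  rw [← hq]
  have m0 : q₀ ∈ Wd T.a T.L (-T.E.b₀) T.ρ T.K T.C T.W T.H₀ T.b₀ := by
    have ρ0 := T.loc.ρ0
    have hi := T.loc.hi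
    have p1 : 0 ≤ T.C * T.ρ := mul_nonneg (by linarith [T.loc.C1]) ρ0.le
    have p2 : 0 ≤ T.K * T.ρ ^ 2 := mul_nonneg T.loc.K0 (sq_nonneg _)
    refine mem_wd.2 ⟨by rw [q1, sub_self, norm_zero]; exact ρ0, ?_, ?_, ?_⟩
    · rw [q2, add_re, abs_lt]
      constructor <;> linarith
    · rw [q2, add_im]
      linarith
    · rw [q1, q2, add_im]
      simp only [tw, ofReal_re, ofReal_im, sub_self, abs_zero]
      linarith
  have cX : ContinuousAt (fun q : C2 => T.X c q.1) q₀ :=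
    ContinuousAt.comp (g := T.X c) (q1 ▸ aX.continuousAt) continuousAt_fst
  have cD : ContinuousAt (fun q : C2 => q.2 - T.X c q.1) q₀ := continuousAt_snd.sub cX
  have eD : q₀.2 - T.X c q₀.1 = T.W * t := by rw [q1, q2, add_sub_cancel_left]
  have ct : ContinuousAt (fun q : C2 => ‖(q.2 - T.X c q.1) / q.1‖) q₀ :=
    (cD.div continuousAt_fst (q1 ▸ W0)).norm
  have et : ‖(q₀.2 - T.X c q₀.1) / q₀.1‖ = ‖t‖ := by rw [eD, q1, mul_div_cancel_left₀ _ W0]
  have ev : ∀ᶠ q in 𝓝 q₀, q ∈ Wd T.a T.L (-T.E.b₀) T.ρ T.K T.C T.W T.H₀ T.b₀ ∧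
      ‖q.1 - T.W‖ < δ ∧ ‖q.2 - T.X c q.1‖ < δ ∧ (q.2 - T.X c q.1).re ≠ 0 ∧
      ‖O.κ c‖ * ϱ ^ 2 / 32 < ‖(q.2 - T.X c q.1) / q.1‖ ∧
      ‖(q.2 - T.X c q.1) / q.1‖ < ‖O.κ c‖ * ϱ ^ 2 / 2 ∧ ‖q.1 ^ 3 - (T.W : ℂ) ^ 3‖ < ϱ / 2 := by
    refine (op.eventually_mem m0).and (Eventually.and ?_ (Eventually.and ?_ (Eventually.and ?_
      (Eventually.and ?_ (Eventually.and ?_ ?_)))))
    · exact (continuousAt_fst.sub continuousAt_const).norm.eventually
        (gt_mem_nhds (show ‖q₀.1 - T.W‖ < δ by rw [q1, sub_self, norm_zero]; exact δ0))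
    · exact cD.norm.eventually (gt_mem_nhds (show ‖q₀.2 - T.X c q₀.1‖ < δ by
        rw [eD]; exact n1.trans_le (min_le_left _ _)))
    · exact (continuous_re.continuousAt.comp cD).eventually_ne (by
        show (q₀.2 - T.X c q₀.1).re ≠ 0
        rwa [eD])
    · exact ct.eventually (lt_mem_nhds (t4.trans_eq et.symm))
    · exact ct.eventually (gt_mem_nhds (et.trans_lt t5))
    · exact ((continuousAt_fst.pow 3).sub continuousAt_const).norm.eventually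
        (gt_mem_nhds (show ‖q₀.1 ^ 3 - (T.W : ℂ) ^ 3‖ < ϱ / 2 by
          rw [q1, sub_self, norm_zero]; linarith))
  obtain ⟨η, η0, hη⟩ := nhds_basis_closedBall.eventually_iff.1 ev
  have Tf := tf_of T.loc
  have sub : closedBall q₀ η ⊆ Wd T.a T.L (-T.E.b₀) T.ρ T.K T.C T.W T.H₀ T.b₀ :=
    fun q hq => (hη hq).1
  have cl : ∀ q ∈ closedBall q₀ η, q.1 ≠ 0 ∧ Clm T.E.g (O.Ξ₀ c) (T.P c) (T.W ^ 3) (O.r₀ c) (O.s c)
      (Z0 T.F₀ q) q.1 ((q.2 - T.X c q.1) / q.1) := fun q hq => by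
    obtain ⟨a1, a2, a3, a4, -⟩ := hη hq
    rw [← z0_congr op (fun p hp => (wo p hp).2) a1]
    exact hδ q.1 q.2 a2 a3 fun s => a4 (by rw [sub_re, s.1, sub_self])
  obtain ⟨⟨a, a0, h1⟩, h2⟩ := S.tru ϱ0 ϱ1 Tf T.seq.e0 T.seq.el (isCompact_closedBall q₀ η) sub
    (t := fun q => (q.2 - T.X c q.1) / q.1) fun q hq =>
      ⟨(cl q hq).2, (hη hq).2.2.2.2.1.le, (hη hq).2.2.2.2.2.1.le, (hη hq).2.2.2.2.2.2⟩
  refine ⟨η, η0, fun e e0 => ?_⟩
  filter_upwards [h1, h2 e e0, S.ev,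
    Tf.zu T.seq.e0 T.seq.el (isCompact_closedBall q₀ η) sub one_pos] with j b1 b2 b3 b4 q hq
  refine ⟨on.an _ (mem_ball_iff_norm.2 ((hη hq).2.1.trans_le δ1)), (cl q hq).1, ?_, (b2 q hq).1⟩
  have ck := b1 q hq a le_rfl
  obtain ⟨-, m1, m2⟩ := ck.mem _ (mem_ball_self a0)
  have d1 := b3.clk.an.differentiableAt (isOpen_ball.mem_nhds
    (mem_bd.2 ⟨m1.trans_le (by linarith), m2.trans_le (by linarith)⟩))
  exact d1.comp q ((ck.an _ (mem_ball_self a0)).differentiableAt.comp q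
    (b4 q hq).1.differentiableAt)

/-- the slope of the model at the step `v j` -/
theorem lim (c : Fin T.M) (x₀ : ℕ → ℂ) (hx : ∀ j, (x₀ j).re = T.a) :
    Tendsto (fun j => (((T.v j / T.C : ℝ) : ℂ) *
      deriv (fun w => (T.X c w - x₀ j) / w) (T.v j)).re) T.𝒰 (𝓝 (T.sl0 c)) := by
  have W1 := T.W1
  have aX := (T.obs.one c).an _ (mem_ball_self T.obs.σ0)
  have lv : Tendsto (fun j => (T.v j : ℂ)) T.𝒰 (𝓝 T.W) := (continuous_ofReal.tendsto _).comp T.loc.lv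
  have eX : T.Xn c = T.X c := dif_pos c.2
  have l1 := (continuous_re.tendsto _).comp (aX.deriv.continuousAt.tendsto.comp lv)
  have l2 := (continuous_re.tendsto _).comp (aX.continuousAt.tendsto.comp lv)
  have l3 := (l1.sub ((l2.sub_const T.a).div T.loc.lv (by linarith))).div_const T.C
  unfold TD.sl0 TD.pos
  rw [eX]
  refine l3.congr' ?_
  filter_upwards [lv.eventually aX.eventually_analyticAt,
    T.loc.lv.eventually (lt_mem_nhds (show 0 < T.W by linarith))] with j a v0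
  have v1 : (T.v j : ℂ) ≠ 0 := ofReal_ne_zero.2 v0.ne'
  have d := ((a.differentiableAt.hasDerivAt.sub_const (x₀ j)).div (hasDerivAt_id _) v1).deriv
  have e : ((T.v j / T.C : ℝ) : ℂ) * deriv (fun w => (T.X c w - x₀ j) / w) (T.v j) =
      (deriv (T.X c) (T.v j) - (T.X c (T.v j) - x₀ j) / (T.v j : ℝ)) / (T.C : ℝ) := by
    rw [show (fun w => (T.X c w - x₀ j) / w) = ((fun w => T.X c w - x₀ j) / id) from rfl, d]
    simp only [id, ofReal_div]
    field_simp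
  rw [e, div_ofReal_re, sub_re, div_ofReal_re, sub_re, hx]
  rfl

theorem one (O : Ob T) (c : Fin T.M) :
    Ev fun p _ => Tendsto (fun j => (md O p j).sl (T.ε j) c) T.𝒰 (𝓝 (T.sl0 c)) := by
  obtain ⟨δ, δ0, hδ⟩ := core O c
  have W1 := T.W1
  have C1 := T.loc.C1
  have S := (O.lv c c.2).lim
  have κ0 : 0 < ‖O.κ c‖ := norm_pos_iff.2 S.κ0
  have t0 : Tendsto (fun ϱ : ℝ => T.W * (‖O.κ c‖ * ϱ ^ 2 / 2)) (𝓝[>] 0) (𝓝 0) := by
    have : Continuous fun ϱ : ℝ => T.W * (‖O.κ c‖ * ϱ ^ 2 / 2) := by fun_prop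
    simpa using (this.tendsto 0).mono_left nhdsWithin_le_nhds
  filter_upwards [t0.eventually (gt_mem_nhds δ0), self_mem_nhdsWithin,
    nhdsWithin_le_nhds (ge_mem_nhds S.r0)] with ϱ a1 (a2 : 0 < ϱ) (a3 : ϱ ≤ O.r₀ c)
  refine .of_forall fun r => .of_forall fun A => .of_forall fun m => ?_
  have k0 : 0 < ‖O.κ c‖ * ϱ ^ 2 := by positivity
  filter_upwards [self_mem_nhdsWithin, nhdsWithin_le_nhds (gt_mem_nhds
    (show 0 < ‖O.κ c‖ * ϱ ^ 2 / 80 by positivity))] with n (n0 : 0 < n)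
    (n1 : n < ‖O.κ c‖ * ϱ ^ 2 / 80)
  refine .of_forall fun R => .of_forall fun H => .of_forall fun _ => ?_
  obtain ⟨p, hp⟩ : ∃ p : Sc, p = ⟨ϱ, r, A, m, n, R, H⟩ := ⟨_, rfl⟩
  have p1 : dd O p c = ‖O.κ c‖ * ϱ ^ 2 / 4 := by rw [hp]; rfl
  have p2 : p.n = n := by rw [hp]
  rw [← hp]
  obtain ⟨t, ht⟩ : ∃ t : ℂ, t = -(dd O p c : ℝ) - (10 * n : ℝ) * I := ⟨_, rfl⟩
  have t1 : t.re = -dd O p c := by simp [ht]
  have t2 : t.im = -(10 * n) := by simp [ht]
  have t3 : ‖t‖ < ‖O.κ c‖ * ϱ ^ 2 / 2 := by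
    refine (norm_le_abs_re_add_abs_im t).trans_lt ?_
    rw [t1, t2, abs_neg, abs_neg, abs_of_pos (by linarith), abs_of_pos (by linarith)]
    linarith
  have t4 : ‖O.κ c‖ * ϱ ^ 2 / 32 < ‖t‖ := by
    refine lt_of_lt_of_le ?_ (abs_re_le_norm t)
    rw [t1, abs_neg, abs_of_pos (by linarith)]
    linarith
  obtain ⟨η, η0, hη⟩ := hδ ϱ t a2 a3 ((mul_lt_mul_of_pos_left t3 (by linarith)).trans a1)
    (by rw [t1]; linarith) (by rw [t2]; linarith) t4 t3
  have h0 : hi0 O p c = T.pos c - dd O p c := if_pos c.2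
  have li := fl T (hi0 O p c)
  have ln : Tendsto (fun j => T.ε j * (nn T p j : ℝ)) T.𝒰 (𝓝 n) := p2 ▸ fln T (p2 ▸ n0.le)
  have lx : Tendsto (fun j => x0 T p j + T.ε j * T.v j * (⌊hi0 O p c / T.ε j⌋ : ℤ)) T.𝒰
      (𝓝 (T.X c T.W + T.W * t)) := by
    have b1 := (continuous_ofReal.tendsto _).comp ((T.loc.lv.mul li).const_add T.a)
    have b2 := (continuous_ofReal.tendsto _).comp (T.loc.lH.sub (T.loc.lv.mul (ln.const_mul 10)))
    have b3 := b1.add (b2.mul_const I)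
    have e : ((T.a + T.W * hi0 O p c : ℝ) : ℂ) + ((T.H₀ - T.W * (10 * n) : ℝ) : ℂ) * I =
        T.X c T.W + T.W * t := by
      have eX : T.Xn c = T.X c := dif_pos c.2
      refine Complex.ext ?_ ?_
      · simp only [add_re, ofReal_re, re_ofReal_mul, I_re, t1, h0, TD.pos, eX]
        field_simp
        ring
      · simp only [add_im, ofReal_im, im_ofReal_mul, I_im, t2, (T.obs.top c).1]
        ring
    rw [e] at b3
    refine b3.congr fun j => ?_
    simp only [Function.comp, x0]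
    push_cast
    ring
  have y0 : 0 < |hi0 O p c| + 1 := by positivity
  obtain ⟨w, w0, hw⟩ : ∃ w > 0, 2 * T.W * w * (|hi0 O p c| + 1) = η / 2 :=
    ⟨η / (4 * T.W * (|hi0 O p c| + 1)), by positivity, by field_simp; ring⟩
  have l := lim c (x0 T p) fun j => by simp [x0]
  have key : Tendsto (fun j => (md O p j).sl (T.ε j) c - (((T.v j / T.C : ℝ) : ℂ) *
      deriv (fun w => (T.X c w - x0 T p j) / w) (T.v j)).re) T.𝒰 (𝓝 0) := by
    refine Metric.tendsto_nhds.2 fun e e0 => ?_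
    filter_upwards [hη (e * w / 4) (by positivity),
      Metric.tendsto_nhds.1 T.loc.lv (min (η / 2) 1) (by positivity),
      Metric.tendsto_nhds.1 lx (η / 2) (by positivity), Metric.tendsto_nhds.1 li 1 one_pos]
      with j b1 b2 b3 b4
    have ε0 := T.e0 j
    rw [Real.dist_eq] at b2 b4
    rw [dist_eq_norm] at b3
    have b5 := abs_lt.1 (b2.trans_le (min_le_right _ _))
    have mem : ∀ ζ ∈ ball (0 : ℂ) (w / T.ε j), pt T p j ((⌊hi0 O p c / T.ε j⌋ : ℤ), ζ) ∈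
        closedBall (((T.W : ℂ), T.X c T.W + T.W * t) : C2) η := fun ζ hζ => by
      have c1 : T.ε j * ‖ζ‖ ≤ w := by
        have := (mem_ball_zero_iff.1 hζ).le
        rwa [le_div_iff₀' ε0] at this
      have c2 : T.v j / T.C ≤ 2 * T.W := (div_le_self (by linarith) C1).trans (by linarith)
      have c3 : ‖al T j * ζ‖ ≤ 2 * T.W * w := by
        rw [al, norm_mul, norm_mul, Complex.norm_real, Complex.norm_real, Real.norm_of_nonneg ε0.le,
          Real.norm_of_nonneg (div_nonneg (by linarith) (by linarith)), mul_right_comm, mul_comm]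
        exact mul_le_mul c2 c1 (by positivity) (by linarith)
      have c4 : |T.ε j * (⌊hi0 O p c / T.ε j⌋ : ℝ)| ≤ |hi0 O p c| + 1 := by
        linarith [abs_sub_abs_le_abs_sub (T.ε j * (⌊hi0 O p c / T.ε j⌋ : ℝ)) (hi0 O p c)]
      have c5 : 2 * T.W * w ≤ η / 2 := by
        have : 0 ≤ 2 * T.W * w * |hi0 O p c| := by positivity
        linarith
      rw [mem_closedBall_iff_norm]
      refine norm_prod_le_iff.2 ⟨?_, ?_⟩
      · have e : (pt T p j ((⌊hi0 O p c / T.ε j⌋ : ℤ), ζ) - ((T.W : ℂ), T.X c T.W + T.W * t)).1 =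
            ((T.v j - T.W : ℝ) : ℂ) + al T j * ζ := by
          simp only [pt, Prod.fst_sub]
          push_cast
          ring
        rw [e]
        refine (norm_add_le _ _).trans ?_
        rw [Complex.norm_real, Real.norm_eq_abs]
        linarith [min_le_left (η / 2) 1]
      · have e : (pt T p j ((⌊hi0 O p c / T.ε j⌋ : ℤ), ζ) - ((T.W : ℂ), T.X c T.W + T.W * t)).2 =
            (x0 T p j + T.ε j * T.v j * (⌊hi0 O p c / T.ε j⌋ : ℤ) - (T.X c T.W + T.W * t)) +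
              al T j * ζ * ((T.ε j * (⌊hi0 O p c / T.ε j⌋ : ℝ) : ℝ) : ℂ) := by
          simp only [pt, Prod.snd_sub]
          push_cast
          ring
        rw [e]
        refine (norm_add_le _ _).trans ?_
        rw [norm_mul, Complex.norm_real, Real.norm_eq_abs]
        linarith [mul_le_mul c3 c4 (abs_nonneg _) (by positivity)]
    have e1 : (md O p j).hi c = ⌊hi0 O p c / T.ε j⌋ := rfl
    have k := slope_one (τ := (md O p j).τ₀ c) (X := T.X c) (v := T.v j) (x₀ := x0 T p j)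
      (c := ((T.v j / T.C : ℝ) : ℂ)) (i := (⌊hi0 O p c / T.ε j⌋ : ℤ)) (e := e * w / 4)
      (div_pos w0 ε0) ε0
      (fun ζ hζ => by
        have d : DifferentiableAt ℂ (fun ζ : ℂ => pt T p j ((⌊hi0 O p c / T.ε j⌋ : ℤ), ζ)) ζ := by
          unfold pt
          fun_prop
        exact ((b1 _ (mem ζ hζ)).2.2.1.comp ζ d).differentiableWithinAt)
      (fun ζ hζ => ⟨(b1 _ (mem ζ hζ)).1, (b1 _ (mem ζ hζ)).2.1⟩)
      (fun ζ hζ => (b1 _ (mem ζ hζ)).2.2.2.le)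
    rw [mul_div_cancel₀ _ ε0.ne'] at k
    rw [Real.dist_eq, sub_zero, Md.sl, ← sub_re]
    refine ((abs_re_le_norm _).trans k).trans_lt ?_
    rw [div_lt_iff₀ w0]
    nlinarith [mul_pos e0 w0]
  have := key.add l
  rw [zero_add] at this
  exact this.congr fun j => sub_add_cancel _ _

theorem sl : R_SL := fun T O => all T.M fun c hc => one O ⟨c, hc⟩

end H41


end Vale.Agent.P097F.LC
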